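import Vale.Agent.P240.Defs

namespace Vale.Agent.P240.K

/-- The simplicial boundary on chains with coefficients in `𝕜`: a finite sequence `[x₀, …, xₙ]` is
sent to `∑ᵢ (-1)ⁱ [x₀, …, x̂ᵢ, …, xₙ]` (augmented: a one-term sequence is sent to the empty one). -/
noncomputable def bd {𝕜 : Type*} [Field 𝕜] {α : Type*} : (List α →₀ 𝕜) →ₗ[𝕜] (List α →₀ 𝕜) :=
  Finsupp.linearCombination 𝕜 fun l : List α =>
    ∑ i ∈ Finset.range l.length, (-1 : 𝕜) ^ i • Finsupp.single (l.eraseIdx i) (1 : 𝕜)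

/-- `z` is a chain supported on strictly increasing sequences with `n` terms, that is,
on the `(n-1)`-simplices of the order complex of `α`. -/
def IsChain {𝕜 : Type*} [Field 𝕜] {α : Type*} [Preorder α] (n : ℕ) (z : List α →₀ 𝕜) : Prop :=
  ∀ l ∈ z.support, l.length = n ∧ l.Pairwise (· < ·)

/-- Some reduced homology group `H̃_{n-1}(-; 𝕜)` (`n ≥ 0`) of the order complex of `α` is
nonzero: some cycle is not a boundary. -/
def HomologyNonzero (𝕜 : Type*) [Field 𝕜] (α : Type*) [Preorder α] : Prop :=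
  ∃ (n : ℕ) (z : List α →₀ 𝕜), IsChain n z ∧ bd z = 0 ∧
    ∀ c : List α →₀ 𝕜, IsChain (n + 1) c → bd c ≠ z

/-- `𝒜ₚ(G)` is not `𝕜`-acyclic. -/
def HQ (𝕜 : Type*) [Field 𝕜] (p : ℕ) (G : Type*) [Group G] : Prop := HomologyNonzero 𝕜 (Ap p G)

end Vale.Agent.P240.K
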