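import Vale.Agent.P240.K.Defs

namespace Vale.Agent.P240.K

open Subgroup

universe u v

section
variable {G : Type u} [Group G]

/-- `E` is a nontrivial elementary abelian `p`-subgroup. -/
def ElemAb (p : ℕ) (E : Subgroup G) : Prop :=
  E ≠ ⊥ ∧ (∀ x ∈ E, ∀ y ∈ E, x * y = y * x) ∧ ∀ x ∈ E, x ^ p = 1

/-- `x` induces on `L` an automorphism of order `p` that is not inner. -/
def Outer (p : ℕ) (L : Subgroup G) (x : G) : Prop :=
  x ∈ normalizer (L : Set G) ∧ x ^ p ∈ centralizer (L : Set G) ∧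
    x ∉ L ⊔ centralizer (L : Set G)

/-- `y` lies in `⟨x⟩ L C_G(L)`: for outer elements `x`, `y` this says that they generate the same
subgroup of order `p` of `Out_G(L) = N_G(L) / L C_G(L)`. -/
def SameOuter (L : Subgroup G) (x y : G) : Prop :=
  y ∈ zpowers x ⊔ (L ⊔ centralizer (L : Set G))

/-- At most two subgroups of order `p` of `Out_G(L)` come from outer elements; and if there are
two, then all elements of order `p` normalize `L` or the poset `𝒜ₚ(L)` is connected. -/
def FewOuter (p : ℕ) (L : Subgroup G) : Prop :=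
  (∀ x y z : G, Outer p L x → Outer p L y → Outer p L z →
    SameOuter L x y ∨ SameOuter L x z ∨ SameOuter L y z) ∧
  ((∀ x y : G, Outer p L x → Outer p L y → SameOuter L x y) ∨
    (∀ g : G, g ^ p = 1 → g ∈ normalizer (L : Set G)) ∨
    ∀ A B : Ap p L, Relation.ReflTransGen (fun X Y => X ≤ Y ∨ Y ≤ X) A B)

/-- Every group `A` with `Inn(L) ≤ A ≤ Aut_G(L)` satisfies the conclusion of the conjecture
(for simple `L` this is a theorem of Aschbacher and Kleidman). -/
def AlmostSimpleHQ (𝕜 : Type*) [Field 𝕜] (p : ℕ) (L : Subgroup G) : Prop :=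
  ∀ A : Subgroup (MulAut L), A ≤ L.normalizerMonoidHom.range → (∀ l : L, MulAut.conj l ∈ A) →
    HQ 𝕜 p A

/-- `L` has an `r`-subgroup `U` such that every elementary abelian `p`-subgroup of `N_G(L)`
normalized by `U` centralizes `L`. -/
def FreeSub (p r : ℕ) (L : Subgroup G) : Prop :=
  ∃ U : Subgroup G, U ≤ L ∧ IsPGroup r U ∧ ∀ E : Subgroup G, ElemAb p E →
    E ≤ normalizer (L : Set G) → U ≤ normalizer (E : Set G) → E ≤ centralizer (L : Set G)

/-- `L` has few outer subgroups and satisfies `AlmostSimpleHQ`; or it has a subgroup as in `FreeSub`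
for the characteristic `q` of `𝕜`. -/
def Removable (𝕜 : Type*) [Field 𝕜] (p : ℕ) (L : Subgroup G) : Prop :=
  (FewOuter p L ∧ AlmostSimpleHQ 𝕜 p L) ∨ ∃ q : ℕ, q.Prime ∧ q ≠ p ∧ (q : 𝕜) = 0 ∧ FreeSub p q L

end

end Vale.Agent.P240.K
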