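import Vale.Agent.P240.K.Ctx

namespace Vale.Agent.P240.K

open Finsupp Subgroup

variable {𝕜 : Type*} [Field 𝕜]

/-! ### Generalities on chains -/

lemma Sp_or {α : Type*} {P P1 P2 : List α → Prop} (h : ∀ l, P l → P1 l ∨ P2 l) {c : Ch 𝕜 α}
    (hc : c ∈ Sp 𝕜 P) : ∃ c1 ∈ Sp 𝕜 P1, ∃ c2 ∈ Sp 𝕜 P2, c = c1 + c2 := by
  have hsplit : c ∈ Sp 𝕜 P1 ⊔ Sp 𝕜 P2 := by
    rw [Sp, Sp, ← Finsupp.supported_union]
    exact Finsupp.supported_mono (fun l hl => h l hl) hc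
  obtain ⟨c1, h1, c2, h2, h3⟩ := Submodule.mem_sup.1 hsplit
  exact ⟨c1, h1, c2, h2, h3.symm⟩

lemma lam_of_len' {α : Type*} {lam : Ch 𝕜 α →ₗ[𝕜] 𝕜} {n : ℕ} {P : List α → Prop}
    (h : ∀ l : List α, l.length ≠ n → lam (single l (1 : 𝕜)) = 0) (hP : ∀ l, P l → l.length ≠ n)
    {c : Ch 𝕜 α} (hc : c ∈ Sp 𝕜 P) : lam c = 0 := by
  have := eq_of_Sp (F := lam) (G := 0) (fun l (hl : P l) => by
    rw [h l (hP l hl)]; rfl) hc
  simpa using this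

lemma bd_len_mem {α : Type*} {n : ℕ} {c : Ch 𝕜 α} (hc : c ∈ Sp 𝕜 (fun l : List α => l.length = n)) :
    bd c ∈ Sp 𝕜 (fun l : List α => l.length + 1 = n) := by
  refine map_mem bd (fun l hl => ?_) hc
  refine Sp_mono (fun m hm => ?_) (bd_single_len l)
  rw [hm, hl]

lemma mp_len_mem {α β : Type*} {f : α → β} {n : ℕ} {c : Ch 𝕜 α}
    (hc : c ∈ Sp 𝕜 (fun l : List α => l.length = n)) :
    mp f c ∈ Sp 𝕜 (fun l : List β => l.length = n) :=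
  mp_mem (fun l hl => by simpa using hl) hc

lemma mp_congr {α β : Type*} {f g : α → β} {P : List α → Prop}
    (h : ∀ l, P l → ∀ a ∈ l, f a = g a) {c : Ch 𝕜 α} (hc : c ∈ Sp 𝕜 P) : mp f c = mp g c :=
  eq_of_Sp (F := mp f) (G := mp g) (fun l hl => by
    rw [mp_single, mp_single, List.map_congr_left (h l hl)]) hc

lemma mp_eq_self {α : Type*} {f : α → α} {P : List α → Prop}
    (h : ∀ l, P l → ∀ a ∈ l, f a = a) {c : Ch 𝕜 α} (hc : c ∈ Sp 𝕜 P) : mp f c = c := by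
  have := eq_of_Sp (F := mp f) (G := LinearMap.id) (fun l hl => by
    rw [mp_single, List.map_congr_left (h l hl)]
    simp) hc
  simpa using this

variable {G Q R : Type*} [Group G] [Group Q] [Group R] {p : ℕ}

/-- two different types of outer subgroups -/
structure Two (p : ℕ) (L N K : Subgroup G) (N1 N2 : Subgroup G) : Prop where
  le1 : N1 ≤ N
  le2 : N2 ≤ N
  LK1 : L ⊔ K ≤ N1
  LK2 : L ⊔ K ≤ N2
  inf : ∀ x ∈ N1, x ∈ N2 → x ∈ L ⊔ K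
  cyc1 : ∀ x ∈ N1, x ∉ L ⊔ K → ∀ y ∈ N1, y ∈ zpowers x ⊔ (L ⊔ K)
  cyc2 : ∀ x ∈ N2, x ∉ L ⊔ K → ∀ y ∈ N2, y ∈ zpowers x ⊔ (L ⊔ K)
  cov : ∀ x ∈ N, x ^ p ∈ K → x ∈ N1 ∨ x ∈ N2

lemma Two.symm {L N K N1 N2 : Subgroup G} (t : Two p L N K N1 N2) : Two p L N K N2 N1 :=
  ⟨t.le2, t.le1, t.LK2, t.LK1, fun x h1 h2 => t.inf x h2 h1, t.cyc2, t.cyc1,
    fun x hx hp => (t.cov x hx hp).symm⟩

/-- image of `N1` in `Q` -/
def Gam (N : Subgroup G) (πK : N →* Q) (N1 : Subgroup G) : Subgroup Q :=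
  (N1.subgroupOf N).map πK

/-- lift of a subgroup of `Q` -/
def sig (N : Subgroup G) (πK : N →* Q) (πL : N →* R) (X : Subgroup R) (E : Subgroup Q) :
    Subgroup G := pb N πK E ⊓ pb N πL X

section
variable {L N K N1 N2 : Subgroup G} {πK : N →* Q} {πL : N →* R}

lemma mem_Gam (h : Ctx p L N K πK πL) (hK1 : K ≤ N1) {n : N} :
    πK n ∈ Gam N πK N1 ↔ (n : G) ∈ N1 := by
  rw [Gam, Subgroup.mem_map]
  constructor
  · rintro ⟨m, hm, hmn⟩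
    have h1 : ((m⁻¹ * n : N) : G) ∈ K := by
      rw [← h.hπK, map_mul, map_inv, hmn, inv_mul_cancel]
    have h2 : (n : G) = m * ((m⁻¹ * n : N) : G) := by simp
    rw [h2]
    exact mul_mem hm (hK1 h1)
  · intro hn
    exact ⟨n, hn, rfl⟩

lemma Two.E_or (t : Two p L N K N1 N2) {E : Subgroup G} (hE : E ∈ Ain p N) :
    E ≤ N1 ∨ E ≤ N2 := by
  rw [← SubgroupClass.subset_union]
  intro x hx
  refine t.cov x (hE.2 hx) ?_
  rw [hE.1.2.2 x hx]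
  exact one_mem _

lemma Two.hR1 (t : Two p L N K N1 N2) : ∀ E ∈ Ain p N, ∀ x ∈ E, ∀ y ∈ E, x ∉ L ⊔ K →
    y ∉ L ⊔ K → y ∈ zpowers x ⊔ (L ⊔ K) := by
  intro E hE x hx y hy hxL _
  rcases t.E_or hE with h | h
  · exact t.cyc1 x (h hx) hxL y (h hy)
  · exact t.cyc2 x (h hx) hxL y (h hy)

lemma Two.Q_or (h : Ctx p L N K πK πL) (t : Two p L N K N1 N2) {E : Subgroup Q}
    (hE : E ∈ ApS p Q) : E ∈ Ain p (Gam N πK N1) ∨ E ∈ Ain p (Gam N πK N2) := by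
  have h1 : ((pb N πK E : Subgroup G) : Set G) ⊆ N1 ∪ N2 := by
    intro g hg
    obtain ⟨n, rfl, hn⟩ := mem_pb.1 hg
    refine t.cov n n.2 ?_
    have : ((n ^ p : N) : G) ∈ K := by rw [← h.hπK, map_pow, hE.2.2 _ hn]
    simpa using this
  rw [SubgroupClass.subset_union] at h1
  rcases h1 with h1 | h1
  · left
    refine ⟨hE, fun q hq => ?_⟩
    obtain ⟨n, rfl⟩ := h.hsurj q
    exact (mem_Gam h (le_sup_right.trans t.LK1)).2 (h1 (mem_pb.2 ⟨n, rfl, hq⟩))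
  · right
    refine ⟨hE, fun q hq => ?_⟩
    obtain ⟨n, rfl⟩ := h.hsurj q
    exact (mem_Gam h (le_sup_right.trans t.LK2)).2 (h1 (mem_pb.2 ⟨n, rfl, hq⟩))

lemma Two.st_or (h : Ctx p L N K πK πL) (t : Two p L N K N1 N2) (l : List (Subgroup Q))
    (hl : st (ApS p Q) l) : st (Ain p (Gam N πK N1)) l ∨ st (Ain p (Gam N πK N2)) l := by
  rcases l with _ | ⟨E, l⟩
  · exact Or.inl ⟨by simp, by simp⟩
  · have hp := List.pairwise_cons.1 hl.1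
    have hle : ∀ F ∈ E :: l, F ≤ E := by
      intro F hF
      rcases List.mem_cons.1 hF with h | h
      · rw [h]
      · exact (hp.1 F h).le
    rcases t.Q_or h (hl.2 E (by simp)) with h1 | h1
    · exact Or.inl ⟨hl.1, fun F hF => ⟨hl.2 F hF, (hle F hF).trans h1.2⟩⟩
    · exact Or.inr ⟨hl.1, fun F hF => ⟨hl.2 F hF, (hle F hF).trans h1.2⟩⟩

lemma sig_mono {X : Subgroup R} {E F : Subgroup Q} (hEF : E ≤ F) :
    sig N πK πL X E ≤ sig N πK πL X F := inf_le_inf_right _ (pb_mono hEF)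

lemma pb_bot (h : Ctx p L N K πK πL) : pb N πL ⊥ = L := by
  ext g
  rw [mem_pb]
  constructor
  · rintro ⟨n, rfl, hn⟩
    rw [Subgroup.mem_bot, h.hπL] at hn
    exact hn
  · intro hg
    exact ⟨⟨g, h.LN hg⟩, rfl, by rw [Subgroup.mem_bot, h.hπL]; exact hg⟩

lemma kap_bot (h : Ctx p L N K πK πL) : kap N K πL ⊥ = ⊥ := by
  rw [kap, pb_bot h, h.LK]

lemma L_le_pb (h : Ctx p L N K πK πL) (X : Subgroup R) : L ≤ pb N πL X := by
  intro l hl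
  refine mem_pb.2 ⟨⟨l, h.LN hl⟩, rfl, ?_⟩
  rw [(h.hπL ⟨l, h.LN hl⟩).2 hl]
  exact one_mem _

lemma sig_eq (h : Ctx p L N K πK πL) {X : Subgroup R} (hX : kap N K πL X = ⊥) {E : Subgroup Q}
    (hE : ∀ n : N, πK n ∈ E → (n : G) ∈ L ⊔ K) : sig N πK πL X E = sig N πK πL ⊥ E := by
  rw [sig, sig, pb_bot h]
  refine le_antisymm (le_inf inf_le_left ?_) (inf_le_inf_left _ (L_le_pb h X))
  intro g hg
  obtain ⟨hg1, hg2⟩ := Subgroup.mem_inf.1 hg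
  obtain ⟨n, rfl, hn⟩ := mem_pb.1 hg1
  obtain ⟨l, hl, k, hk, hlk⟩ := h.dec' (hE n hn)
  have hk2 : k ∈ kap N K πL X := by
    refine Subgroup.mem_inf.2 ⟨?_, hk⟩
    have : k = l⁻¹ * (n : G) := by rw [hlk]; group
    rw [this]
    exact mul_mem (inv_mem (L_le_pb h X hl)) hg2
  rw [hX, Subgroup.mem_bot] at hk2
  rw [hlk, hk2, mul_one]
  exact hl

lemma inner_of (h : Ctx p L N K πK πL) (t : Two p L N K N1 N2) {E : Subgroup Q}
    (h1 : E ≤ Gam N πK N1) (h2 : E ≤ Gam N πK N2) : ∀ n : N, πK n ∈ E → (n : G) ∈ L ⊔ K :=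
  fun n hn => t.inf n ((mem_Gam h (le_sup_right.trans t.LK1)).1 (h1 hn))
    ((mem_Gam h (le_sup_right.trans t.LK2)).1 (h2 hn))

lemma sig_bot_spec (h : Ctx p L N K πK πL) {E : Subgroup Q} (hE : E ∈ ApS p Q)
    (hin : ∀ n : N, πK n ∈ E → (n : G) ∈ L ⊔ K) :
    fq N πK (sig N πK πL ⊥ E) = E ∧ sig N πK πL ⊥ E ∈ Ain p L := by
  have hx : πL (1 : N) ∈ (⊥ : Subgroup R) := by rw [map_one]; exact one_mem _
  have hl : ∀ n : N, πK n ∈ E → (n : G) ∈ zpowers ((1 : N) : G) ⊔ (L ⊔ K) :=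
    fun n hn => Subgroup.mem_sup_right (hin n hn)
  refine ⟨h.lift_fq hx hl, ?_⟩
  have := h.lift_mem hx (kap_bot h) hE hl
  rw [pb_bot h] at this
  rw [sig, pb_bot h]
  exact this

/-- the Mayer-Vietoris step -/
lemma mv1 (h : Ctx p L N K πK πL) (t : Two p L N K N1 N2)
    (hZ : ∀ al ∈ Sp 𝕜 (st (Ain p L)), bd al = 0 →
      mp (fq N πK) al ∈ Bst 𝕜 (Ain p (Gam N πK N1)))
    {om : Ch 𝕜 (Subgroup Q)} (hom : om ∈ Sp 𝕜 (st (Ain p (Gam N πK N1))))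
    (hon : om ∈ Bst 𝕜 (ApS p Q)) : om ∈ Bst 𝕜 (Ain p (Gam N πK N1)) := by
  obtain ⟨c, hc, hco⟩ := hon
  obtain ⟨c1, hc1, c2, hc2, hcc⟩ := Sp_or (t.st_or h) hc
  set v := bd c2 with hv
  have hv1 : v ∈ Sp 𝕜 (st (Ain p (Gam N πK N1))) := by
    have : v = om - bd c1 := by rw [← hco, hcc, map_add]; abel
    rw [this]
    exact Submodule.sub_mem _ hom (bd_st hc1)
  have hv2 : v ∈ Sp 𝕜 (st (Ain p (Gam N πK N2))) := bd_st hc2
  have hv3 := mem_Sp_inf hv1 hv2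
  have hin : ∀ l : List (Subgroup Q), (st (Ain p (Gam N πK N1)) l ∧ st (Ain p (Gam N πK N2)) l) →
      ∀ E ∈ l, E ∈ ApS p Q ∧ ∀ n : N, πK n ∈ E → (n : G) ∈ L ⊔ K := fun l hl E hE =>
    ⟨(hl.1.2 E hE).1, inner_of h t (hl.1.2 E hE).2 (hl.2.2 E hE).2⟩
  have h1 : mp (sig N πK πL ⊥) v ∈ Sp 𝕜 (st (Ain p L)) := by
    refine mp_mem ?_ hv3
    intro l hl
    refine ⟨?_, ?_⟩
    · rw [List.pairwise_map]
      refine hl.1.1.imp_of_mem ?_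
      intro E F hE hF hEF
      refine lt_of_le_of_ne (sig_mono hEF.le) fun he => hEF.ne ?_
      rw [← (sig_bot_spec h (hin l hl E hE).1 (hin l hl E hE).2).1,
        ← (sig_bot_spec h (hin l hl F hF).1 (hin l hl F hF).2).1, he]
    · intro E' hE'
      obtain ⟨E, hE, rfl⟩ := List.mem_map.1 hE'
      exact (sig_bot_spec h (hin l hl E hE).1 (hin l hl E hE).2).2
  have h2 : mp (fq N πK) (mp (sig N πK πL ⊥) v) = v := by
    rw [mp_mp]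
    exact mp_eq_self (fun l hl E hE => (sig_bot_spec h (hin l hl E hE).1 (hin l hl E hE).2).1) hv3
  have h3 := hZ _ h1 (by rw [bd_mp, hv, bd_bd, map_zero])
  rw [h2] at h3
  have h4 : om = bd c1 + v := by rw [← hco, hcc, map_add]
  rw [h4]
  exact Submodule.add_mem _ ⟨c1, hc1, rfl⟩ h3

/-- existence of a useful class in `Q` -/
lemma om_exists (h : Ctx p L N K πK πL) (t : Two p L N K N1 N2)
    (hZ : ∀ al ∈ Sp 𝕜 (st (Ain p L)), bd al = 0 →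
      mp (fq N πK) al ∈ Bst 𝕜 (Ain p (Gam N πK N1)))
    (hG1 : NA 𝕜 (Ain p (Gam N πK N1))) :
    ∃ om ∈ Sp 𝕜 (st (Ain p (Gam N πK N1))), bd om = 0 ∧ om ∉ Bst 𝕜 (ApS p Q) := by
  obtain ⟨om, hom, hbom, homn⟩ := hG1
  refine ⟨om, hom, hbom, fun hon => ?_⟩
  obtain ⟨c, hc, hcz⟩ := mv1 h t hZ hom hon
  exact homn c hc hcz

/-- the basic product detection -/
lemma d1 [Fact p.Prime] [Finite G] (h : Ctx p L N K πK πL) (hK1 : L ⊔ K ≤ N1)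
    (hcyc : ∀ x ∈ N1, x ∉ L ⊔ K → ∀ y ∈ N1, y ∈ zpowers x ⊔ (L ⊔ K))
    {V : Submodule 𝕜 (Ch 𝕜 (Subgroup G))}
    (hV : ∀ g, g ∉ N → ∀ l, wk {E | E ∈ Ain p K ∧ ∀ x ∈ E, g * x = x * g} l →
        pi (single l (1 : 𝕜)) ∈ V)
    {om : Ch 𝕜 (Subgroup Q)} (hom : om ∈ Sp 𝕜 (st (Ain p (Gam N πK N1)))) (hbom : bd om = 0)
    (homn : om ∉ Bst 𝕜 (ApS p Q))
    {X : Subgroup R} (hX : X ∈ SRof L N πL (Ain p N)) (hX1 : ∀ E ∈ Ain p N, fq N πL E = X →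
      E ≤ N1) (hkX : kap N K πL X = ⊥)
    {e : Ch 𝕜 (Subgroup G)}
    (he : e ∈ Sp 𝕜 (wk (Ain p (K ⊓ centralizer ((pb N πL X : Subgroup G) : Set G)))))
    (hbe : bd e = 0) (hen : pi e ∉ Bst 𝕜 (Ain p K) ⊔ V) : NA 𝕜 (ApS p G) := by
  obtain ⟨E', hE', hE'L, hE'X⟩ := hX
  obtain ⟨x, hx, hxL⟩ := Set.not_subset.1 hE'L
  have hxLK : x ∉ L ⊔ K := fun hh => hxL (h.ELK hE' (by rw [hE'X]; exact hkX) x hx hh)
  have hxN1 : x ∈ N1 := hX1 E' hE' hE'X hx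
  set x' : N := ⟨x, hE'.2 hx⟩ with hx'
  have hx'X : πL x' ∈ X := by
    rw [← hE'X]
    exact mem_fq.2 ⟨x', hx, rfl⟩
  have hl : ∀ E ∈ Ain p (Gam N πK N1), ∀ n : N, πK n ∈ E →
      (n : G) ∈ zpowers (x' : G) ⊔ (L ⊔ K) := fun E hE n hn =>
    hcyc x hxN1 hxLK n ((mem_Gam h (le_sup_right.trans hK1)).1 (hE.2 hn))
  obtain ⟨lD, hnD, hD, hDV, hlD⟩ := exists_cocycle (Ain p K) V e hen
  obtain ⟨lW, hnW, hW, -, hlW⟩ := exists_cocycle (ApS p Q) ⊥ om (by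
    rw [pi_of_st hom, sup_bot_eq]
    exact homn)
  have hsx : mp (sig N πK πL X) om ∈ Sp 𝕜 (wk (Ain p (pb N πL X))) :=
    mp_mem (wk_map (fun E hE => h.lift_mem hx'X hkX hE.1 (hl E hE))
      fun E _ F _ hh => sig_mono hh) (Sp_mono st_wk hom)
  have hfx : mp (fq N πK) (mp (sig N πK πL X) om) = om := by
    rw [mp_mp]
    exact mp_eq_self (fun l hl' E hE => h.lift_fq hx'X (hl E (hl'.2 E hE))) hom
  have h12 : ∀ a ∈ pb N πL X, ∀ b ∈ K ⊓ centralizer ((pb N πL X : Subgroup G) : Set G),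
      a * b = b * a := fun a ha b hb => (Subgroup.mem_centralizer_iff.1 hb.2) a ha
  refine detect_gen N (phN N K πK lW lD) (phN_coc h.hπK hW hD) (phN_nrm hnW hnD) ?_
    (sh (mp (sig N πK πL X) om) e) (sh_mem_N pb_le (inf_le_left.trans h.KN) h12 hsx he) ?_ ?_
  · intro g hg _ l hl'
    exact phN_van (P := fun E => ∀ x ∈ E, g * x = x * g)
      (fun l hl => hDV _ (hV g hg l hl)) l hl'
  · rw [bd_sh, bd_mp, hbom, hbe, map_zero, map_zero, LinearMap.zero_apply, map_zero, add_zero]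
  · rw [phN_sh h.hπK h.KN hnW pb_le inf_le_left hkX hsx he, hfx]
    exact mul_ne_zero hlW hlD

end

end Vale.Agent.P240.K
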