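import Vale.Agent.P240.K.Smith
import Vale.Agent.P240.K.Two

namespace Vale.Agent.P240.K

open Finsupp

variable {𝕜 : Type*} [Field 𝕜] {α : Type*}

/-! ### Prism operator for `ρ ≤ id` -/

noncomputable def h2L (ρ : α → α) : List α → Ch 𝕜 α
  | [] => 0
  | x :: l => single (x :: ρ x :: l.map ρ) 1 - cons x (h2L ρ l)

/-- prism operator for `ρ ≤ id` -/
noncomputable def h2 (ρ : α → α) : Ch 𝕜 α →ₗ[𝕜] Ch 𝕜 α := Finsupp.linearCombination 𝕜 (h2L ρ)

lemma h2_single (ρ : α → α) (l : List α) : h2 ρ (single l (1 : 𝕜)) = h2L ρ l := by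
  simp [h2, Finsupp.linearCombination_single]

lemma h2_cons (ρ : α → α) (x : α) (c : Ch 𝕜 α) :
    h2 ρ (cons x c) = cons x (cons (ρ x) (mp ρ c)) - cons x (h2 ρ c) := by
  have := lin_ext_apply (f := (h2 ρ).comp (cons x))
    (g := ((cons x).comp (cons (ρ x))).comp (mp ρ) - (cons x).comp (h2 ρ))
    (fun l => by simp [h2_single, h2L]) c
  simpa using this

lemma bd_h2 (ρ : α → α) (c : Ch 𝕜 α) : bd (h2 ρ c) + h2 ρ (bd c) = mp ρ c - c := by
  have := ch_ext_apply (F := bd.comp (h2 ρ) + (h2 ρ).comp bd)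
    (G := mp ρ - LinearMap.id) (by simp [h2_single, h2L])
    (fun y c h => by
      simp only [LinearMap.comp_apply, LinearMap.sub_apply, LinearMap.id_apply,
        LinearMap.add_apply] at h
      simp only [LinearMap.comp_apply, LinearMap.sub_apply, LinearMap.id_apply,
        LinearMap.add_apply, h2_cons, map_sub, bd_cons, mp_cons, bd_mp]
      have h' : bd (h2 ρ c) = mp ρ c - c - h2 ρ (bd c) := by rw [← h]; abel
      rw [h']
      simp only [map_sub]
      abel) c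
  simpa using this

/-- support of the prism operator -/
lemma h2_mem [Preorder α] {S : Set α} {ρ : α → α} (hρS : ∀ x ∈ S, ρ x ∈ S)
    (hle : ∀ x ∈ S, ρ x ≤ x) (hmono : ∀ x ∈ S, ∀ y ∈ S, x ≤ y → ρ x ≤ ρ y) {c : Ch 𝕜 α}
    (hc : c ∈ Sp 𝕜 (wk S)) : h2 ρ c ∈ Sp 𝕜 (wk S) := by
  refine map_mem _ (fun l hl => ?_) hc
  rw [h2_single]
  have key : ∀ l : List α, wk S l → h2L ρ l ∈ Sp 𝕜 (fun m : List α => wk S m ∧
      ∀ a ∈ m, ∃ b ∈ l, a ≤ b) := by
    intro l
    induction l with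
    | nil => intro _; exact Submodule.zero_mem _
    | cons x l ih =>
      intro hl
      have hp := List.pairwise_cons.1 hl.1
      have hxT : x ∈ S := hl.2 x (by simp)
      have hlT : wk S l := ⟨hp.2, fun a ha => hl.2 a (by simp [ha])⟩
      have hρl : ∀ a ∈ ρ x :: l.map ρ, a ≤ x ∧ a ∈ S := by
        intro a ha
        rcases List.mem_cons.1 ha with h | ha
        · rw [h]; exact ⟨hle _ hxT, hρS _ hxT⟩
        · obtain ⟨b, hb, rfl⟩ := List.mem_map.1 ha
          exact ⟨(hle _ (hlT.2 b hb)).trans (hp.1 b hb), hρS _ (hlT.2 b hb)⟩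
      have c1 : wk S (x :: ρ x :: l.map ρ) ∧ ∀ a ∈ x :: ρ x :: l.map ρ, ∃ b ∈ x :: l, a ≤ b := by
        refine ⟨⟨?_, ?_⟩, ?_⟩
        · rw [List.pairwise_cons]
          refine ⟨fun a ha => (hρl a ha).1, ?_⟩
          rw [← List.map_cons, List.pairwise_map]
          exact hl.1.imp_of_mem fun {a b} ha hb hab => hmono _ (hl.2 b hb) _ (hl.2 a ha) hab
        · intro a ha
          rcases List.mem_cons.1 ha with h | ha
          · rw [h]; exact hxT
          · exact (hρl a ha).2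
        · intro a ha
          refine ⟨x, by simp, ?_⟩
          rcases List.mem_cons.1 ha with h | ha
          · rw [h]
          · exact (hρl a ha).1
      have c2 : ∀ m : List α, (wk S m ∧ ∀ a ∈ m, ∃ b ∈ l, a ≤ b) →
          (wk S (x :: m) ∧ ∀ a ∈ x :: m, ∃ b ∈ x :: l, a ≤ b) := by
        rintro m ⟨hm, hm'⟩
        refine ⟨⟨?_, ?_⟩, ?_⟩
        · rw [List.pairwise_cons]
          refine ⟨?_, hm.1⟩
          intro a ha
          obtain ⟨b, hb, hab⟩ := hm' a ha
          exact le_trans hab (hp.1 b hb)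
        · intro a ha
          rcases List.mem_cons.1 ha with h | ha
          · rw [h]; exact hxT
          · exact hm.2 a ha
        · intro a ha
          rcases List.mem_cons.1 ha with h | ha
          · rw [h]; exact ⟨x, by simp, le_refl _⟩
          · obtain ⟨b, hb, hab⟩ := hm' a ha
            exact ⟨b, by simp [hb], hab⟩
      exact Submodule.sub_mem _ (single_mem_Sp c1 _) (cons_mem c2 (ih hlT))
  exact Sp_mono (fun m hm => hm.1) (key l hl)

section
variable [PartialOrder α]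

/-- a monotone map sends strict chains to weak chains -/
lemma mp_wk {S R : Set α} {ρ : α → α} (hρ : ∀ x ∈ S, ρ x ∈ R)
    (hmono : ∀ x ∈ S, ∀ y ∈ S, x ≤ y → ρ x ≤ ρ y) {c : Ch 𝕜 α} (hc : c ∈ Sp 𝕜 (st S)) :
    mp ρ c ∈ Sp 𝕜 (wk R) := by
  refine mp_mem (P := st S) ?_ hc
  intro l hl
  refine ⟨?_, ?_⟩
  · rw [List.pairwise_map]
    exact hl.1.imp_of_mem fun {a b} ha hb hab => hmono _ (hl.2 b hb) _ (hl.2 a ha) (le_of_lt hab)
  · intro a ha
    obtain ⟨b, hb, rfl⟩ := List.mem_map.1 ha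
    exact hρ _ (hl.2 b hb)

/-- A retract of an acyclic poset is acyclic. -/
lemma not_NA_retract {S R : Set α} {ρ : α → α} (hRS : R ⊆ S) (hρ : ∀ x ∈ S, ρ x ∈ R)
    (hmono : ∀ x ∈ S, ∀ y ∈ S, x ≤ y → ρ x ≤ ρ y) (hid : ∀ x ∈ R, ρ x = x)
    (hac : ¬ NA 𝕜 S) : ¬ NA 𝕜 R := by
  rw [not_NA_iff] at hac ⊢
  intro z hz hbz
  obtain ⟨c, hc, hcz⟩ := hac z (Sp_mono (st_mono hRS) hz) hbz
  have h1 := mp_wk (𝕜 := 𝕜) hρ hmono hc
  refine ⟨pi (mp ρ c), pi_mem h1, ?_⟩
  rw [bd_pi h1, bd_mp, hcz]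
  have h2 : mp ρ z = z := mp_eq_self (P := st R) (fun l hl a ha => hid a (hl.2 a ha)) hz
  rw [h2, pi_of_st hz]

/-- If a poset retracts downwards onto an acyclic one, it is acyclic. -/
lemma not_NA_down {S R : Set α} {ρ : α → α} (hRS : R ⊆ S) (hρ : ∀ x ∈ S, ρ x ∈ R)
    (hle : ∀ x ∈ S, ρ x ≤ x) (hmono : ∀ x ∈ S, ∀ y ∈ S, x ≤ y → ρ x ≤ ρ y)
    (hac : ¬ NA 𝕜 R) : ¬ NA 𝕜 S := by
  rw [not_NA_iff] at hac ⊢
  intro z hz hbz
  have h1 := mp_wk (𝕜 := 𝕜) hρ hmono hz
  obtain ⟨d, hd, hdz⟩ := hac (pi (mp ρ z)) (pi_mem h1) (by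
    rw [bd_pi h1, bd_mp, hbz, map_zero, map_zero])
  have hzw : z ∈ Sp 𝕜 (wk S) := Sp_mono (fun l hl => st_wk l hl) hz
  have h2' := h2_mem (𝕜 := 𝕜) (fun x hx => hRS (hρ x hx)) hle hmono hzw
  refine ⟨d - pi (h2 ρ z), Submodule.sub_mem _ (Sp_mono (st_mono hRS) hd) (pi_mem h2'), ?_⟩
  have h3 := bd_h2 ρ z
  rw [hbz, map_zero, add_zero] at h3
  rw [map_sub, bd_pi h2', h3, map_sub, pi_of_st hz, hdz]
  abel

/-- Attaching a minimal element with acyclic upper link. -/
lemma not_NA_attach {S : Set α} {T : α} (hT : T ∈ S) (hmin : ∀ x ∈ S, ¬ x < T)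
    (hac : ¬ NA 𝕜 (S \ {T})) (hlk : ¬ NA 𝕜 {x | x ∈ S ∧ T < x}) : ¬ NA 𝕜 S := by
  rw [not_NA_iff] at hac hlk ⊢
  intro z hz hbz
  set Lk : Set α := {x | x ∈ S ∧ T < x} with hLk
  have hLkS : Lk ⊆ S \ {T} := by
    rintro x ⟨h1, h2⟩
    exact ⟨h1, fun h => h2.ne' h⟩
  obtain ⟨a, ha, b2, hb2, hzab⟩ := Sp_or (P := st S) (P1 := st (S \ {T}))
    (P2 := fun l => ∃ m, st Lk m ∧ l = m ++ [T]) (fun l hl => by
      by_cases hTl : T ∈ l
      · right
        obtain ⟨m, n, rfl⟩ := List.append_of_mem hTl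
        have hp := List.pairwise_append.1 hl.1
        have hn : n = [] := by
          rcases n with _ | ⟨y, n⟩
          · rfl
          · exfalso
            have h1 := (List.pairwise_cons.1 hp.2.1).1 y (by simp)
            exact hmin y (hl.2 y (by simp)) h1
        subst hn
        refine ⟨m, ⟨hp.1, fun x hx => ⟨hl.2 x (by simp [hx]), ?_⟩⟩, rfl⟩
        exact hp.2.2 x hx T (by simp)
      · left
        exact ⟨hl.1, fun x hx => ⟨hl.2 x hx, fun h => hTl (h ▸ hx)⟩⟩) hz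
  obtain ⟨b, hb, rfl⟩ : ∃ b ∈ Sp 𝕜 (st Lk), ap T b = b2 := by
    have : (LinearMap.id : Ch 𝕜 α →ₗ[𝕜] Ch 𝕜 α) b2 ∈ (Sp 𝕜 (st Lk)).map (ap T) := by
      refine map_mem (M := Ch 𝕜 α) LinearMap.id ?_ hb2
      rintro l ⟨m, hm, rfl⟩
      exact ⟨single m 1, single_mem_Sp hm _, by simp⟩
    exact this
  -- `bd b = 0`
  have hba : bd a ∈ Sp 𝕜 (fun l : List α => T ∉ l) :=
    bd_mem (fun l l' hs hl hT' => hl (hs.subset hT'))
      (Sp_mono (fun l (hl : st (S \ {T}) l) hTl => (hl.2 T hTl).2 rfl) ha)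
  have hsb : sg b ∈ Sp 𝕜 (fun l : List α => T ∉ l) :=
    sg_mem (Sp_mono (fun l (hl : st Lk l) hTl => lt_irrefl _ (hl.2 T hTl).2) hb)
  have hsum : bd a + (ap T (bd b) + sg b) = 0 := by
    rw [hzab, map_add, bd_ap] at hbz
    exact hbz
  have hap0 : ap T (bd b) = 0 := by
    have h1 : ap T (bd b) = - (bd a + sg b) := by
      rw [eq_neg_iff_add_eq_zero, ← hsum]; abel
    have h2 : ap T (bd b) ∈ Sp 𝕜 (fun l : List α => T ∉ l) := by
      rw [h1]
      exact Submodule.neg_mem _ (Submodule.add_mem _ hba hsb)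
    have h3 : ap T (bd b) ∈ Sp 𝕜 (fun l : List α => T ∈ l) :=
      ap_mem (P := fun _ => True) (fun l _ => by simp) (by simp [mem_Sp])
    have h4 := mem_Sp_inf h2 h3
    rw [← Finsupp.support_eq_empty, Finset.eq_empty_iff_forall_notMem]
    intro l hl
    exact (mem_Sp.1 h4 l hl).1 (mem_Sp.1 h4 l hl).2
  have hb0 : bd b = 0 := by
    have hinj : Function.Injective (ap (𝕜 := 𝕜) T) := by
      intro c d hcd
      exact Finsupp.mapDomain_injective (f := fun l : List α => l ++ [T])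
        (fun l m h => List.append_cancel_right h) hcd
    exact hinj (by rw [hap0, map_zero])
  obtain ⟨b', hb', rfl⟩ := hlk b hb hb0
  obtain ⟨a', ha', haa⟩ := hac (a - sg b') (Submodule.sub_mem _ ha
    (sg_mem (Sp_mono (st_mono hLkS) hb'))) (by
      rw [map_sub, bd_sg]
      rw [hap0, zero_add] at hsum
      rw [sub_neg_eq_add]
      exact hsum)
  refine ⟨a' + ap T b', Submodule.add_mem _ (Sp_mono (st_mono fun x hx => hx.1) ha') ?_, ?_⟩
  · refine ap_mem (P := st Lk) ?_ hb'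
    intro l hl
    refine ⟨?_, ?_⟩
    · rw [List.pairwise_append]
      refine ⟨hl.1, by simp, ?_⟩
      intro x hx y hy
      rw [List.mem_singleton] at hy
      subst hy
      exact (hl.2 x hx).2
    · intro x hx
      rcases List.mem_append.1 hx with hx | hx
      · exact (hl.2 x hx).1
      · rw [List.mem_singleton] at hx
        subst hx
        exact hT
  · rw [map_add, haa, bd_ap, hzab]
    abel

/-- Attaching many elements with acyclic upper links to an upwards closed subset. -/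
lemma not_NA_attach_all {S : Set α} (hS : S.Finite) {X : Set α} (hXS : X ⊆ S)
    (hup : ∀ x ∈ X, ∀ y ∈ S, x ≤ y → y ∈ X) (hX : ¬ NA 𝕜 X)
    (hlk : ∀ T ∈ S, T ∉ X → ¬ NA 𝕜 {x | x ∈ S ∧ T < x}) : ¬ NA 𝕜 S := by
  classical
  have key : ∀ n : ℕ, ∀ S : Set α, S.Finite → X ⊆ S → (S \ X).ncard = n →
      (∀ x ∈ X, ∀ y ∈ S, x ≤ y → y ∈ X) →
      (∀ T ∈ S, T ∉ X → ¬ NA 𝕜 {x | x ∈ S ∧ T < x}) → ¬ NA 𝕜 S := by
    intro n
    induction n with
    | zero =>
      intro S hS hXS hn _ _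
      rw [Set.ncard_eq_zero (hS.subset Set.diff_subset)] at hn
      have : S = X := Set.Subset.antisymm (Set.diff_eq_empty.1 hn) hXS
      rwa [this]
    | succ n ih =>
      intro S hS hXS hn hup hlk
      have hfin : (S \ X).Finite := hS.subset Set.diff_subset
      have hne : (S \ X).Nonempty := by
        rw [Set.nonempty_iff_ne_empty]
        intro h
        rw [h, Set.ncard_empty] at hn
        omega
      obtain ⟨T, hT⟩ := hfin.exists_minimal hne
      have hTS : T ∈ S := hT.prop.1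
      have hTX : T ∉ X := hT.prop.2
      have hmin : ∀ x ∈ S, ¬ x < T := by
        intro x hx hlt
        by_cases hxX : x ∈ X
        · exact hTX (hup x hxX T hTS hlt.le)
        · exact hlt.not_ge (hT.2 (show x ∈ S \ X from ⟨hx, hxX⟩) hlt.le)
      refine not_NA_attach hTS hmin ?_ (hlk T hTS hTX)
      refine ih (S \ {T}) (hS.subset Set.diff_subset) ?_ ?_ ?_ ?_
      · intro x hx
        exact ⟨hXS hx, fun h => hTX (h ▸ hx)⟩
      · have : (S \ {T}) \ X = (S \ X) \ {T} := by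
          ext x
          simp only [Set.mem_diff, Set.mem_singleton_iff]
          tauto
        rw [this, Set.ncard_diff_singleton_of_mem (show T ∈ S \ X from ⟨hTS, hTX⟩), hn]
        rfl
      · intro x hx y hy hxy
        exact hup x hx y hy.1 hxy
      · intro T' hT' hT'X
        have : {x | x ∈ S \ {T} ∧ T' < x} = {x | x ∈ S ∧ T' < x} := by
          ext x
          constructor
          · rintro ⟨h1, h2⟩
            exact ⟨h1.1, h2⟩
          · rintro ⟨h1, h2⟩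
            refine ⟨⟨h1, ?_⟩, h2⟩
            rintro rfl
            exact hmin T' hT'.1 h2
        rw [this]
        exact hlk T' hT'.1 hT'X
  exact key _ S hS hXS rfl hup hlk

end

end Vale.Agent.P240.K
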