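import Vale.Agent.P240.K.Cover

namespace Vale.Agent.P240.K

open Finsupp Subgroup

lemma mp_len {α β : Type*} {𝕜 : Type*} [Field 𝕜] (f : α → β) (n : ℕ) (c : Ch 𝕜 α) :
    mp f (len n c) = len n (mp f c) := by
  have := lin_ext_apply (f := (mp f).comp (len n)) (g := (len n).comp (mp f))
    (fun l => by
      simp only [LinearMap.comp_apply]
      rw [len_single, mp_single, len_single, List.length_map]
      split_ifs
      · rw [mp_single]
      · rw [map_zero]) c
  simpa using this

section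
variable {α β : Type*} [PartialOrder α] [PartialOrder β]

lemma low_image {m : ℕ} (h : LowAcyclic β m) {f : β → α} (hf : Function.Injective f)
    (hlt : ∀ x y, x < y ↔ f x < f y) {S : Set α} (hS : f '' Set.univ = S) : ∀ n < m,
    ∀ z ∈ Finsupp.supported ℚ ℚ (stn S n), bd z = 0 →
      ∃ c ∈ Finsupp.supported ℚ ℚ (stn S (n + 1)), bd c = z := by
  subst hS
  intro n hn z hz hbz
  have hin : ∀ {c : Ch ℚ β}, c ∈ Sp ℚ (st (Set.univ : Set β)) →
      c ∈ Sp ℚ (fun l : List β => ∀ a ∈ l, a ∈ (Set.univ : Set β)) :=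
    fun hc => Sp_mono (fun l hl => hl.2) hc
  have hinj : Set.InjOn f (Set.univ : Set β) := hf.injOn
  obtain ⟨z', hz', rfl⟩ := exists_lift (f := f) (S := (Set.univ : Set β))
    (fun x _ y _ h => (hlt x y).2 h) (Sp_mono (fun l (hl : l ∈ stn (f '' Set.univ) n) => hl.2) hz)
  have hb' : bd z' = 0 := by
    refine mp_injOn hinj (hin (bd_st hz')) (Submodule.zero_mem _) ?_
    rw [← bd_mp, hbz, map_zero]
  have hlen : len n z' = z' := by
    refine mp_injOn hinj (Sp_mono (fun l hl => hl.2.2) (len_mem hz')) (hin hz') ?_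
    rw [mp_len]
    exact len_of_mem (Sp_mono (fun l (hl : l ∈ stn (f '' Set.univ) n) => hl.1) hz)
  have hz2 : z' ∈ Sp ℚ (fun l : List β => l.length = n ∧ st (Set.univ : Set β) l) := by
    rw [← hlen]
    exact len_mem hz'
  obtain ⟨b, hb, hbz'⟩ := h n hn (rv z') (by
    rw [isChain_iff]
    refine rv_mem (fun l hl => ⟨?_, ?_⟩) hz2
    · rw [List.length_reverse]; exact hl.1
    · rw [List.pairwise_reverse]
      exact hl.2.1) (by rw [bd_rv, hb', map_zero])
  rw [isChain_iff] at hb
  refine ⟨mp f (rv b), ?_, ?_⟩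
  · have h1 : rv b ∈ Sp ℚ (fun l : List β => l.length = n + 1 ∧ st (Set.univ : Set β) l) := by
      refine rv_mem (fun l hl => ⟨?_, ?_, fun _ _ => trivial⟩) hb
      · rw [List.length_reverse]; exact hl.1
      · rw [List.pairwise_reverse]
        exact hl.2
    refine mp_mem (P := fun l => l.length = n + 1 ∧ st (Set.univ : Set β) l)
      (Q := fun l => l ∈ stn (f '' Set.univ) (n + 1)) (fun l hl => ⟨?_, ?_⟩) h1
    · rw [List.length_map]; exact hl.1
    · exact st_map (T := f '' Set.univ) (fun x hx => Set.mem_image_of_mem f hx)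
        (fun x _ y _ h => (hlt x y).1 h) l hl.2
  · rw [bd_mp, bd_rv, hbz', rv_rv]

end

section
universe u
variable {G : Type u} [Group G] {p : ℕ}

lemma chain_length [hp : Fact p.Prime] [Finite G] {F : Subgroup G} {k m : ℕ}
    (hk : Nat.card F = p ^ k) (hm : ∀ E ∈ ApS p G, ∃ j ≤ m, Nat.card E = p ^ j)
    (l : List (Subgroup G)) (hl : st {A | A ∈ ApS p G ∧ F < A} l) : l.length ≤ m - k := by
  have hlt : ∀ A B : Subgroup G, A < B → Nat.card A < Nat.card B := by
    intro A B h
    refine lt_of_le_of_ne (Subgroup.card_le_of_le h.le) fun he => h.ne ?_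
    exact Subgroup.eq_of_le_of_card_ge h.le he.ge
  have key : ∀ l : List (Subgroup G), ∀ a, st {A | A ∈ ApS p G ∧ F < A} (a :: l) →
      ∀ j, Nat.card a = p ^ j → k + (l.length + 1) ≤ j := by
    intro l
    induction l with
    | nil =>
      intro a ha j hj
      have h1 := hlt _ _ (ha.2 a (by simp)).2
      rw [hk, hj] at h1
      have := (Nat.pow_lt_pow_iff_right hp.out.one_lt).1 h1
      simpa using this
    | cons b l ih =>
      intro a ha j hj
      have hb : st {A | A ∈ ApS p G ∧ F < A} (b :: l) :=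
        ⟨(List.pairwise_cons.1 ha.1).2, fun x hx => ha.2 x (List.mem_cons_of_mem _ hx)⟩
      obtain ⟨i, _, hi⟩ := hm b (hb.2 b (by simp)).1
      have h1 := ih b hb i hi
      have h2 := hlt _ _ ((List.pairwise_cons.1 ha.1).1 b (by simp))
      rw [hi, hj] at h2
      have := (Nat.pow_lt_pow_iff_right hp.out.one_lt).1 h2
      rw [List.length_cons]
      omega
  rcases l with _ | ⟨a, l⟩
  · simp
  · obtain ⟨j, hj, hcard⟩ := hm a (hl.2 a (by simp)).1
    have := key l a hl j hcard
    rw [List.length_cons]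
    omega

/-- the sign of the local terms -/
lemma eu_comap_pos [hp : Fact p.Prime] [Finite G] {W : Subgroup G} [hW : W.Normal]
    (hsol : Group.IsSolvable W) (hpW : ¬ p ∣ Nat.card W)
    (hfaith : ∀ x : G, x ^ p = 1 → (∀ w ∈ W, x * w = w * x) → x = 1) {F : Subgroup (G ⧸ W)}
    (hF : F ∈ ApB p (G ⧸ W)) {k : ℕ} (hk : Nat.card F = p ^ k) :
    0 < (-1 : ℤ) ^ k * eu (Ain p (F.comap (QuotientGroup.mk' W))) := by
  set f := QuotientGroup.mk' W with hf
  have hf1 : ∀ x : G, f x = 1 ↔ x ∈ W := fun x => by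
    change ((x : G ⧸ W) = 1) ↔ _
    rw [QuotientGroup.eq_one_iff]
  have hFc : ∀ v ∈ F, ∀ w ∈ F, v * w = w * v := by
    rcases hF with hF | hF
    · rw [hF]
      intro v hv w hw
      rw [mem_bot] at hv hw
      rw [hv, hw]
    · exact hF.2.1
  have hFp : ∀ v ∈ F, v ^ p = 1 := by
    rcases hF with hF | hF
    · rw [hF]
      intro v hv
      rw [mem_bot] at hv
      rw [hv, one_pow]
    · exact hF.2.2
  obtain ⟨P, hPD, hPp, hconj, hpos⟩ := eu_pos (p := p) (D := F.comap f) (Q := W)
    (fun x _ q hq => hW.conj_mem q hq x) (fun w hw => by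
      rw [mem_comap, (hf1 w).2 hw]; exact one_mem _) hsol hpW
    (fun x hx y hy _ _ => by
      rw [← hf1, map_mul, map_mul, map_mul, map_inv, map_inv, hFc _ hx _ hy]
      group) (fun x _ hx hxW => hfaith x hx hxW)
  apply hpos
  rw [← hk]
  have hcop : Nat.Coprime (Nat.card W) p :=
    ((Nat.Prime.coprime_iff_not_dvd hp.out).2 hpW).symm
  have hPW : ∀ x ∈ P, x ∈ W → x = 1 := by
    intro x hx hxW
    rw [← orderOf_eq_one_iff]
    have h1 : orderOf x ∣ p := orderOf_dvd_of_pow_eq_one (hPp x hx)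
    have h2 : orderOf x ∣ Nat.card W := by
      have := orderOf_dvd_natCard (⟨x, hxW⟩ : W)
      rwa [← orderOf_coe] at this
    exact Nat.eq_one_of_dvd_coprimes hcop h2 h1
  have hinj : Function.Injective (f.comp P.subtype) := by
    rw [injective_iff_map_eq_one]
    intro x hx
    exact Subtype.ext (hPW x x.2 ((hf1 _).1 hx))
  have hrange : (f.comp P.subtype).range = F := by
    rw [MonoidHom.range_comp, Subgroup.range_subtype]
    apply le_antisymm
    · rintro _ ⟨x, hx, rfl⟩
      exact hPD hx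
    · intro v hv
      obtain ⟨x, rfl⟩ := QuotientGroup.mk'_surjective W v
      change f x ∈ F at hv
      have hxp : (x ^ p) ^ Nat.card W = 1 := by
        have h1 : x ^ p ∈ W := by rw [← hf1, map_pow, hFp _ hv]
        have := pow_card_eq_one' (x := (⟨x ^ p, h1⟩ : W))
        exact congrArg Subtype.val this
      obtain ⟨s, hs⟩ := exists_pow_eq_self_of_coprime (x := f x) (n := Nat.card W)
        (hcop.coprime_dvd_right (orderOf_dvd_of_pow_eq_one (hFp _ hv)))
      set y : G := (x ^ Nat.card W) ^ s with hy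
      have hyp : y ^ p = 1 := by
        rw [hy, ← pow_mul, ← pow_mul]
        have : Nat.card W * (s * p) = p * Nat.card W * s := by ring
        rw [this, pow_mul, pow_mul, hxp, one_pow]
      have hfy : f y = f x := by rw [hy, map_pow, map_pow, hs]
      obtain ⟨q, hq, hqP⟩ := hconj (zpowers y) (by
        rw [zpowers_le, mem_comap, hfy]; exact hv) (by
        intro z hz
        obtain ⟨i, rfl⟩ := mem_zpowers_iff.1 hz
        rw [← zpow_natCast, ← zpow_mul, mul_comm, zpow_mul, zpow_natCast, hyp, one_zpow])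
      refine ⟨q⁻¹ * y * q, hqP y (mem_zpowers y), ?_⟩
      rw [map_mul, map_mul, map_inv, (hf1 q).2 hq, hfy, inv_one, one_mul, mul_one]
  rw [← hrange]
  exact Nat.card_congr (MonoidHom.ofInjective hinj).toEquiv

/-- **Non-vanishing** for groups with a solvable normal `p'`-subgroup and Cohen–Macaulay
quotient. -/
theorem cm_ne_zero [hp : Fact p.Prime] [Finite G] {W : Subgroup G} [hW : W.Normal]
    (hsol : Group.IsSolvable W) (hpW : ¬ p ∣ Nat.card W)
    (hfaith : ∀ x : G, x ^ p = 1 → (∀ w ∈ W, x * w = w * x) → x = 1)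
    (hCM : CohenMacaulay p (G ⧸ W)) : eu (ApS p G) ≠ 0 := by
  classical
  obtain ⟨m, hm⟩ := hCM
  have hkey : 0 < (-1 : ℤ) ^ m * eu (ApS p G) := by
    rw [eu_cover (QuotientGroup.mk' W), Finset.mul_sum]
    have hterm : ∀ F ∈ (Set.toFinite (ApB p (G ⧸ W))).toFinset,
        0 ≤ (-1 : ℤ) ^ m * (eu (Ain p (F.comap (QuotientGroup.mk' W))) * kp p F) ∧
        (kp p F ≠ 0 →
          0 < (-1 : ℤ) ^ m * (eu (Ain p (F.comap (QuotientGroup.mk' W))) * kp p F)) := by
      intro F hF
      rw [Set.Finite.mem_toFinset] at hF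
      obtain ⟨k, hkm, hk, hlow⟩ := hm F hF
      have h1 := eu_comap_pos hsol hpW hfaith hF hk
      have h2 : 0 ≤ (-1 : ℤ) ^ (m - k) * kp p F := by
        refine eu_sign (Set.toFinite _) (m - k) (low_image hlow
          (f := fun A => A.1.1) (fun A B h => Subtype.ext (Subtype.ext h)) (fun A B => Iff.rfl) ?_)
          (chain_length hk fun E hE => ?_)
        · ext A
          constructor
          · rintro ⟨B, _, rfl⟩
            exact ⟨B.1.2, B.2⟩
          · rintro ⟨h1, h2⟩
            exact ⟨⟨⟨A, h1⟩, h2⟩, trivial, rfl⟩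
        · obtain ⟨j, hj, hc, _⟩ := hm E (Or.inr hE)
          exact ⟨j, hj, hc⟩
      have h3 : (-1 : ℤ) ^ m = (-1) ^ k * (-1) ^ (m - k) := by
        rw [← pow_add]
        congr 1
        omega
      have h4 : (-1 : ℤ) ^ m * (eu (Ain p (F.comap (QuotientGroup.mk' W))) * kp p F) =
          ((-1 : ℤ) ^ k * eu (Ain p (F.comap (QuotientGroup.mk' W)))) *
            ((-1) ^ (m - k) * kp p F) := by
        rw [h3]; ring
      rw [h4]
      refine ⟨mul_nonneg h1.le h2, fun hne => mul_pos h1 (lt_of_le_of_ne h2 ?_)⟩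
      intro h0
      rcases mul_eq_zero.1 h0.symm with h | h
      · exact absurd h (pow_ne_zero _ (by norm_num))
      · exact hne h
    refine Finset.sum_pos' (fun F hF => (hterm F hF).1) ?_
    have h5 := sum_kp (p := p) (G := G ⧸ W) (F' := ⊥) (Or.inl rfl)
    obtain ⟨F, hF, hne⟩ := Finset.exists_ne_zero_of_sum_ne_zero
      (s := (Set.toFinite {F | F ∈ ApB p (G ⧸ W) ∧ ⊥ ≤ F}).toFinset) (f := kp p)
      (by rw [h5]; exact one_ne_zero)
    rw [Set.Finite.mem_toFinset] at hF
    have hF' : F ∈ (Set.toFinite (ApB p (G ⧸ W))).toFinset := by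
      rw [Set.Finite.mem_toFinset]
      exact hF.1
    exact ⟨F, hF', (hterm F hF').2 hne⟩
  intro h
  rw [h, mul_zero] at hkey
  exact lt_irrefl _ hkey

end

end Vale.Agent.P240.K
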