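import Vale.Agent.P240.K.Defs

namespace Vale.Agent.P240.K

open Finsupp

variable {𝕜 : Type*} [Field 𝕜]

variable {α β γ : Type*}

/-- Rational chains. -/
abbrev Ch (𝕜 : Type*) [Field 𝕜] (α : Type*) := List α →₀ 𝕜

/-- Linear maps out of `Ch 𝕜 α` agree if they agree on lists. -/
lemma lin_ext {M : Type*} [AddCommGroup M] [Module 𝕜 M] {f g : Ch 𝕜 α →ₗ[𝕜] M}
    (h : ∀ l, f (single l 1) = g (single l 1)) : f = g :=
  Finsupp.lhom_ext' fun l => LinearMap.ext_ring (h l)

lemma lin_ext_apply {M : Type*} [AddCommGroup M] [Module 𝕜 M] {f g : Ch 𝕜 α →ₗ[𝕜] M}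
    (h : ∀ l, f (single l 1) = g (single l 1)) (c : Ch 𝕜 α) : f c = g c := by
  rw [lin_ext h]

/-- Prepend an element. -/
noncomputable def cons (x : α) : Ch 𝕜 α →ₗ[𝕜] Ch 𝕜 α := Finsupp.lmapDomain 𝕜 𝕜 (List.cons x)

/-- Apply a map to all entries. -/
noncomputable def mp (f : α → β) : Ch 𝕜 α →ₗ[𝕜] Ch 𝕜 β := Finsupp.lmapDomain 𝕜 𝕜 (List.map f)

/-- Append an element at the end. -/
noncomputable def ap (x : α) : Ch 𝕜 α →ₗ[𝕜] Ch 𝕜 α := Finsupp.lmapDomain 𝕜 𝕜 (fun l => l ++ [x])

/-- Sign operator. -/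
noncomputable def sg : Ch 𝕜 α →ₗ[𝕜] Ch 𝕜 α :=
  Finsupp.linearCombination 𝕜 fun l : List α => (-1 : 𝕜) ^ l.length • single l (1 : 𝕜)

/-- Append an element at the end, with sign. -/
noncomputable def sn (x : α) : Ch 𝕜 α →ₗ[𝕜] Ch 𝕜 α := (ap x).comp sg

@[simp] lemma cons_single (x : α) (l : List α) (r : 𝕜) :
    cons x (single l r) = single (x :: l) r := by
  simp [cons, Finsupp.lmapDomain_apply, Finsupp.mapDomain_single]

@[simp] lemma mp_single (f : α → β) (l : List α) (r : 𝕜) :
    mp f (single l r) = single (l.map f) r := by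
  simp [mp, Finsupp.lmapDomain_apply, Finsupp.mapDomain_single]

@[simp] lemma ap_single (x : α) (l : List α) (r : 𝕜) :
    ap x (single l r) = single (l ++ [x]) r := by
  simp [ap, Finsupp.lmapDomain_apply, Finsupp.mapDomain_single]

@[simp] lemma sg_single (l : List α) (r : 𝕜) :
    sg (single l r) = (-1 : 𝕜) ^ l.length • single l r := by
  simp [sg, Finsupp.linearCombination_single, mul_comm]

@[simp] lemma sn_single (x : α) (l : List α) (r : 𝕜) :
    sn x (single l r) = (-1 : 𝕜) ^ l.length • single (l ++ [x]) r := by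
  rw [sn, LinearMap.comp_apply, sg_single, map_smul, ap_single]

lemma bd_single (l : List α) (r : 𝕜) :
    bd (single l r) =
      r • ∑ i ∈ Finset.range l.length, (-1 : 𝕜) ^ i • single (l.eraseIdx i) (1 : 𝕜) := by
  simp [bd, Finsupp.linearCombination_single]

@[simp] lemma bd_single_nil (r : 𝕜) : bd (single ([] : List α) r) = 0 := by
  simp [bd_single]

lemma bd_single_cons (x : α) (l : List α) (r : 𝕜) :
    bd (single (x :: l) r) = single l r - cons x (bd (single l r)) := by
  rw [bd_single, bd_single, List.length_cons, Finset.sum_range_succ']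
  simp only [List.eraseIdx_cons_succ, List.eraseIdx_cons_zero, pow_zero, one_smul, smul_add,
    map_sum, cons_single, Finset.smul_sum, smul_single, smul_eq_mul, mul_one, pow_succ]
  rw [add_comm, sub_eq_add_neg]
  congr 1
  rw [← Finset.sum_neg_distrib]
  refine Finset.sum_congr rfl fun i _ => ?_
  rw [← single_neg]
  congr 1
  ring

@[simp] lemma bd_cons (x : α) (c : Ch 𝕜 α) : bd (cons x c) = c - cons x (bd c) := by
  have := lin_ext_apply (f := bd.comp (cons x)) (g := LinearMap.id - (cons x).comp bd)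
    (fun l => by simp [bd_single_cons]) c
  simpa using this

/-- Induction principle for equality of linear maps. -/
lemma ch_ext {M : Type*} [AddCommGroup M] [Module 𝕜 M] {F G : Ch 𝕜 α →ₗ[𝕜] M}
    (h0 : F (single [] 1) = G (single [] 1))
    (hc : ∀ (y : α) (c : Ch 𝕜 α), F c = G c → F (cons y c) = G (cons y c)) : F = G := by
  refine lin_ext fun l => ?_
  induction l with
  | nil => exact h0
  | cons y l ih => simpa using hc y _ ih

lemma ch_ext_apply {M : Type*} [AddCommGroup M] [Module 𝕜 M] {F G : Ch 𝕜 α →ₗ[𝕜] M}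
    (h0 : F (single [] 1) = G (single [] 1))
    (hc : ∀ (y : α) (c : Ch 𝕜 α), F c = G c → F (cons y c) = G (cons y c)) (c : Ch 𝕜 α) :
    F c = G c := by
  rw [ch_ext h0 hc]

lemma bd_bd (c : Ch 𝕜 α) : bd (bd c) = 0 := by
  have := ch_ext_apply (F := bd.comp bd) (G := (0 : Ch 𝕜 α →ₗ[𝕜] Ch 𝕜 α)) (by simp)
    (fun y c h => by
      simp only [LinearMap.comp_apply, LinearMap.zero_apply] at h
      simp [h]) c
  simpa using this

@[simp] lemma mp_cons (f : α → β) (x : α) (c : Ch 𝕜 α) : mp f (cons x c) = cons (f x) (mp f c) := by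
  have := lin_ext_apply (f := (mp f).comp (cons x)) (g := (cons (f x)).comp (mp f))
    (fun l => by simp) c
  simpa using this

lemma bd_mp (f : α → β) (c : Ch 𝕜 α) : bd (mp f c) = mp f (bd c) := by
  have := ch_ext_apply (F := bd.comp (mp f)) (G := (mp f).comp bd) (by simp)
    (fun y c h => by
      simp only [LinearMap.comp_apply] at h
      simp [h]) c
  simpa using this

@[simp] lemma mp_mp (f : α → β) (g : β → γ) (c : Ch 𝕜 α) : mp g (mp f c) = mp (g ∘ f) c := by
  have := lin_ext_apply (f := (mp g).comp (mp f)) (g := mp (g ∘ f))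
    (fun l => by simp) c
  simpa using this

@[simp] lemma ap_cons (x y : α) (c : Ch 𝕜 α) : ap x (cons y c) = cons y (ap x c) := by
  have := lin_ext_apply (f := (ap x).comp (cons y)) (g := (cons y).comp (ap x))
    (fun l => by simp) c
  simpa using this

@[simp] lemma sg_cons (y : α) (c : Ch 𝕜 α) : sg (cons y c) = - cons y (sg c) := by
  have := lin_ext_apply (f := (sg (𝕜 := 𝕜)).comp (cons y)) (g := - (cons y).comp (sg (𝕜 := 𝕜)))
    (fun l => by simp [pow_succ]) c
  simpa using this

@[simp] lemma sg_ap (y : α) (c : Ch 𝕜 α) : sg (ap y c) = - ap y (sg c) := by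
  have := lin_ext_apply (f := (sg (𝕜 := 𝕜)).comp (ap y)) (g := - (ap y).comp (sg (𝕜 := 𝕜)))
    (fun l => by simp [pow_succ]) c
  simpa using this

@[simp] lemma sg_sg (c : Ch 𝕜 α) : sg (sg c) = c := by
  have := lin_ext_apply (f := (sg).comp sg) (g := (LinearMap.id : Ch 𝕜 α →ₗ[𝕜] Ch 𝕜 α))
    (fun l => by simp [← pow_add, ← two_mul]) c
  simpa using this

lemma bd_sg (c : Ch 𝕜 α) : bd (sg c) = - sg (bd c) := by
  have := ch_ext_apply (F := (bd (𝕜 := 𝕜)).comp sg) (G := - (sg (𝕜 := 𝕜)).comp bd) (by simp)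
    (fun y c h => by
      simp only [LinearMap.comp_apply, LinearMap.neg_apply] at h
      simp [h]) c
  simpa using this

@[simp] lemma sn_cons (x y : α) (c : Ch 𝕜 α) : sn x (cons y c) = - cons y (sn x c) := by
  simp [sn]

@[simp] lemma bd_sn (x : α) (c : Ch 𝕜 α) : bd (sn x c) = c - sn x (bd c) := by
  have := ch_ext_apply (F := bd.comp (sn x)) (G := LinearMap.id - (sn x).comp bd)
    (by simp [bd_single_cons])
    (fun y c h => by
      simp only [LinearMap.comp_apply, LinearMap.sub_apply, LinearMap.id_apply] at h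
      simp only [LinearMap.comp_apply, LinearMap.sub_apply, LinearMap.id_apply, sn_cons, map_neg,
        bd_cons, h, map_sub]
      abel) c
  simpa using this

lemma bd_ap (x : α) (c : Ch 𝕜 α) : bd (ap x c) = ap x (bd c) + sg c := by
  have h := bd_sn x (sg c)
  simp only [sn, LinearMap.comp_apply, sg_sg, bd_sg, map_neg] at h
  rw [h]; abel

end Vale.Agent.P240.K
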