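import Vale.Agent.P240.K.Chains

namespace Vale.Agent.P240.K

open Finsupp

variable {𝕜 : Type*} [Field 𝕜]

variable {α β γ : Type*}

/-- chains supported on lists satisfying `P`. -/
noncomputable abbrev Sp (𝕜 : Type*) [Field 𝕜] (P : List α → Prop) : Submodule 𝕜 (Ch 𝕜 α) :=
  Finsupp.supported 𝕜 𝕜 {l | P l}

lemma single_mem_Sp {P : List α → Prop} {l : List α} (h : P l) (r : 𝕜) : single l r ∈ Sp 𝕜 P :=
  Finsupp.single_mem_supported 𝕜 r h

lemma map_mem {M : Type*} [AddCommGroup M] [Module 𝕜 M] {N : Submodule 𝕜 M}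
    {P : List α → Prop} (F : Ch 𝕜 α →ₗ[𝕜] M) (h : ∀ l, P l → F (single l (1 : 𝕜)) ∈ N) {c : Ch 𝕜 α}
    (hc : c ∈ Sp 𝕜 P) : F c ∈ N := by
  have : Sp 𝕜 P ≤ N.comap F := by
    rw [Sp, Finsupp.supported_eq_span_single]
    refine Submodule.span_le.2 ?_
    rintro _ ⟨l, hl, rfl⟩
    exact h l hl
  exact this hc

lemma eq_of_Sp {M : Type*} [AddCommGroup M] [Module 𝕜 M] {P : List α → Prop}
    {F G : Ch 𝕜 α →ₗ[𝕜] M} (h : ∀ l, P l → F (single l (1 : 𝕜)) = G (single l (1 : 𝕜))) {c : Ch 𝕜 α}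
    (hc : c ∈ Sp 𝕜 P) : F c = G c := by
  have := map_mem (N := ⊥) (F - G) (fun l hl => by simp [h l hl]) hc
  simpa [sub_eq_zero] using this

lemma Sp_mono {P Q : List α → Prop} (h : ∀ l, P l → Q l) : Sp 𝕜 P ≤ Sp 𝕜 Q :=
  Finsupp.supported_mono fun l hl => h l hl

lemma mem_Sp {P : List α → Prop} {c : Ch 𝕜 α} : c ∈ Sp 𝕜 P ↔ ∀ l ∈ c.support, P l := by
  rw [Finsupp.mem_supported]; rfl

lemma mem_Sp_inf {P Q : List α → Prop} {c : Ch 𝕜 α} (h : c ∈ Sp 𝕜 P) (h' : c ∈ Sp 𝕜 Q) :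
    c ∈ Sp 𝕜 (fun l => P l ∧ Q l) := by
  rw [mem_Sp] at *
  exact fun l hl => ⟨h l hl, h' l hl⟩

lemma cons_mem {P Q : List α → Prop} {x : α} (h : ∀ l, P l → Q (x :: l)) {c : Ch 𝕜 α}
    (hc : c ∈ Sp 𝕜 P) : cons x c ∈ Sp 𝕜 Q :=
  map_mem _ (fun l hl => by rw [cons_single]; exact single_mem_Sp (h l hl) _) hc

lemma ap_mem {P Q : List α → Prop} {x : α} (h : ∀ l, P l → Q (l ++ [x])) {c : Ch 𝕜 α}
    (hc : c ∈ Sp 𝕜 P) : ap x c ∈ Sp 𝕜 Q :=
  map_mem _ (fun l hl => by rw [ap_single]; exact single_mem_Sp (h l hl) _) hc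

lemma mp_mem {P : List α → Prop} {Q : List β → Prop} {f : α → β} (h : ∀ l, P l → Q (l.map f))
    {c : Ch 𝕜 α} (hc : c ∈ Sp 𝕜 P) : mp f c ∈ Sp 𝕜 Q :=
  map_mem _ (fun l hl => by rw [mp_single]; exact single_mem_Sp (h l hl) _) hc

lemma sg_mem {P : List α → Prop} {c : Ch 𝕜 α} (hc : c ∈ Sp 𝕜 P) : sg c ∈ Sp 𝕜 P :=
  map_mem _ (fun l hl => by
    rw [sg_single]; exact Submodule.smul_mem _ _ (single_mem_Sp hl _)) hc

lemma sn_mem {P Q : List α → Prop} {x : α} (h : ∀ l, P l → Q (l ++ [x])) {c : Ch 𝕜 α}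
    (hc : c ∈ Sp 𝕜 P) : sn x c ∈ Sp 𝕜 Q := ap_mem h (sg_mem hc)

/-- `bd` preserves `Sp 𝕜 P` if `P` passes to sublists. -/
lemma bd_mem {P : List α → Prop} (h : ∀ l l' : List α, l'.Sublist l → P l → P l') {c : Ch 𝕜 α}
    (hc : c ∈ Sp 𝕜 P) : bd c ∈ Sp 𝕜 P :=
  map_mem _ (fun l hl => by
    rw [bd_single, one_smul]
    refine Submodule.sum_mem _ fun i _ => Submodule.smul_mem _ _ (single_mem_Sp ?_ _)
    exact h _ _ (List.eraseIdx_sublist l i) hl) hc

/-- weakly decreasing lists in `S` -/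
def wk [LE α] (S : Set α) (l : List α) : Prop := l.Pairwise (· ≥ ·) ∧ ∀ a ∈ l, a ∈ S

/-- strictly decreasing lists in `S` -/
def st [LT α] (S : Set α) (l : List α) : Prop := l.Pairwise (· > ·) ∧ ∀ a ∈ l, a ∈ S

lemma wk_sub [LE α] {S : Set α} (l l' : List α) (h : l'.Sublist l) (hl : wk S l) : wk S l' :=
  ⟨hl.1.sublist h, fun a ha => hl.2 a (h.subset ha)⟩

lemma st_sub [LT α] {S : Set α} (l l' : List α) (h : l'.Sublist l) (hl : st S l) : st S l' :=
  ⟨hl.1.sublist h, fun a ha => hl.2 a (h.subset ha)⟩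

lemma st_wk [Preorder α] {S : Set α} (l : List α) (hl : st S l) : wk S l :=
  ⟨hl.1.imp fun h => le_of_lt h, hl.2⟩

lemma wk_mono [LE α] {S T : Set α} (h : S ⊆ T) (l : List α) (hl : wk S l) : wk T l :=
  ⟨hl.1, fun a ha => h (hl.2 a ha)⟩

lemma st_mono [LT α] {S T : Set α} (h : S ⊆ T) (l : List α) (hl : st S l) : st T l :=
  ⟨hl.1, fun a ha => h (hl.2 a ha)⟩

lemma bd_wk [LE α] {S : Set α} {c : Ch 𝕜 α} (hc : c ∈ Sp 𝕜 (wk S)) : bd c ∈ Sp 𝕜 (wk S) :=
  bd_mem wk_sub hc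

lemma bd_st [LT α] {S : Set α} {c : Ch 𝕜 α} (hc : c ∈ Sp 𝕜 (st S)) : bd c ∈ Sp 𝕜 (st S) :=
  bd_mem st_sub hc

/-! ### Strictification -/

open Classical in
/-- keep only strictly decreasing lists -/
noncomputable def pi [LT α] : Ch 𝕜 α →ₗ[𝕜] Ch 𝕜 α :=
  Finsupp.linearCombination 𝕜 fun l : List α =>
    if l.Pairwise (· > ·) then single l (1 : 𝕜) else 0

open Classical in
lemma pi_single [LT α] (l : List α) :
    pi (single l (1 : 𝕜)) = if l.Pairwise (· > ·) then single l (1 : 𝕜) else 0 := by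
  simp [pi, Finsupp.linearCombination_single]

lemma pi_of_st [LT α] {S : Set α} {c : Ch 𝕜 α} (hc : c ∈ Sp 𝕜 (st S)) : pi c = c := by
  have := eq_of_Sp (F := pi) (G := LinearMap.id) (fun l (hl : st S l) => by
    rw [pi_single, if_pos hl.1]; rfl) hc
  simpa using this

lemma pi_mem [Preorder α] {S : Set α} {c : Ch 𝕜 α} (hc : c ∈ Sp 𝕜 (wk S)) : pi c ∈ Sp 𝕜 (st S) :=
  map_mem _ (fun l hl => by
    rw [pi_single]
    split_ifs with h
    · exact single_mem_Sp ⟨h, hl.2⟩ _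
    · exact Submodule.zero_mem _) hc

/-- more generally `pi` maps `Sp 𝕜 (P ∧ weak)` to `Sp 𝕜 (P ∧ strict)`. -/
lemma pi_mem' [LT α] {P : List α → Prop} {c : Ch 𝕜 α} (hc : c ∈ Sp 𝕜 P) : pi c ∈ Sp 𝕜 P :=
  map_mem _ (fun l hl => by
    rw [pi_single]
    split_ifs with h
    · exact single_mem_Sp hl _
    · exact Submodule.zero_mem _) hc

lemma pi_dup [Preorder α] (x : α) (c : Ch 𝕜 α) : pi (cons x (cons x c)) = 0 := by
  have := lin_ext_apply (f := pi.comp ((cons x).comp (cons x))) (g := (0 : Ch 𝕜 α →ₗ[𝕜] Ch 𝕜 α))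
    (fun l => by
      simp only [LinearMap.comp_apply, cons_single, LinearMap.zero_apply]
      rw [pi_single, if_neg]
      intro h
      rw [List.pairwise_cons] at h
      exact lt_irrefl x (h.1 x (by simp))) c
  simpa using this

lemma pi_cons_lt [Preorder α] {x : α} {c : Ch 𝕜 α} (hc : c ∈ Sp 𝕜 (fun l => ∀ a ∈ l, x > a)) :
    pi (cons x c) = cons x (pi c) := by
  have := eq_of_Sp (F := pi.comp (cons x)) (G := (cons x).comp pi)
    (fun l (hl : ∀ a ∈ l, x > a) => by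
      simp only [LinearMap.comp_apply, cons_single, pi_single]
      by_cases h : l.Pairwise (· > ·)
      · rw [if_pos h, if_pos (List.pairwise_cons.2 ⟨hl, h⟩), cons_single]
      · rw [if_neg h, if_neg (fun h' => h (List.pairwise_cons.1 h').2), map_zero]) hc
  simpa using this

lemma bd_pi_list [PartialOrder α] (l : List α) (h : l.Pairwise (· ≥ ·)) :
    pi (bd (single l (1 : 𝕜))) = bd (pi (single l (1 : 𝕜))) := by
  induction l with
  | nil => simp [pi_single]
  | cons x l ih =>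
    rcases l with _ | ⟨y, l⟩
    · simp [pi_single, bd_single_cons]
    · have h1 := List.pairwise_cons.1 h
      have h2 := List.pairwise_cons.1 h1.2
      have ih' := ih h1.2
      rcases (lt_or_eq_of_le (h1.1 y (by simp))) with hxy | hxy
      · -- strict
        have hall : ∀ a ∈ y :: l, x > a := by
          intro a ha
          rcases List.mem_cons.1 ha with rfl | ha
          · exact hxy
          · exact lt_of_le_of_lt (h2.1 a ha) hxy
        have hm : single (y :: l) (1 : 𝕜) ∈ Sp 𝕜 (fun l : List α => ∀ a ∈ l, x > a) :=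
          single_mem_Sp hall 1
        have hm' : bd (single (y :: l) (1 : 𝕜)) ∈ Sp 𝕜 (fun l : List α => ∀ a ∈ l, x > a) :=
          bd_mem (fun l l' hs hl a ha => hl a (hs.subset ha)) hm
        rw [bd_single_cons x, map_sub, pi_cons_lt hm', ih', ← cons_single x, pi_cons_lt hm,
          bd_cons]
      · subst hxy
        have e : single (y :: y :: l) (1 : 𝕜) = cons y (cons y (single l (1 : 𝕜))) := by simp
        rw [e, pi_dup, bd_cons, bd_cons, map_zero]
        simp only [map_sub, pi_dup]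
        abel

lemma bd_pi [PartialOrder α] {S : Set α} {c : Ch 𝕜 α} (hc : c ∈ Sp 𝕜 (wk S)) :
    bd (pi c) = pi (bd c) := by
  have := eq_of_Sp (F := bd.comp pi) (G := pi.comp bd)
    (fun l (hl : wk S l) => by simp [bd_pi_list l hl.1]) hc
  simpa using this

/-! ### Cone homotopy -/

/-- prism operator for `id ≤ φ` on lists -/
noncomputable def h1L (φ : α → α) : List α → Ch 𝕜 α
  | [] => 0
  | x :: l => single (φ x :: x :: l) 1 - cons (φ x) (h1L φ l)

/-- prism operator for `id ≤ φ` -/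
noncomputable def h1 (φ : α → α) : Ch 𝕜 α →ₗ[𝕜] Ch 𝕜 α := Finsupp.linearCombination 𝕜 (h1L φ)

lemma h1_single (φ : α → α) (l : List α) : h1 φ (single l (1 : 𝕜)) = h1L φ l := by
  simp [h1, Finsupp.linearCombination_single]

lemma h1_cons (φ : α → α) (x : α) (c : Ch 𝕜 α) :
    h1 φ (cons x c) = cons (φ x) (cons x c) - cons (φ x) (h1 φ c) := by
  have := lin_ext_apply (f := (h1 φ).comp (cons x))
    (g := (cons (φ x)).comp (cons x) - (cons (φ x)).comp (h1 φ))
    (fun l => by simp [h1_single, h1L]) c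
  simpa using this

lemma bd_h1 (φ : α → α) (c : Ch 𝕜 α) : bd (h1 φ c) + h1 φ (bd c) = c - mp φ c := by
  have := ch_ext_apply (F := bd.comp (h1 φ) + (h1 φ).comp bd)
    (G := LinearMap.id - mp φ) (by simp [h1_single, h1L])
    (fun y c h => by
      simp only [LinearMap.comp_apply, LinearMap.sub_apply, LinearMap.id_apply,
        LinearMap.add_apply] at h
      simp only [LinearMap.comp_apply, LinearMap.sub_apply, LinearMap.id_apply,
        LinearMap.add_apply, h1_cons, map_sub, bd_cons, mp_cons]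
      have h' : bd (h1 φ c) = c - mp φ c - h1 φ (bd c) := by rw [← h]; abel
      rw [h']
      simp only [map_sub]
      abel) c
  simpa using this

/-- cone homotopy attached to `x ≤ φ x ≥ F` -/
noncomputable def hc (φ : α → α) (F : α) : Ch 𝕜 α →ₗ[𝕜] Ch 𝕜 α := h1 φ + (sn F).comp (mp φ)

lemma bd_hc (φ : α → α) (F : α) (c : Ch 𝕜 α) : bd (hc φ F c) + hc φ F (bd c) = c := by
  have h := bd_h1 φ c
  simp only [hc, LinearMap.add_apply, LinearMap.comp_apply, map_add, bd_sn, bd_mp]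
  calc _ = (bd (h1 φ c) + h1 φ (bd c)) + mp φ c := by abel
    _ = c := by rw [h]; abel

/-- support of the prism operator -/
lemma h1_mem [Preorder α] {T S : Set α} {φ : α → α} (hTS : T ⊆ S) (hφS : ∀ x ∈ T, φ x ∈ S)
    (hle : ∀ x ∈ T, x ≤ φ x) (hmono : ∀ x ∈ T, ∀ y ∈ T, x ≤ y → φ x ≤ φ y) {c : Ch 𝕜 α}
    (hc : c ∈ Sp 𝕜 (wk T)) : h1 φ c ∈ Sp 𝕜 (wk S) := by
  refine map_mem _ (fun l hl => ?_) hc
  rw [h1_single]
  -- prove the stronger statement about heads
  have key : ∀ l : List α, wk T l → h1L φ l ∈ Sp 𝕜 (fun m : List α => wk S m ∧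
      ∀ a ∈ m, ∃ b ∈ l, a ≤ φ b) := by
    intro l
    induction l with
    | nil => intro _; exact Submodule.zero_mem _
    | cons x l ih =>
      intro hl
      have hp := List.pairwise_cons.1 hl.1
      have hxT : x ∈ T := hl.2 x (by simp)
      have hlT : wk T l := ⟨hp.2, fun a ha => hl.2 a (by simp [ha])⟩
      have c1 : wk S (φ x :: x :: l) ∧ ∀ a ∈ φ x :: x :: l, ∃ b ∈ x :: l, a ≤ φ b := by
        refine ⟨⟨?_, ?_⟩, ?_⟩
        · rw [List.pairwise_cons]
          refine ⟨?_, hl.1⟩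
          intro a ha
          rcases List.mem_cons.1 ha with h | ha
          · rw [h]; exact hle _ hxT
          · exact le_trans (hp.1 a ha) (hle _ hxT)
        · intro a ha
          rcases List.mem_cons.1 ha with h | ha
          · rw [h]; exact hφS _ hxT
          · exact hTS (hl.2 a ha)
        · intro a ha
          refine ⟨x, by simp, ?_⟩
          rcases List.mem_cons.1 ha with h | ha
          · rw [h]
          rcases List.mem_cons.1 ha with h | ha
          · rw [h]; exact hle _ hxT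
          · exact le_trans (hp.1 a ha) (hle _ hxT)
      have c2 : ∀ m : List α, (wk S m ∧ ∀ a ∈ m, ∃ b ∈ l, a ≤ φ b) →
          (wk S (φ x :: m) ∧ ∀ a ∈ φ x :: m, ∃ b ∈ x :: l, a ≤ φ b) := by
        rintro m ⟨hm, hm'⟩
        refine ⟨⟨?_, ?_⟩, ?_⟩
        · rw [List.pairwise_cons]
          refine ⟨?_, hm.1⟩
          intro a ha
          obtain ⟨b, hb, hab⟩ := hm' a ha
          exact le_trans hab (hmono _ (hlT.2 b hb) _ hxT (hp.1 b hb))
        · intro a ha
          rcases List.mem_cons.1 ha with h | ha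
          · rw [h]; exact hφS _ hxT
          · exact hm.2 a ha
        · intro a ha
          rcases List.mem_cons.1 ha with h | ha
          · rw [h]; exact ⟨x, by simp, le_refl _⟩
          · obtain ⟨b, hb, hab⟩ := hm' a ha
            exact ⟨b, by simp [hb], hab⟩
      exact Submodule.sub_mem _ (single_mem_Sp c1 _) (cons_mem c2 (ih hlT))
  exact Sp_mono (fun m hm => hm.1) (key l hl)

lemma hc_mem [Preorder α] {T S : Set α} {φ : α → α} {F : α} (hTS : T ⊆ S) (hFS : F ∈ S)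
    (hφS : ∀ x ∈ T, φ x ∈ S) (hF : ∀ x ∈ T, F ≤ φ x)
    (hle : ∀ x ∈ T, x ≤ φ x) (hmono : ∀ x ∈ T, ∀ y ∈ T, x ≤ y → φ x ≤ φ y) {c : Ch 𝕜 α}
    (hc' : c ∈ Sp 𝕜 (wk T)) : hc φ F c ∈ Sp 𝕜 (wk S) := by
  refine Submodule.add_mem _ (h1_mem hTS hφS hle hmono hc') ?_
  have h1 : mp φ c ∈ Sp 𝕜 (fun m : List α => wk S m ∧ ∀ a ∈ m, F ≤ a) := by
    refine mp_mem (P := wk T) ?_ hc'
    intro l hl
    refine ⟨⟨?_, ?_⟩, ?_⟩
    · rw [List.pairwise_map]
      exact hl.1.imp_of_mem fun {a b} ha hb hab => hmono _ (hl.2 b hb) _ (hl.2 a ha) hab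
    · intro a ha
      obtain ⟨b, hb, rfl⟩ := List.mem_map.1 ha
      exact hφS _ (hl.2 b hb)
    · intro a ha
      obtain ⟨b, hb, rfl⟩ := List.mem_map.1 ha
      exact hF _ (hl.2 b hb)
  refine sn_mem ?_ h1
  rintro m ⟨hm, hm'⟩
  refine ⟨?_, ?_⟩
  · rw [List.pairwise_append]
    refine ⟨hm.1, by simp, ?_⟩
    intro a ha b hb
    rw [List.mem_singleton] at hb
    subst hb
    exact hm' a ha
  · intro a ha
    rcases List.mem_append.1 ha with ha | ha
    · exact hm.2 a ha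
    · rw [List.mem_singleton] at ha
      subst ha
      exact hFS

end Vale.Agent.P240.K
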