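import Vale.Agent.P240.K.Defs

namespace Vale.Agent.P240.K

open Subgroup

variable {𝕜 : Type*} [Field 𝕜]

/-- the hypotheses on `L`: trivial centre, commutes with every other conjugate, order divisible
by `p`. -/
structure CompLike {G : Type*} [Group G] (p : ℕ) (L : Subgroup G) : Prop where
  centre : L ⊓ centralizer (L : Set G) = ⊥
  conj : ∀ g : G, g ∉ normalizer (L : Set G) → ∀ x ∈ L, ∀ y ∈ L,
    x * (g * y * g⁻¹) = (g * y * g⁻¹) * x
  dvd : p ∣ Nat.card L

end Vale.Agent.P240.K
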