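import Vale.Agent.P240.K.Exact

namespace Vale.Agent.P240.K

open Finsupp Subgroup

variable {𝕜 : Type*} [Field 𝕜]

/-- The set of nontrivial elementary abelian `p`-subgroups. -/
def ApS (p : ℕ) (G : Type*) [Group G] : Set (Subgroup G) :=
  {E | E ≠ ⊥ ∧ (∀ x ∈ E, ∀ y ∈ E, x * y = y * x) ∧ ∀ x ∈ E, x ^ p = 1}

/-- those contained in `H` -/
def Ain (p : ℕ) {G : Type*} [Group G] (H : Subgroup G) : Set (Subgroup G) :=
  {E | E ∈ ApS p G ∧ E ≤ H}

variable {G Q : Type*} [Group G] [Group Q] {p : ℕ}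

lemma HQ_iff : HQ 𝕜 p G ↔ NA 𝕜 (ApS p G) := by
  rw [HQ, official_iff]
  have h : (Subtype.val '' (Set.univ : Set (Ap p G))) = ApS p G := by
    ext E
    simp [ApS]
  rw [← h]
  exact (NA_image Subtype.val_injective.injOn fun x _ y _ => Iff.rfl).symm

lemma HQ_sub_iff (H : Subgroup G) : HQ 𝕜 p H ↔ NA 𝕜 (Ain p H) := by
  rw [HQ_iff]
  have h : (fun E : Subgroup H => E.map H.subtype) '' (ApS p H) = Ain p H := by
    ext E
    constructor
    · rintro ⟨F, ⟨h1, h2, h3⟩, rfl⟩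
      refine ⟨⟨?_, ?_, ?_⟩, ?_⟩
      · intro h
        exact h1 ((Subgroup.map_eq_bot_iff_of_injective _ H.subtype_injective).1 h)
      · rintro _ ⟨x, hx, rfl⟩ _ ⟨y, hy, rfl⟩
        rw [← map_mul, ← map_mul, h2 x hx y hy]
      · rintro _ ⟨x, hx, rfl⟩
        rw [← map_pow, h3 x hx, map_one]
      · exact Subgroup.map_subtype_le F
    · rintro ⟨⟨h1, h2, h3⟩, h4⟩
      refine ⟨E.subgroupOf H, ⟨?_, ?_, ?_⟩, ?_⟩
      · intro h
        apply h1
        rw [Subgroup.subgroupOf_eq_bot] at h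
        exact disjoint_self.1 (h.mono_right h4)
      · intro x hx y hy
        rw [Subgroup.mem_subgroupOf] at hx hy
        exact Subtype.ext (h2 _ hx _ hy)
      · intro x hx
        rw [Subgroup.mem_subgroupOf] at hx
        exact Subtype.ext (h3 _ hx)
      · exact Subgroup.map_subgroupOf_eq_of_le h4
  rw [← h]
  refine (NA_image (Subgroup.map_injective H.subtype_injective).injOn fun x _ y _ => ?_).symm
  constructor
  · intro hxy
    refine lt_of_le_of_ne (Subgroup.map_mono hxy.le) fun h => hxy.ne ?_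
    exact Subgroup.map_injective H.subtype_injective h
  · intro hxy
    refine lt_of_le_of_ne ((Subgroup.map_le_map_iff_of_injective H.subtype_injective).1 hxy.le) ?_
    rintro rfl
    exact lt_irrefl _ hxy

lemma sup_mem_ApS {E F : Subgroup G} (hE : E ∈ ApS p G) (hF : F ∈ ApS p G)
    (h : ∀ x ∈ E, ∀ y ∈ F, x * y = y * x) : E ⊔ F ∈ ApS p G := by
  have hEE : E ≤ centralizer (E : Set G) := fun x hx => by
    rw [Subgroup.mem_centralizer_iff]
    exact fun y hy => hE.2.1 y hy x hx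
  have hFF : F ≤ centralizer (F : Set G) := fun x hx => by
    rw [Subgroup.mem_centralizer_iff]
    exact fun y hy => hF.2.1 y hy x hx
  have hEF : E ≤ centralizer (F : Set G) := fun x hx => by
    rw [Subgroup.mem_centralizer_iff]
    exact fun y hy => (h x hx y hy).symm
  have hFE : F ≤ centralizer (E : Set G) := fun x hx => by
    rw [Subgroup.mem_centralizer_iff]
    exact fun y hy => h y hy x hx
  have h1 : E ⊔ F ≤ centralizer (E : Set G) := sup_le hEE hFE
  have h2 : E ⊔ F ≤ centralizer (F : Set G) := sup_le hEF hFF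
  have h3 : E ⊔ F ≤ centralizer ((E ⊔ F : Subgroup G) : Set G) := by
    rw [Subgroup.le_centralizer_iff]
    exact sup_le (Subgroup.le_centralizer_iff.1 h1) (Subgroup.le_centralizer_iff.1 h2)
  have hcomm : ∀ x ∈ E ⊔ F, ∀ y ∈ E ⊔ F, x * y = y * x := by
    intro x hx y hy
    exact (Subgroup.mem_centralizer_iff.1 (h3 hy)) x hx
  refine ⟨?_, hcomm, ?_⟩
  · intro hb
    exact hE.1 (le_bot_iff.1 (hb ▸ le_sup_left))
  · let P : Subgroup G :=
      { carrier := {x | x ∈ E ⊔ F ∧ x ^ p = 1}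
        one_mem' := ⟨one_mem _, one_pow _⟩
        mul_mem' := by
          rintro x y ⟨hx, hx'⟩ ⟨hy, hy'⟩
          refine ⟨mul_mem hx hy, ?_⟩
          have : Commute x y := hcomm x hx y hy
          rw [this.mul_pow, hx', hy', one_mul]
        inv_mem' := by
          rintro x ⟨hx, hx'⟩
          exact ⟨inv_mem hx, by rw [inv_pow, hx', inv_one]⟩ }
    have hle : E ⊔ F ≤ P := sup_le
      (fun x hx => ⟨Subgroup.mem_sup_left hx, hE.2.2 x hx⟩)
      (fun x hx => ⟨Subgroup.mem_sup_right hx, hF.2.2 x hx⟩)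
    exact fun x hx => (hle hx).2

lemma mem_ApS_of_le {E F : Subgroup G} (hE : E ∈ ApS p G) (hF : F ≤ E) (h : F ≠ ⊥) :
    F ∈ ApS p G :=
  ⟨h, fun x hx y hy => hE.2.1 x (hF hx) y (hF hy), fun x hx => hE.2.2 x (hF hx)⟩

/-- image of (the part in `N` of) a subgroup under a homomorphism defined on `N` -/
def fq (N : Subgroup G) (π : N →* Q) (E : Subgroup G) : Subgroup Q := (E.subgroupOf N).map π

lemma mem_fq {N : Subgroup G} {π : N →* Q} {E : Subgroup G} {q : Q} :
    q ∈ fq N π E ↔ ∃ n : N, (n : G) ∈ E ∧ π n = q := by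
  rw [fq, Subgroup.mem_map]
  simp [Subgroup.mem_subgroupOf]

lemma fq_mono {N : Subgroup G} {π : N →* Q} {E F : Subgroup G} (h : E ≤ F) :
    fq N π E ≤ fq N π F := by
  intro q hq
  rw [mem_fq] at *
  obtain ⟨n, hn, rfl⟩ := hq
  exact ⟨n, h hn, rfl⟩

lemma fq_sup {N M : Subgroup G} {π : N →* Q} (hπ : ∀ n : N, π n = 1 ↔ (n : G) ∈ M)
    {E F : Subgroup G} (hE : E ≤ N) (hF : F ≤ N) (hFM : F ≤ M) :
    fq N π (E ⊔ F) = fq N π E := by
  refine le_antisymm ?_ (fq_mono le_sup_left)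
  rw [fq, Subgroup.subgroupOf_sup hE hF, Subgroup.map_sup]
  refine sup_le le_rfl ?_
  rintro _ ⟨n, hn, rfl⟩
  rw [(hπ n).2 (hFM hn)]
  exact one_mem _

lemma fq_mem_ApS {N M : Subgroup G} {π : N →* Q} (hπ : ∀ n : N, π n = 1 ↔ (n : G) ∈ M)
    {E : Subgroup G} (hE : E ∈ ApS p G) (hEN : E ≤ N) (hEM : ¬ E ≤ M) : fq N π E ∈ ApS p Q := by
  refine ⟨?_, ?_, ?_⟩
  · intro h
    apply hEM
    intro x hx
    have : π ⟨x, hEN hx⟩ ∈ fq N π E := mem_fq.2 ⟨⟨x, hEN hx⟩, hx, rfl⟩
    rw [h, Subgroup.mem_bot, hπ] at this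
    exact this
  · intro x hx y hy
    obtain ⟨m, hm, rfl⟩ := mem_fq.1 hx
    obtain ⟨n, hn, rfl⟩ := mem_fq.1 hy
    rw [← map_mul, ← map_mul]
    congr 1
    exact Subtype.ext (hE.2.1 _ hm _ hn)
  · intro x hx
    obtain ⟨m, hm, rfl⟩ := mem_fq.1 hx
    rw [← map_pow]
    have : m ^ p = 1 := Subtype.ext (hE.2.2 _ hm)
    rw [this, map_one]

/-- shuffle products of weak chains in commuting families are weak chains -/
lemma shL_mem {α : Type*} [SemilatticeSup α] {A B S : Set α} (hA : A ⊆ S) (hB : B ⊆ S)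
    (hAB : ∀ a ∈ A, ∀ b ∈ B, a ⊔ b ∈ S) (n : ℕ) :
    ∀ s t : List α, s.length + t.length = n → wk A s → wk B t → ∀ u : α, (∀ a ∈ s, a ≤ u) →
      (∀ b ∈ t, b ≤ u) → shL s t ∈ Sp 𝕜 (fun l => wk S l ∧ ∀ x ∈ l, x ≤ u) := by
  induction n with
  | zero =>
    intro s t h _ _ u _ _
    have hs : s = [] := List.length_eq_zero_iff.1 (by omega)
    have ht : t = [] := List.length_eq_zero_iff.1 (by omega)
    subst hs ht
    rw [shL]
    exact single_mem_Sp ⟨⟨by simp, by simp⟩, by simp⟩ _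
  | succ n ih =>
    intro s t h hs ht u hsu htu
    rcases s with _ | ⟨a, s⟩
    · rw [shL]
      exact single_mem_Sp ⟨wk_mono hB _ ht, htu⟩ _
    rcases t with _ | ⟨b, t⟩
    · rw [shL]
      exact single_mem_Sp ⟨wk_mono hA _ hs, hsu⟩ _
    have hps := List.pairwise_cons.1 hs.1
    have hpt := List.pairwise_cons.1 ht.1
    have h1 := ih s (b :: t) (by simp only [List.length_cons] at h ⊢; omega)
      ⟨hps.2, fun x hx => hs.2 x (by simp [hx])⟩ ht (a ⊔ b)
      (fun x hx => le_sup_of_le_left (hps.1 x hx))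
      (fun x hx => by
        rcases List.mem_cons.1 hx with h | h
        · rw [h]; exact le_sup_right
        · exact le_sup_of_le_right (hpt.1 x h))
    have h2 := ih (a :: s) t (by simp only [List.length_cons] at h ⊢; omega) hs
      ⟨hpt.2, fun x hx => ht.2 x (by simp [hx])⟩ (a ⊔ b)
      (fun x hx => by
        rcases List.mem_cons.1 hx with h | h
        · rw [h]; exact le_sup_left
        · exact le_sup_of_le_left (hps.1 x h))
      (fun x hx => le_sup_of_le_right (hpt.1 x hx))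
    rw [shL]
    refine cons_mem ?_ (Submodule.add_mem _ h1 (Submodule.smul_mem _ _ h2))
    rintro l ⟨hl, hl'⟩
    have hu : a ⊔ b ≤ u := sup_le (hsu a (by simp)) (htu b (by simp))
    refine ⟨⟨List.pairwise_cons.2 ⟨hl', hl.1⟩, ?_⟩, ?_⟩
    · intro x hx
      rcases List.mem_cons.1 hx with h | h
      · rw [h]; exact hAB a (hs.2 a (by simp)) b (ht.2 b (by simp))
      · exact hl.2 x h
    · intro x hx
      rcases List.mem_cons.1 hx with h | h
      · rw [h]; exact hu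
      · exact le_trans (hl' x h) hu

lemma sh_mem {α : Type*} [SemilatticeSup α] [OrderTop α] {A B S : Set α} (hA : A ⊆ S) (hB : B ⊆ S)
    (hAB : ∀ a ∈ A, ∀ b ∈ B, a ⊔ b ∈ S) {x y : Ch 𝕜 α} (hx : x ∈ Sp 𝕜 (wk A)) (hy : y ∈ Sp 𝕜 (wk B)) :
    sh x y ∈ Sp 𝕜 (wk S) := by
  have h1 : ∀ s : List α, wk A s → sh (single s (1 : 𝕜)) y ∈ Sp 𝕜 (wk S) := by
    intro s hs
    refine map_mem _ (fun t ht => ?_) hy
    rw [sh_single]
    exact Sp_mono (fun l hl => hl.1) (shL_mem hA hB hAB _ s t rfl hs ht ⊤ (fun _ _ => le_top)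
      (fun _ _ => le_top))
  exact map_mem ((sh).flip y) (fun s hs => h1 s hs) hx

/-- The main detection theorem. -/
theorem detect (N M : Subgroup G) (hMN : M ≤ N) (π : N →* Q)
    (hπ : ∀ n : N, π n = 1 ↔ (n : G) ∈ M)
    (SW : Set (Subgroup Q)) (hSW : ∀ E ∈ Ain p N, ¬ E ≤ M → fq N π E ∈ SW)
    (lW : Ch 𝕜 (Subgroup Q) →ₗ[𝕜] 𝕜) (lD : Ch 𝕜 (Subgroup G) →ₗ[𝕜] 𝕜)
    (hnW : Nrm lW) (hnD : Nrm lD) (hW : Coc SW lW) (hD : Coc (Ain p M) lD)
    (hvan : ∀ g, g ∉ N → ∀ l, wk {E | E ∈ Ain p M ∧ ∀ x ∈ E, g * x = x * g} l →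
      lD (single l (1 : 𝕜)) = 0)
    (H1 H2 : Subgroup G) (h1N : H1 ≤ N) (h2M : H2 ≤ M)
    (h12 : ∀ x ∈ H1, ∀ y ∈ H2, x * y = y * x) (h1M : H1 ⊓ M = ⊥)
    (x y : Ch 𝕜 (Subgroup G)) (hx : x ∈ Sp 𝕜 (wk (Ain p H1))) (hy : y ∈ Sp 𝕜 (wk (Ain p H2)))
    (hbx : bd x = 0) (hby : bd y = 0)
    (hlx : lW (mp (fq N π) x) ≠ 0) (hly : lD y ≠ 0) : NA 𝕜 (ApS p G) := by
  classical
  set D : Set (Subgroup G) := {E | E ≤ M} with hDdef
  set U : Set (Subgroup G) := {E | E ⊓ N ≠ ⊥} with hUdef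
  set rho : Subgroup G → Subgroup G := fun E => E ⊓ N with hrho
  set ph := phi D (fq N π) lW lD with hph
  have hlow : ∀ x ∈ Ain p N, ∀ y ∈ Ain p N, x ≤ y → y ∈ D → x ∈ D :=
    fun x _ y _ hxy hy => le_trans hxy hy
  have hcoc : Coc (Ain p N) ph := by
    refine phi_coc (SW := SW) hlow (fun E hE hED => hSW E hE hED)
      (fun E _ _ F _ _ h => fq_mono h) hW ?_
    intro c hc
    have hsub : Ain p N ∩ D ⊆ Ain p M := fun E hE => ⟨hE.1.1, hE.2⟩
    exact hD c (Sp_mono (wk_mono hsub) hc)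
  -- vanishing on lists commuting with `g`
  have hvanPhi : ∀ g, g ∉ N → ∀ l, wk {E | E ∈ Ain p N ∧ ∀ x ∈ E, g * x = x * g} l →
      PhiL D (fq N π) lW lD l = 0 := by
    intro g hg l
    induction l with
    | nil =>
      intro _
      rw [PhiL, hvan g hg [] ⟨by simp, by simp⟩, zero_smul]
    | cons E l ih =>
      intro hl
      have hp := List.pairwise_cons.1 hl.1
      by_cases hE : E ∈ D
      · rw [PhiL_cons_mem hE, hvan g hg (E :: l), zero_smul]
        refine ⟨hl.1, fun F hF => ?_⟩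
        have hFE : F ≤ E := by
          rcases List.mem_cons.1 hF with h | h
          · rw [h]
          · exact hp.1 F h
        exact ⟨⟨(hl.2 F hF).1.1, le_trans hFE hE⟩, (hl.2 F hF).2⟩
      · rw [PhiL_cons_not hE, ih ⟨hp.2, fun F hF => hl.2 F (by simp [hF])⟩, LinearMap.zero_comp]
  have hUup : ∀ x ∈ ApS p G, x ∈ U → ∀ y ∈ ApS p G, x ≤ y → y ∈ U := by
    intro E _ hE F _ hEF h
    apply hE
    rw [← le_bot_iff, ← h]
    exact inf_le_inf_right _ hEF
  have hrhoT : ∀ x ∈ ApS p G, x ∈ U → rho x ∈ Ain p N := fun E hE hEU =>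
    ⟨mem_ApS_of_le hE inf_le_left hEU, inf_le_right⟩
  have hext := ext_coc (S := ApS p G) (U := U) (T := Ain p N) (rho := rho) (psi := ph) hUup hrhoT
    (fun E _ _ F _ _ h => inf_le_inf_right _ h) hcoc (by
      intro l hl hlU e heS heU hel
      have hee : e ⊓ N = ⊥ := by
        by_contra h
        exact heU h
      obtain ⟨g, hg1⟩ := (Subgroup.ne_bot_iff_exists_ne_one).1 heS.1
      have hgN : (g : G) ∉ N := by
        intro h
        apply hg1
        have : (g : G) ∈ e ⊓ N := ⟨g.2, h⟩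
        rw [hee, Subgroup.mem_bot] at this
        exact Subtype.ext this
      rw [hph, phi_single, hvanPhi g hgN, LinearMap.zero_apply]
      refine ⟨?_, ?_⟩
      · rw [List.pairwise_map]
        exact hl.1.imp fun h => inf_le_inf_right _ h
      · intro F hF
        obtain ⟨E, hE, rfl⟩ := List.mem_map.1 hF
        refine ⟨hrhoT E (hl.2 E hE) (hlU E hE), ?_⟩
        intro x hx
        exact (hl.2 E hE).2.1 _ (hel E hE g.2) _ hx.1)
  have hA1 : Ain p H1 ⊆ ApS p G := fun E hE => hE.1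
  have hA2 : Ain p H2 ⊆ ApS p G := fun E hE => hE.1
  have hz : sh x y ∈ Sp 𝕜 (wk (Ain p N)) := by
    have hs1 : Ain p H1 ⊆ Ain p N := fun E hE => ⟨hE.1, hE.2.trans h1N⟩
    have hs2 : Ain p H2 ⊆ Ain p N := fun E hE => ⟨hE.1, (hE.2.trans h2M).trans hMN⟩
    refine sh_mem hs1 hs2 ?_ hx hy
    intro E hE F hF
    exact ⟨sup_mem_ApS hE.1 hF.1 fun a ha b hb => h12 a (hE.2 ha) b (hF.2 hb),
      sup_le (hE.2.trans h1N) ((hF.2.trans h2M).trans hMN)⟩
  refine NA_of_functional ((ph.comp (mp rho)).comp (res U)) ?_ hext (sh x y)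
    (Sp_mono (wk_mono fun E hE => hE.1) hz) ?_ ?_
  · intro l hl hns
    simp only [LinearMap.comp_apply]
    rw [res_single]
    split_ifs with hU
    · rw [mp_single, hph, phi_single]
      refine PhiL_nrm (S := Ain p N) hnW hnD _ ⟨?_, ?_⟩ ?_ _
      · rw [List.pairwise_map]
        exact hl.1.imp fun h => inf_le_inf_right _ h
      · intro F hF
        obtain ⟨E, hE, rfl⟩ := List.mem_map.1 hF
        exact hrhoT E (hl.2 E hE) (hU E hE)
      · intro h
        apply hns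
        rw [List.pairwise_map] at h
        refine (hl.1.and h).imp ?_
        rintro E F ⟨hEF, hEF'⟩
        refine lt_of_le_of_ne hEF ?_
        rintro rfl
        exact lt_irrefl _ hEF'
    · rw [map_zero, map_zero]
  · rw [bd_sh, hbx, hby, map_zero, LinearMap.zero_apply, map_zero, add_zero]
  · have hzU : sh x y ∈ Sp 𝕜 (fun l : List (Subgroup G) => ∀ a ∈ l, a ∈ U) := by
      refine Sp_mono (fun l hl E hE => ?_) hz
      have := hl.2 E hE
      change E ⊓ N ≠ ⊥
      rw [inf_eq_left.2 this.2]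
      exact this.1.1
    have hzr : mp rho (sh x y) = sh x y := by
      have := eq_of_Sp (F := mp rho) (G := LinearMap.id) (fun l (hl : wk (Ain p N) l) => by
        rw [mp_single]
        have : l.map rho = l := by
          conv_rhs => rw [← List.map_id l]
          refine List.map_congr_left fun E hE => ?_
          exact inf_eq_left.2 (hl.2 E hE).2
        rw [this]; rfl) hz
      simpa using this
    simp only [LinearMap.comp_apply]
    rw [res_of_mem hzU, hzr, hph,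
      phi_shuffle (A := Ain p H1) (B := Ain p H2) ?_ ?_ ?_ hnW
        (Sp_mono (fun l hl => hl.2) hx) (Sp_mono (fun l hl => hl.2) hy)]
    · exact mul_ne_zero hlx hly
    · intro E hE hEM
      exact hE.1.1 (le_bot_iff.1 (h1M ▸ le_inf hE.2 hEM))
    · intro E hE
      exact hE.2.trans h2M
    · intro E hE F hF
      refine ⟨?_, fq_sup hπ (hE.2.trans h1N) ((hF.2.trans h2M).trans hMN) (hF.2.trans h2M)⟩
      intro h
      exact hE.1.1 (le_bot_iff.1 (h1M ▸ le_inf hE.2 (le_sup_left.trans h)))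

end Vale.Agent.P240.K
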