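import Vale.Agent.P240.K.Smith
import Vale.Agent.P240.K.Groups

namespace Vale.Agent.P240.K

open Finsupp Subgroup

variable {𝕜 : Type*} [Field 𝕜] {G : Type*} [Group G] {p : ℕ}

/-- conjugation of subgroups -/
def cj (g : G) (E : Subgroup G) : Subgroup G := E.map (MulAut.conj g).toMonoidHom

lemma mem_cj {g : G} {E : Subgroup G} {x : G} : x ∈ cj g E ↔ g⁻¹ * x * g ∈ E := by
  constructor
  · rintro ⟨y, hy, rfl⟩
    have : g⁻¹ * ((MulAut.conj g).toMonoidHom y) * g = y := by
      simp [MulAut.conj_apply, mul_assoc]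
    rw [this]
    exact hy
  · intro h
    refine ⟨g⁻¹ * x * g, h, ?_⟩
    simp [MulAut.conj_apply, mul_assoc]

lemma cj_mul (g h : G) (E : Subgroup G) : cj (g * h) E = cj g (cj h E) := by
  ext x
  rw [mem_cj, mem_cj, mem_cj]
  have : (g * h)⁻¹ * x * (g * h) = h⁻¹ * (g⁻¹ * x * g) * h := by group
  rw [this]

lemma cj_one (E : Subgroup G) : cj 1 E = E := by
  ext x
  rw [mem_cj]
  simp

lemma cj_le {g : G} {E F : Subgroup G} : cj g E ≤ cj g F ↔ E ≤ F := by
  constructor
  · intro h x hx
    have h1 : g * x * g⁻¹ ∈ cj g E := by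
      rw [mem_cj]
      have : g⁻¹ * (g * x * g⁻¹) * g = x := by group
      rwa [this]
    have h2 := h h1
    rw [mem_cj] at h2
    have : g⁻¹ * (g * x * g⁻¹) * g = x := by group
    rwa [this] at h2
  · intro h x hx
    rw [mem_cj] at hx ⊢
    exact h hx

lemma cj_injective (g : G) : Function.Injective (cj g) := fun _ _ h =>
  le_antisymm (cj_le.1 h.le) (cj_le.1 h.ge)

lemma cj_lt {g : G} {E F : Subgroup G} : cj g E < cj g F ↔ E < F := by
  rw [lt_iff_le_not_ge, lt_iff_le_not_ge, cj_le, cj_le]

lemma cj_eq_iff {g : G} {E : Subgroup G} : cj g E = E ↔ g ∈ normalizer (E : Set G) := by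
  rw [mem_normalizer_iff]
  constructor
  · intro h x
    constructor
    · intro hx
      have : g * x * g⁻¹ ∈ cj g E := by
        rw [mem_cj]
        have : g⁻¹ * (g * x * g⁻¹) * g = x := by group
        rwa [this]
      rwa [h] at this
    · intro hx
      have h2 : g * x * g⁻¹ ∈ cj g E := by rw [h]; exact hx
      rw [mem_cj] at h2
      have : g⁻¹ * (g * x * g⁻¹) * g = x := by group
      rwa [this] at h2
  · intro h
    ext x
    rw [mem_cj]
    have h1 := h (g⁻¹ * x * g)
    have : g * (g⁻¹ * x * g) * g⁻¹ = x := by group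
    rw [this] at h1
    exact h1

lemma cj_iter (g : G) (n : ℕ) (E : Subgroup G) : (cj g)^[n] E = cj (g ^ n) E := by
  induction n with
  | zero => simp [cj_one]
  | succ n ih => rw [Function.iterate_succ_apply', ih, ← cj_mul, ← pow_succ']

lemma normalizer_cj {g x : G} {E : Subgroup G} :
    x ∈ normalizer ((cj g E : Subgroup G) : Set G) ↔ g⁻¹ * x * g ∈ normalizer (E : Set G) := by
  rw [← cj_eq_iff, ← cj_eq_iff, ← (cj_injective g).eq_iff (a := cj (g⁻¹ * x * g) E), ← cj_mul,
    ← cj_mul]
  have h2 : g * (g⁻¹ * x * g) = x * g := by group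
  rw [h2]

/-- Smith's theorem for a finite `r`-group acting by conjugation. -/
theorem smith_group {r : ℕ} [hp : Fact r.Prime] (hchar : (r : 𝕜) = 0) [Finite G]
    {S : Set (Subgroup G)} (n : ℕ) : ∀ U : Subgroup G, Nat.card U = r ^ n →
      (∀ u ∈ U, ∀ E ∈ S, cj u E ∈ S) → ¬ NA 𝕜 S →
      ¬ NA 𝕜 {E | E ∈ S ∧ U ≤ normalizer (E : Set G)} := by
  induction n with
  | zero =>
    intro U hU _ hac
    rw [pow_zero, Subgroup.card_eq_one] at hU
    have : {E | E ∈ S ∧ U ≤ normalizer (E : Set G)} = S := by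
      ext E
      exact ⟨fun h => h.1, fun h => ⟨h, by rw [hU]; exact bot_le⟩⟩
    rwa [this]
  | succ n ih =>
    intro U hU hS hac
    obtain ⟨V', hV'⟩ := Sylow.exists_subgroup_card_pow_prime r (n := n) (G := U)
      (by rw [hU]; exact pow_dvd_pow r (Nat.le_succ n))
    have hr0 : 0 < r := hp.out.pos
    have hidx : V'.index = r := by
      have h1 := V'.card_mul_index
      rw [hV', hU, pow_succ] at h1
      exact Nat.eq_of_mul_eq_mul_left (pow_pos hr0 n) h1
    have hVn : V'.Normal := by
      refine Subgroup.normal_of_index_eq_minFac_card ?_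
      rw [hidx, hU, Nat.Prime.pow_minFac hp.out (Nat.succ_ne_zero n)]
    have hne : V' ≠ ⊤ := by
      intro h
      rw [h, Subgroup.index_top] at hidx
      exact hp.out.one_lt.ne hidx
    obtain ⟨u, hu⟩ : ∃ u : U, u ∉ V' := by
      by_contra h
      push Not at h
      exact hne (eq_top_iff.2 fun x _ => h x)
    set V : Subgroup G := V'.map U.subtype with hVdef
    have hVU : V ≤ U := Subgroup.map_subtype_le V'
    have hVcard : Nat.card V = r ^ n := by
      rw [hVdef, Subgroup.card_map_of_injective U.subtype_injective, hV']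
    have hV := ih V hVcard (fun v hv E hE => hS v (hVU hv) E hE) hac
    have hur : (u : G) ^ r ∈ V := by
      refine ⟨u ^ r, ?_, by simp⟩
      have := Subgroup.pow_index_mem V' u
      rwa [hidx] at this
    have hconj : ∀ v ∈ V, (u : G)⁻¹ * v * u ∈ V := by
      rintro _ ⟨v, hv, rfl⟩
      refine ⟨u⁻¹ * v * u, ?_, by simp⟩
      have := hVn.conj_mem v hv u⁻¹
      simpa using this
    set T : Set (Subgroup G) := {E | E ∈ S ∧ V ≤ normalizer (E : Set G)} with hT
    have hsm := smith (𝕜 := 𝕜) (r := r) hchar (S := T) (Set.toFinite T) (cj (u : G)) ?_ ?_ ?_ hV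
    · have : {x | x ∈ T ∧ cj (u : G) x = x} = {E | E ∈ S ∧ U ≤ normalizer (E : Set G)} := by
        ext E
        constructor
        · rintro ⟨⟨h1, h2⟩, h3⟩
          refine ⟨h1, ?_⟩
          rw [cj_eq_iff] at h3
          have h4 : V' ≤ (normalizer (E : Set G)).subgroupOf U := by
            intro v hv
            rw [Subgroup.mem_subgroupOf]
            exact h2 ⟨v, hv, rfl⟩
          have h5 := Subgroup.relIndex_mul_index h4
          rw [hidx] at h5
          rcases (Nat.dvd_prime hp.out).1 (Dvd.intro_left _ h5) with h6 | h6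
          · rw [Subgroup.index_eq_one] at h6
            rw [Subgroup.subgroupOf_eq_top] at h6
            exact h6
          · exfalso
            rw [h6] at h5
            have h7 : V'.relIndex ((normalizer (E : Set G)).subgroupOf U) = 1 :=
              Nat.eq_of_mul_eq_mul_right hr0 (by rw [h5, one_mul])
            rw [Subgroup.relIndex_eq_one] at h7
            apply hu
            apply h7
            rw [Subgroup.mem_subgroupOf]
            exact h3
        · rintro ⟨h1, h2⟩
          exact ⟨⟨h1, hVU.trans h2⟩, cj_eq_iff.2 (h2 u.2)⟩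
      rwa [this] at hsm
    · rintro E ⟨h1, h2⟩
      refine ⟨hS u u.2 E h1, fun v hv => ?_⟩
      rw [normalizer_cj]
      exact h2 (hconj v hv)
    · rintro E ⟨h1, h2⟩
      rw [cj_iter, cj_eq_iff]
      exact h2 hur
    · intro E _ F _ h
      exact cj_lt.2 h

end Vale.Agent.P240.K
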