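import Vale.Agent.P240.K.FamDefs

namespace Vale.Agent.P240.K

open Subgroup

universe u v

section
variable {G : Type u} [Group G]

/-- `F` is a set of component-like subgroups: it is stable under conjugation, distinct members
commute elementwise, members have trivial centre and order divisible by `p`. -/
structure Family (p : ℕ) (F : Set (Subgroup G)) : Prop where
  conj : ∀ L ∈ F, ∀ g : G, L.map (MulAut.conj g).toMonoidHom ∈ F
  comm : ∀ L ∈ F, ∀ M ∈ F, L ≠ M → ∀ x ∈ L, ∀ y ∈ M, x * y = y * x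
  centre : ∀ L ∈ F, L ⊓ centralizer (L : Set G) = ⊥
  dvd : ∀ L ∈ F, p ∣ Nat.card L

/-- The elements of `G` that centralize all members of `F` outside `D`. -/
def Rest (F D : Set (Subgroup G)) : Subgroup G := ⨅ L ∈ F \ D, centralizer (L : Set G)

/-- `z ∈ Rest F D` has order prime to `p`, commutes with the elements of order `p` that centralize
all members of `F`, and normalizes all members of the conjugation-stable subset `D` of `F`. For
`L ∈ D` and every elementary abelian `p`-subgroup `E` of `Rest F D` that normalizes `L`, if the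
image of `E` in `Aut(L)` is nontrivial and normalized by `z`, it contains a nontrivial element
commuting with the image of `z`. -/
structure GoodElement (p : ℕ) (F D : Set (Subgroup G)) (z : G) : Prop where
  sub : D ⊆ F
  conj : ∀ L ∈ D, ∀ g : G, L.map (MulAut.conj g).toMonoidHom ∈ D
  rest : z ∈ Rest F D
  order : ¬ p ∣ orderOf z
  comm : ∀ g ∈ Rest F ∅, g ^ p = 1 → z * g = g * z
  norm : ∀ L ∈ D, z ∈ normalizer (L : Set G)
  fix : ∀ L ∈ D, ∀ E ≤ Rest F D ⊓ normalizer (L : Set G), ElemAb p E →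
    (∀ e ∈ E, z * e * z⁻¹ ∈ E ⊔ centralizer (L : Set G)) →
    (∀ e ∈ E, z * e * z⁻¹ * e⁻¹ ∈ centralizer (L : Set G) → e ∈ centralizer (L : Set G)) →
    E ≤ centralizer (L : Set G)

/-- `φ` is invariant under conjugation by elements of order `p`, and `T ⊆ F` is stable under
conjugation. For `L ∈ T`, the elements `a ∈ L` with `φ a ≠ 0` are free: if `E` is an elementary
abelian `p`-subgroup of `N_G(L)` whose image in `Aut(L)` is normalized by `a`, then `E` centralizes
`L`. Moreover `∑ φ(a) ≠ 0`, but `∑ φ(a) ^ (p ^ i) = 0` for `i ≥ 1`, the sums being over `a ∈ L`. -/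
structure FreeWeight (p : ℕ) (F T : Set (Subgroup G)) (φ : G → ℂ) : Prop where
  sub : T ⊆ F
  conj : ∀ L ∈ T, ∀ g : G, L.map (MulAut.conj g).toMonoidHom ∈ T
  inv : ∀ x a : G, x ^ p = 1 → φ (x * a * x⁻¹) = φ a
  free : ∀ L ∈ T, ∀ a ∈ L, φ a ≠ 0 → ∀ E ≤ normalizer (L : Set G), ElemAb p E →
    (∀ e ∈ E, a * e * a⁻¹ ∈ E ⊔ centralizer (L : Set G)) → E ≤ centralizer (L : Set G)
  sum : ∀ L ∈ T, ∑ᶠ a : L, φ a ≠ 0
  pow : ∀ L ∈ T, ∀ i : ℕ, ∑ᶠ a : L, φ a ^ p ^ (i + 1) = 0

/-- The centralizer of `z` in `Rest F D`. -/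
def Cent (F D : Set (Subgroup G)) (z : G) : Subgroup G := Rest F D ⊓ centralizer {z}

/-- Minus the reduced Euler characteristic of the order complex of the finite poset `𝒜ₚ(S)`. -/
noncomputable def euler (p : ℕ) (S : Type*) [Group S] : ℤ :=
  ∑ᶠ n : ℕ, (-1) ^ n * (Nat.card {l : List (Ap p S) // l.length = n ∧ l.Pairwise (· < ·)} : ℤ)

/-- The reduced rational homology of the order complex of `α` vanishes below degree `m - 1`. -/
def LowAcyclic (α : Type*) [Preorder α] (m : ℕ) : Prop :=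
  ∀ n < m, ∀ c : List α →₀ ℚ, IsChain n c → bd c = 0 →
    ∃ b : List α →₀ ℚ, IsChain (n + 1) b ∧ bd b = c

/-- `𝒜ₚ(S)` is Cohen–Macaulay over `ℚ`: for some `m` and all `E ∈ 𝒜ₚ(S) ∪ {1}` of rank `k`, we have
`k ≤ m` and the reduced homology of `{A ∈ 𝒜ₚ(S) | E < A}` vanishes below degree `m - k - 1`. -/
def CohenMacaulay (p : ℕ) (S : Type*) [Group S] : Prop :=
  ∃ m, ∀ E : Subgroup S, (E = ⊥ ∨ ElemAb p E) → ∃ k ≤ m, Nat.card E = p ^ k ∧
    LowAcyclic {A : Ap p S // E < A.1} (m - k)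

/-- `C` has a solvable normal `p'`-subgroup `W`, not centralized by elements of order `p`, with
`𝒜ₚ(C / W)` Cohen–Macaulay. -/
def SolvableByCM (p : ℕ) (C : Type*) [Group C] : Prop :=
  ∃ W : Subgroup C, Group.IsSolvable W ∧ ¬ p ∣ Nat.card W ∧
    (∀ x : C, x ^ p = 1 → (∀ w ∈ W, x * w = w * x) → x = 1) ∧
    ∃ _ : W.Normal, CohenMacaulay p (C ⧸ W)

end

/-- `G` is a counterexample of minimal order (among the groups in its universe) to the assertion
that `O_p(G) = 1` implies that `𝒜ₚ(G)` is not `𝕜`-acyclic. -/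
def MinimalCounterexample (𝕜 : Type*) [Field 𝕜] (p : ℕ) (G : Type u) [Group G] : Prop :=
  OpTrivial p G ∧ ¬ HQ 𝕜 p G ∧
    ∀ (H : Type u) [Group H] [Finite H], Nat.card H < Nat.card G → OpTrivial p H → HQ 𝕜 p H

/-- `L` has trivial centre, commutes with its other conjugates, and has order divisible by `p`. -/
def ComponentLike {G : Type*} [Group G] (p : ℕ) (L : Subgroup G) : Prop :=
  L ⊓ centralizer (L : Set G) = ⊥ ∧
    (∀ g : G, g ∉ normalizer (L : Set G) → ∀ x ∈ L, ∀ y ∈ L,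
      x * (g * y * g⁻¹) = (g * y * g⁻¹) * x) ∧ p ∣ Nat.card L

end Vale.Agent.P240.K
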