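import Vale.Agent.P240.K.MinimalTwo
import Vale.Agent.P240.K.WDefs

namespace Vale.Agent.P240.K

open Finsupp Subgroup

variable {𝕜 : Type*} [Field 𝕜]

universe u

section
variable {A B : Type*} [Group A] [Group B] {p : ℕ}

lemma map_mem_ApS {f : A →* B} (hf : Function.Injective f) {E : Subgroup A} :
    E.map f ∈ ApS p B ↔ E ∈ ApS p A := by
  constructor
  · rintro ⟨h1, h2, h3⟩
    refine ⟨?_, ?_, ?_⟩
    · rintro rfl
      exact h1 (Subgroup.map_bot f)
    · intro x hx y hy
      apply hf
      rw [map_mul, map_mul]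
      exact h2 _ ⟨x, hx, rfl⟩ _ ⟨y, hy, rfl⟩
    · intro x hx
      apply hf
      rw [map_pow, map_one]
      exact h3 _ ⟨x, hx, rfl⟩
  · rintro ⟨h1, h2, h3⟩
    refine ⟨?_, ?_, ?_⟩
    · intro h
      exact h1 ((Subgroup.map_eq_bot_iff_of_injective _ hf).1 h)
    · rintro _ ⟨x, hx, rfl⟩ _ ⟨y, hy, rfl⟩
      rw [← map_mul, ← map_mul, h2 x hx y hy]
    · rintro _ ⟨x, hx, rfl⟩
      rw [← map_pow, h3 x hx, map_one]

lemma map_lt {f : A →* B} (hf : Function.Injective f) {E F : Subgroup A} :
    E < F ↔ E.map f < F.map f := by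
  rw [lt_iff_le_not_ge, lt_iff_le_not_ge, Subgroup.map_le_map_iff_of_injective hf,
    Subgroup.map_le_map_iff_of_injective hf]

lemma NA_Ain_map {f : A →* B} (hf : Function.Injective f) (K : Subgroup A) :
    NA 𝕜 (Ain p (K.map f)) ↔ NA 𝕜 (Ain p K) := by
  have h : (Subgroup.map f) '' (Ain p K) = Ain p (K.map f) := by
    ext E
    constructor
    · rintro ⟨F, ⟨h1, h2⟩, rfl⟩
      exact ⟨(map_mem_ApS hf).2 h1, Subgroup.map_mono h2⟩
    · rintro ⟨h1, h2⟩
      have h3 : (E.comap f).map f = E := by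
        rw [Subgroup.map_comap_eq, inf_eq_right]
        refine h2.trans ?_
        exact Subgroup.map_le_range f K
      refine ⟨E.comap f, ⟨?_, ?_⟩, h3⟩
      · rw [← map_mem_ApS hf, h3]
        exact h1
      · rw [← Subgroup.map_le_map_iff_of_injective hf, h3]
        exact h2
  rw [← h]
  exact NA_image (Subgroup.map_injective hf).injOn fun x _ y _ => map_lt hf

lemma HQ_congr (e : A ≃* B) : HQ 𝕜 p A ↔ HQ 𝕜 p B := by
  have h1 : HQ 𝕜 p A ↔ NA 𝕜 (Ain p (⊤ : Subgroup A)) := by
    rw [HQ_iff]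
    have : Ain p (⊤ : Subgroup A) = ApS p A := by
      ext E
      exact ⟨fun h => h.1, fun h => ⟨h, le_top⟩⟩
    rw [this]
  have h2 : HQ 𝕜 p B ↔ NA 𝕜 (Ain p (⊤ : Subgroup B)) := by
    rw [HQ_iff]
    have : Ain p (⊤ : Subgroup B) = ApS p B := by
      ext E
      exact ⟨fun h => h.1, fun h => ⟨h, le_top⟩⟩
    rw [this]
  rw [h1, h2, ← NA_Ain_map (f := e.toMonoidHom) e.injective]
  have : (⊤ : Subgroup A).map e.toMonoidHom = ⊤ := by
    rw [← MonoidHom.range_eq_map]
    exact MonoidHom.range_eq_top.2 e.surjective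
  rw [this]

lemma HQ_map {f : A →* B} (hf : Function.Injective f) (K : Subgroup A) :
    HQ 𝕜 p (K.map f) ↔ HQ 𝕜 p K := by
  rw [HQ_sub_iff, HQ_sub_iff, NA_Ain_map hf]

end

section
variable {G : Type*} [Group G] {p : ℕ}

lemma mem_sup_cent {L : Subgroup G} {x : G} (hx : x ∈ L ⊔ centralizer (L : Set G)) :
    ∃ l ∈ L, ∃ c ∈ centralizer (L : Set G), x = l * c := by
  have key : ∀ l ∈ L, ∀ c ∈ centralizer (L : Set G), l * c = c * l := by
    intro l hl c hc
    rw [mem_centralizer_iff] at hc
    exact hc l hl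
  let T : Subgroup G :=
    { carrier := {x | ∃ l ∈ L, ∃ c ∈ centralizer (L : Set G), x = l * c}
      one_mem' := ⟨1, one_mem _, 1, one_mem _, by simp⟩
      mul_mem' := by
        rintro _ _ ⟨l, hl, c, hc, rfl⟩ ⟨l', hl', c', hc', rfl⟩
        refine ⟨l * l', mul_mem hl hl', c * c', mul_mem hc hc', ?_⟩
        rw [mul_assoc, ← mul_assoc c, ← key l' hl' c hc]
        group
      inv_mem' := by
        rintro _ ⟨l, hl, c, hc, rfl⟩
        refine ⟨l⁻¹, inv_mem hl, c⁻¹, inv_mem hc, ?_⟩
        rw [mul_inv_rev, key _ (inv_mem hl) _ (inv_mem hc)] }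
  have h1 : L ≤ T := fun l hl => ⟨l, hl, 1, one_mem _, by simp⟩
  have h2 : centralizer (L : Set G) ≤ T := fun c hc => ⟨1, one_mem _, c, hc, by simp⟩
  exact (sup_le h1 h2) hx

lemma mem_zpowers_sup {N W : Subgroup G} (hW : W ≤ N) [hn : (W.subgroupOf N).Normal]
    {x y : G} (hx : x ∈ N) (hy : y ∈ zpowers x ⊔ W) : ∃ i : ℤ, ∃ w ∈ W, y = x ^ i * w := by
  have hyN : y ∈ N := (sup_le (by rw [Subgroup.zpowers_le]; exact hx) hW) hy
  have h1 : (⟨y, hyN⟩ : N) ∈ (zpowers x ⊔ W).subgroupOf N := by
    rw [Subgroup.mem_subgroupOf]; exact hy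
  rw [Subgroup.subgroupOf_sup (by rw [Subgroup.zpowers_le]; exact hx) hW,
    Subgroup.mem_sup_of_normal_right] at h1
  obtain ⟨a, ha, b, hb, hab⟩ := h1
  rw [Subgroup.mem_subgroupOf] at ha hb
  obtain ⟨i, hi⟩ := ha
  refine ⟨i, b, hb, ?_⟩
  have := congrArg Subtype.val hab
  simp only [Subgroup.coe_mul] at this
  rw [← this, ← hi]

lemma mem_norm_sub {H L : Subgroup G} (hLH : L ≤ H) {x : H} :
    x ∈ normalizer ((L.subgroupOf H : Subgroup H) : Set H) ↔ (x : G) ∈ normalizer (L : Set G) := by
  rw [mem_normalizer_iff, mem_normalizer_iff]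
  constructor
  · intro h y
    constructor
    · intro hy
      have := (h ⟨y, hLH hy⟩).1 (by rw [mem_subgroupOf]; exact hy)
      rw [mem_subgroupOf] at this
      exact this
    · intro hy
      have hy' : y ∈ H := by
        have h1 := H.mul_mem (H.mul_mem (H.inv_mem x.2) (hLH hy)) x.2
        have h2 : (x : G)⁻¹ * (x * y * (x : G)⁻¹) * x = y := by group
        rwa [h2] at h1
      have := (h ⟨y, hy'⟩).2 (by rw [mem_subgroupOf]; exact hy)
      rw [mem_subgroupOf] at this
      exact this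
  · intro h y
    rw [mem_subgroupOf, mem_subgroupOf]
    exact h y

lemma mem_cent_sub {H L : Subgroup G} (hLH : L ≤ H) {x : H} :
    x ∈ centralizer ((L.subgroupOf H : Subgroup H) : Set H) ↔
      (x : G) ∈ centralizer (L : Set G) := by
  rw [mem_centralizer_iff, mem_centralizer_iff]
  constructor
  · intro h y hy
    have := h ⟨y, hLH hy⟩ (by
      change (⟨y, hLH hy⟩ : H) ∈ L.subgroupOf H
      rw [mem_subgroupOf]; exact hy)
    exact congrArg Subtype.val this
  · intro h y hy
    apply Subtype.ext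
    exact h y (by
      have : y ∈ L.subgroupOf H := hy
      rw [mem_subgroupOf] at this
      exact this)

end

section
variable {G : Type u} [Group G] {p : ℕ}

/-- One step of the elimination, inside a subgroup `H`. -/
theorem elim_step [Fact p.Prime] [Finite G] (H L : Subgroup G) (hLH : L ≤ H) (hL : CompLike p L)
    (hfew : FewOuter p L) (hAK : AlmostSimpleHQ 𝕜 p L)
    (hC : NA 𝕜 (Ain p (H ⊓ centralizer (L : Set G)))) : NA 𝕜 (Ain p H) := by
  classical
  rw [← HQ_sub_iff]
  set L' : Subgroup H := L.subgroupOf H with hL'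
  let e : L' ≃* L := subgroupOfEquivOfLe hLH
  have hsupdown : ∀ x : H, (x : G) ∈ L ⊔ centralizer (L : Set G) →
      x ∈ L' ⊔ centralizer (L' : Set H) := by
    intro x hx
    obtain ⟨l, hl, c, hc, hxe⟩ := mem_sup_cent hx
    have hcH : c ∈ H := by
      have : c = l⁻¹ * x := by rw [hxe]; group
      rw [this]
      exact H.mul_mem (H.inv_mem (hLH hl)) x.2
    have : x = ⟨l, hLH hl⟩ * ⟨c, hcH⟩ := Subtype.ext hxe
    rw [this]
    refine mul_mem (mem_sup_left ?_) (mem_sup_right ?_)
    · rw [hL', mem_subgroupOf]; exact hl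
    · rw [mem_cent_sub hLH]; exact hc
  have hnW : ((L ⊔ centralizer (L : Set G)).subgroupOf (normalizer (L : Set G))).Normal := by
    have hLn : (L.subgroupOf (normalizer (L : Set G))).Normal := Subgroup.normal_in_normalizer
    have hCN : centralizer (L : Set G) ≤ normalizer (L : Set G) := by
      intro c hc
      rw [mem_normalizer_iff]
      intro y
      rw [mem_centralizer_iff] at hc
      constructor
      · intro hy
        have : c * y * c⁻¹ = y := by rw [← hc y hy]; group
        rwa [this]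
      · intro hy
        have h1 := hc _ hy
        have : y = c * y * c⁻¹ := by
          have h2 : c * y * c⁻¹ * c = c * (c * y * c⁻¹) := h1
          have h3 : c * y = c * (c * y * c⁻¹) := by rw [← h2]; group
          exact mul_left_cancel h3
        rw [this]
        exact hy
    have hCn : ((centralizer (L : Set G)).subgroupOf (normalizer (L : Set G))).Normal := by
      constructor
      intro n hn g
      rw [mem_subgroupOf] at hn ⊢
      exact conj_mem_centralizer g.2 hn
    rw [Subgroup.subgroupOf_sup Subgroup.le_normalizer hCN]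
    exact Subgroup.sup_normal _ _
  have hWN : L ⊔ centralizer (L : Set G) ≤ normalizer (L : Set G) := by
    refine sup_le Subgroup.le_normalizer ?_
    intro c hc
    rw [mem_normalizer_iff]
    intro y
    rw [mem_centralizer_iff] at hc
    constructor
    · intro hy
      have : c * y * c⁻¹ = y := by rw [← hc y hy]; group
      rwa [this]
    · intro hy
      have h1 := hc _ hy
      have : y = c * y * c⁻¹ := by
        have h2 : c * y * c⁻¹ * c = c * (c * y * c⁻¹) := h1
        have h3 : c * y = c * (c * y * c⁻¹) := by rw [← h2]; group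
        exact mul_left_cancel h3
      rw [this]
      exact hy
  have hzdown : ∀ x y : H, x ∈ normalizer (L' : Set H) →
      (y : G) ∈ zpowers (x : G) ⊔ (L ⊔ centralizer (L : Set G)) →
      y ∈ zpowers x ⊔ (L' ⊔ centralizer (L' : Set H)) := by
    intro x y hx hy
    obtain ⟨i, w, hw, hyw⟩ := mem_zpowers_sup hWN ((mem_norm_sub hLH).1 hx) hy
    have hwH : w ∈ H := by
      have : w = (x : G) ^ (-i) * y := by rw [hyw]; group
      rw [this]
      exact H.mul_mem (H.zpow_mem x.2 _) y.2
    have : y = x ^ i * ⟨w, hwH⟩ := Subtype.ext (by simpa using hyw)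
    rw [this]
    exact mul_mem (mem_sup_left (zpow_mem (mem_zpowers x) i))
      (mem_sup_right (hsupdown _ hw))
  obtain ⟨hout, hconn⟩ := hfew
  have hup : ∀ x : H, x ∉ L' ⊔ centralizer (L' : Set H) →
      (x : G) ∉ L ⊔ centralizer (L : Set G) := fun x h h' => h (hsupdown x h')
  have hpw : ∀ x : H, x ^ p ∈ centralizer (L' : Set H) →
      (x : G) ^ p ∈ centralizer (L : Set G) := by
    intro x h
    rw [mem_cent_sub hLH] at h
    simpa using h
  refine elimination_two L' ⟨?_, ?_, ?_⟩ ?_ ?_ ?_ ?_ ?_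
  · rw [eq_bot_iff]
    rintro x ⟨h1, h2⟩
    have h3 : (x : G) ∈ L ⊓ centralizer (L : Set G) :=
      ⟨mem_subgroupOf.1 h1, (mem_cent_sub hLH).1 h2⟩
    rw [hL.centre, mem_bot] at h3
    rw [mem_bot]
    exact Subtype.ext h3
  · intro g hg x hx y hy
    rw [mem_norm_sub hLH] at hg
    apply Subtype.ext
    exact hL.conj g hg x (mem_subgroupOf.1 hx) y (mem_subgroupOf.1 hy)
  · rw [Nat.card_congr e.toEquiv]
    exact hL.dvd
  · rcases hconn with h | h | h
    · left
      intro x hx y hy hxp hyp hxL hyL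
      exact hzdown x y hx (h x y ⟨(mem_norm_sub hLH).1 hx, hpw x hxp, hup x hxL⟩
        ⟨(mem_norm_sub hLH).1 hy, hpw y hyp, hup y hyL⟩)
    · right; left
      intro g hg
      rw [mem_norm_sub hLH]
      exact h g (by simpa using congrArg Subtype.val hg)
    · right; right
      intro A B
      have hm : ∀ A : Ap p L', (A.1.map e.toMonoidHom) ≠ ⊥ ∧
          (∀ x ∈ (A.1.map e.toMonoidHom), ∀ y ∈ (A.1.map e.toMonoidHom), x * y = y * x) ∧
          ∀ x ∈ (A.1.map e.toMonoidHom), x ^ p = 1 := fun A =>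
        (map_mem_ApS (p := p) (f := e.toMonoidHom) e.injective).2 A.2
      have hm' : ∀ A : Ap p L, (A.1.map e.symm.toMonoidHom) ≠ ⊥ ∧
          (∀ x ∈ (A.1.map e.symm.toMonoidHom), ∀ y ∈ (A.1.map e.symm.toMonoidHom),
            x * y = y * x) ∧
          ∀ x ∈ (A.1.map e.symm.toMonoidHom), x ^ p = 1 := fun A =>
        (map_mem_ApS (p := p) (f := e.symm.toMonoidHom) e.symm.injective).2 A.2
      have h1 := h ⟨_, hm A⟩ ⟨_, hm B⟩
      have h2 := Relation.ReflTransGen.lift
        (r := fun X Y : Ap p L => X ≤ Y ∨ Y ≤ X) (p := fun X Y : Ap p L' => X ≤ Y ∨ Y ≤ X)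
        (fun X : Ap p L => (⟨X.1.map e.symm.toMonoidHom, hm' X⟩ : Ap p L'))
        (fun X Y hXY => by
          rcases hXY with h | h
          · exact Or.inl (Subgroup.map_mono h)
          · exact Or.inr (Subgroup.map_mono h)) _ _ h1
      have h3 : ∀ A : Ap p L', (⟨(A.1.map e.toMonoidHom).map e.symm.toMonoidHom,
          hm' ⟨_, hm A⟩⟩ : Ap p L') = A := by
        intro A
        apply Subtype.ext
        change (A.1.map e.toMonoidHom).map e.symm.toMonoidHom = A.1
        rw [Subgroup.map_map]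
        have : e.symm.toMonoidHom.comp e.toMonoidHom = MonoidHom.id L' := by
          ext x
          simp
        rw [this, Subgroup.map_id]
      have h4 := h3 A
      have h5 := h3 B
      rw [← h4, ← h5]
      exact h2
  · intro x hx y hy z hz hxp hyp hzp hxL hyL hzL
    rcases hout x y z ⟨(mem_norm_sub hLH).1 hx, hpw x hxp, hup x hxL⟩
      ⟨(mem_norm_sub hLH).1 hy, hpw y hyp, hup y hyL⟩
      ⟨(mem_norm_sub hLH).1 hz, hpw z hzp, hup z hzL⟩ with h | h | h
    · exact Or.inl (hzdown x y hx h)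
    · exact Or.inr (Or.inl (hzdown x z hx h))
    · exact Or.inr (Or.inr (hzdown y z hy h))
  · rw [HQ_congr e]
    have h1 : Function.Injective (MulAut.conj : L →* MulAut L) := by
      rw [injective_iff_map_eq_one]
      intro l hl
      have h2 : (l : G) ∈ L ⊓ centralizer (L : Set G) := by
        refine ⟨l.2, mem_centralizer_iff.2 ?_⟩
        intro y hy
        have h3 : l * ⟨y, hy⟩ * l⁻¹ = (⟨y, hy⟩ : L) := by
          have := congrArg (fun f : MulAut L => f ⟨y, hy⟩) hl
          simpa using this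
        have h4 := congrArg Subtype.val h3
        simp only [Subgroup.coe_mul, Subgroup.coe_inv] at h4
        calc y * (l : G) = (l * y * (l : G)⁻¹) * l := by rw [h4]
          _ = l * y := by group
      rw [hL.centre, mem_bot] at h2
      exact Subtype.ext h2
    rw [HQ_congr (MonoidHom.ofInjective h1)]
    refine hAK _ ?_ fun l => ⟨l, rfl⟩
    rintro _ ⟨l, rfl⟩
    refine ⟨⟨l, Subgroup.le_normalizer l.2⟩, ?_⟩
    apply MulEquiv.ext
    intro x
    apply Subtype.ext
    rfl
  · rw [HQ_sub_iff, ← NA_Ain_map H.subtype_injective]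
    have : (centralizer (L' : Set H)).map H.subtype = H ⊓ centralizer (L : Set G) := by
      ext x
      constructor
      · rintro ⟨y, hy, rfl⟩
        exact ⟨y.2, (mem_cent_sub hLH).1 hy⟩
      · rintro ⟨h1, h2⟩
        exact ⟨⟨x, h1⟩, (mem_cent_sub hLH).2 h2, rfl⟩
    rw [this]
    exact hC
  · intro A' hA'
    let φ : L'.normalizerMonoidHom.range →* MulAut L :=
      (MulAut.congr e).toMonoidHom.comp (L'.normalizerMonoidHom.range).subtype
    have hφ : Function.Injective φ := (MulAut.congr e).injective.comp (Subgroup.subtype_injective _)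
    rw [← HQ_map hφ]
    have hval : ∀ (n : normalizer (L' : Set H)) (hn : ((n : H) : G) ∈ normalizer (L : Set G)),
        φ (L'.normalizerMonoidHom.rangeRestrict n) = L.normalizerMonoidHom ⟨((n : H) : G), hn⟩ := by
      intro n hn
      apply MulEquiv.ext
      intro x
      apply Subtype.ext
      rfl
    refine hAK _ ?_ ?_
    · rintro _ ⟨⟨_, n, rfl⟩, _, rfl⟩
      have hn := (mem_norm_sub hLH).1 n.2
      exact ⟨⟨_, hn⟩, (hval n hn).symm⟩
    · intro l
      have hl : (⟨l, hLH l.2⟩ : H) ∈ L' := by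
        rw [hL', mem_subgroupOf]
        exact l.2
      refine ⟨L'.normalizerMonoidHom.rangeRestrict ⟨⟨l, hLH l.2⟩, Subgroup.le_normalizer hl⟩,
        hA' _ hl, ?_⟩
      apply MulEquiv.ext
      intro x
      apply Subtype.ext
      rfl

end

end Vale.Agent.P240.K
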