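import Vale.Agent.P240.K.Acyclic
import Vale.Agent.P240.K.SmithGroup
import Vale.Agent.P240.K.Transfer

namespace Vale.Agent.P240.K

open Finsupp Subgroup

variable {𝕜 : Type*} [Field 𝕜] {G : Type*} [Group G] {p : ℕ}

lemma mem_sup_comm {A B : Subgroup G} (h : ∀ a ∈ A, ∀ b ∈ B, a * b = b * a) {x : G}
    (hx : x ∈ A ⊔ B) : ∃ a ∈ A, ∃ b ∈ B, x = a * b := by
  let T : Subgroup G :=
    { carrier := {x | ∃ a ∈ A, ∃ b ∈ B, x = a * b}
      one_mem' := ⟨1, one_mem _, 1, one_mem _, by simp⟩
      mul_mem' := by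
        rintro _ _ ⟨l, hl, c, hc, rfl⟩ ⟨l', hl', c', hc', rfl⟩
        refine ⟨l * l', mul_mem hl hl', c * c', mul_mem hc hc', ?_⟩
        rw [mul_assoc, ← mul_assoc c, ← h l' hl' c hc]
        group
      inv_mem' := by
        rintro _ ⟨l, hl, c, hc, rfl⟩
        refine ⟨l⁻¹, inv_mem hl, c⁻¹, inv_mem hc, ?_⟩
        rw [mul_inv_rev, h _ (inv_mem hl) _ (inv_mem hc)] }
  have h1 : A ≤ T := fun l hl => ⟨l, hl, 1, one_mem _, by simp⟩
  have h2 : B ≤ T := fun c hc => ⟨1, one_mem _, c, hc, by simp⟩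
  exact (sup_le h1 h2) hx

lemma ApS_isPGroup {E : Subgroup G} (hE : E ∈ ApS p G) : IsPGroup p E := by
  intro x
  refine ⟨1, ?_⟩
  rw [pow_one]
  exact Subtype.ext (by simpa using hE.2.2 x x.2)

lemma ApS_dvd [hp : Fact p.Prime] [Finite G] {E : Subgroup G} (hE : E ∈ ApS p G) :
    p ∣ Nat.card E := by
  obtain ⟨x, hx⟩ := (Subgroup.ne_bot_iff_exists_ne_one).1 hE.1
  have h1 : orderOf (x : G) = p := orderOf_eq_prime (hE.2.2 x x.2) (by
    intro h
    exact hx (Subtype.ext h))
  rw [← h1, Subgroup.orderOf_coe]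
  exact orderOf_dvd_natCard x

/-- A `p`-group normalizing `E` centralizes a nontrivial subgroup of `E`. -/
lemma fixed_ne_bot [hp : Fact p.Prime] [Finite G] {E T : Subgroup G} (hE : E ∈ ApS p G)
    (hT : IsPGroup p T) (hTE : T ≤ normalizer (E : Set G)) :
    E ⊓ centralizer (T : Set G) ≠ ⊥ := by
  let act : MulAction T E :=
    MulAction.compHom E ((E.normalizerMonoidHom).comp (Subgroup.inclusion hTE))
  have hsmul : ∀ (t : T) (x : E), ((t • x : E) : G) = t * x * (t : G)⁻¹ := fun t x => rfl
  have h1 : (1 : E) ∈ MulAction.fixedPoints T E := by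
    intro t
    apply Subtype.ext
    rw [hsmul]
    simp
  obtain ⟨b, hb, hb1⟩ := hT.exists_fixed_point_of_prime_dvd_card_of_fixed_point E
    (ApS_dvd hE) h1
  intro h
  have h2 : (b : G) ∈ E ⊓ centralizer (T : Set G) := by
    refine ⟨b.2, ?_⟩
    change (b : G) ∈ centralizer (T : Set G)
    rw [mem_centralizer_iff]
    intro t ht
    have h3 := congrArg Subtype.val (hb ⟨t, ht⟩)
    rw [hsmul] at h3
    calc t * (b : G) = (t * b * t⁻¹) * t := by group
      _ = b * t := by rw [h3]
  rw [h, mem_bot] at h2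
  exact hb1 (Subtype.ext h2.symm)

/-- Smith theory: if `𝒜ₚ(N)` is acyclic over a field of characteristic `p` and the `p`-group `T`
normalizes `N`, then `𝒜ₚ(C_N(T))` is acyclic. -/
theorem smith_cent [hp : Fact p.Prime] (hchar : (p : 𝕜) = 0) [Finite G] {N T : Subgroup G}
    (hTN : T ≤ normalizer (N : Set G)) (hT : IsPGroup p T) (hac : ¬ NA 𝕜 (Ain p N)) :
    ¬ NA 𝕜 (Ain p (N ⊓ centralizer (T : Set G))) := by
  obtain ⟨n, hn⟩ := IsPGroup.iff_card.1 hT
  have h1 := smith_group (𝕜 := 𝕜) hchar n T hn (fun u hu E hE => by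
    refine ⟨(map_mem_ApS (f := (MulAut.conj u).toMonoidHom) (MulAut.conj u).injective).2 hE.1, ?_⟩
    intro x hx
    rw [mem_cj] at hx
    have h2 := hE.2 hx
    have h3 := hTN hu
    rw [mem_normalizer_iff] at h3
    have h4 := (h3 _).1 h2
    have h5 : u * (u⁻¹ * x * u) * u⁻¹ = x := by group
    rwa [h5] at h4) hac
  refine not_NA_retract (ρ := fun E => E ⊓ centralizer (T : Set G)) ?_ ?_ ?_ ?_ h1
  · rintro E ⟨h1, h2⟩
    refine ⟨⟨h1, h2.trans inf_le_left⟩, ?_⟩
    intro t ht
    rw [mem_normalizer_iff]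
    have hcm : ∀ x ∈ E, t * x * t⁻¹ = x := by
      intro x hx
      have h3 : x ∈ centralizer (T : Set G) := (h2.trans inf_le_right) hx
      rw [mem_centralizer_iff] at h3
      rw [h3 t ht]
      group
    intro x
    constructor
    · intro hx
      rw [hcm x hx]; exact hx
    · intro hx
      have h3 := hcm _ hx
      have h4 : x = t * x * t⁻¹ := by
        have h5 : t * (t * x * t⁻¹) = t * x := by
          calc t * (t * x * t⁻¹) = (t * (t * x * t⁻¹) * t⁻¹) * t := by group
            _ = t * x * t⁻¹ * t := by rw [h3]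
            _ = t * x := by group
        exact (mul_left_cancel h5).symm
      rw [h4]
      exact hx
  · rintro E ⟨⟨h1, h2⟩, h3⟩
    have h4 := fixed_ne_bot h1 hT h3
    exact ⟨mem_ApS_of_le h1 inf_le_left h4, inf_le_inf_right _ h2⟩
  · intro E _ F _ h
    exact inf_le_inf_right _ h
  · rintro E ⟨_, h2⟩
    exact inf_eq_left.2 (h2.trans inf_le_right)

/-- **Permanence (S1)**: over a field of characteristic `p`, if `N` is normal in `G` and `𝒜ₚ(N)` is
acyclic, then `𝒜ₚ(G)` is acyclic. -/
theorem acyclic_of_normal [hp : Fact p.Prime] (hchar : (p : 𝕜) = 0) [Finite G] {N : Subgroup G}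
    [hN : N.Normal] (hac : ¬ NA 𝕜 (Ain p N)) : ¬ NA 𝕜 (ApS p G) := by
  classical
  have hNn : ∀ T : Subgroup G, T ≤ normalizer (N : Set G) := fun T => by
    rw [Subgroup.normalizer_eq_top]
    exact le_top
  -- the upper links
  have hlink : ∀ n : ℕ, ∀ T ∈ ApS p G, T ⊓ N = ⊥ → Nat.card G - Nat.card T ≤ n →
      ¬ NA 𝕜 {x | x ∈ ApS p G ∧ T < x} := by
    intro n
    induction n using Nat.strong_induction_on with
    | _ n ih =>
      intro T hT hTN hn
      have hTle : Nat.card T ≤ Nat.card G := Subgroup.card_le_card_group T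
      refine not_NA_attach_all (Set.toFinite _)
        (X := {x | (x ∈ ApS p G ∧ T < x) ∧ x ⊓ N ≠ ⊥}) (fun x hx => hx.1) ?_ ?_ ?_
      · rintro x ⟨_, hx2⟩ y hy hxy
        refine ⟨hy, fun h => hx2 ?_⟩
        rw [← le_bot_iff, ← h]
        exact inf_le_inf_right _ hxy
      · -- retract to `T ⊔ (x ⊓ N)`
        have hF : ∀ x ∈ {x | (x ∈ ApS p G ∧ T < x) ∧ x ⊓ N ≠ ⊥},
            x ⊓ N ∈ Ain p (N ⊓ centralizer (T : Set G)) := by
          rintro x ⟨⟨h1, h2⟩, h3⟩
          refine ⟨mem_ApS_of_le h1 inf_le_left h3, le_inf inf_le_right ?_⟩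
          intro y hy
          rw [mem_centralizer_iff]
          intro t ht
          exact h1.2.1 t (h2.le ht) y hy.1
        have hcomm : ∀ F ∈ Ain p (N ⊓ centralizer (T : Set G)), ∀ x ∈ T, ∀ y ∈ F,
            x * y = y * x := by
          intro F hF x hx y hy
          exact mem_centralizer_iff.1 ((hF.2.trans inf_le_right) hy) x hx
        have hmod : ∀ F ∈ Ain p (N ⊓ centralizer (T : Set G)), (T ⊔ F) ⊓ N = F := by
          intro F hF
          apply le_antisymm
          · rintro x ⟨h1, h2⟩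
            obtain ⟨t, ht, f, hf, rfl⟩ := mem_sup_comm (hcomm F hF) h1
            have h3 : t ∈ N := by
              have : t = (t * f) * f⁻¹ := by group
              rw [this]
              exact N.mul_mem h2 (N.inv_mem ((hF.2.trans inf_le_left) hf))
            have h4 : t ∈ T ⊓ N := ⟨ht, h3⟩
            rw [hTN, mem_bot] at h4
            rw [h4, one_mul]
            exact hf
          · exact le_inf le_sup_right (hF.2.trans inf_le_left)
        refine not_NA_down (ρ := fun x => T ⊔ (x ⊓ N))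
          (R := (fun F => T ⊔ F) '' Ain p (N ⊓ centralizer (T : Set G))) ?_ ?_ ?_ ?_ ?_
        · rintro _ ⟨F, hF, rfl⟩
          refine ⟨⟨sup_mem_ApS hT hF.1 (hcomm F hF), ?_⟩, ?_⟩
          · refine lt_of_le_of_ne le_sup_left fun h => ?_
            have h1 := hmod F hF
            change T = T ⊔ F at h
            rw [← h, hTN] at h1
            exact hF.1.1 h1.symm
          · change (T ⊔ F) ⊓ N ≠ ⊥
            rw [hmod F hF]
            exact hF.1.1
        · intro x hx
          exact ⟨x ⊓ N, hF x hx, rfl⟩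
        · rintro x ⟨⟨h1, h2⟩, h3⟩
          exact sup_le h2.le inf_le_left
        · intro x _ y _ h
          exact sup_le_sup_left (inf_le_inf_right _ h) _
        · rw [NA_image]
          · exact smith_cent hchar (hNn T) (ApS_isPGroup hT) hac
          · intro F hF F' hF' h
            change T ⊔ F = T ⊔ F' at h
            rw [← hmod F hF, ← hmod F' hF', h]
          · intro F hF F' hF'
            constructor
            · intro h
              refine lt_of_le_of_ne (sup_le_sup_left h.le _) fun h' => h.ne ?_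
              rw [← hmod F hF, ← hmod F' hF', h']
            · intro h
              refine lt_of_le_of_ne ?_ fun h' => h.ne (by rw [h'])
              rw [← hmod F hF, ← hmod F' hF']
              exact inf_le_inf_right _ h.le
      · rintro T' ⟨h1, h2⟩ h3
        have hT'N : T' ⊓ N = ⊥ := by
          by_contra h
          exact h3 ⟨⟨h1, h2⟩, h⟩
        have hlt : Nat.card T < Nat.card T' := by
          have hfin : (T' : Set G).Finite := Set.toFinite _
          have hss : (T : Set G) ⊂ (T' : Set G) := h2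
          exact Set.ncard_lt_ncard hss hfin
        have hT'le : Nat.card T' ≤ Nat.card G := Subgroup.card_le_card_group T'
        have := ih (Nat.card G - Nat.card T') (by omega) T' h1 hT'N le_rfl
        have heq : {x | x ∈ {x | x ∈ ApS p G ∧ T < x} ∧ T' < x} = {x | x ∈ ApS p G ∧ T' < x} := by
          ext x
          constructor
          · rintro ⟨⟨a, _⟩, c⟩
            exact ⟨a, c⟩
          · rintro ⟨a, c⟩
            exact ⟨⟨a, h2.trans c⟩, c⟩
        rw [heq]
        exact this
  refine not_NA_attach_all (Set.toFinite _) (X := {x | x ∈ ApS p G ∧ x ⊓ N ≠ ⊥})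
    (fun x hx => hx.1) ?_ ?_ ?_
  · rintro x ⟨_, hx2⟩ y hy hxy
    refine ⟨hy, fun h => hx2 ?_⟩
    rw [← le_bot_iff, ← h]
    exact inf_le_inf_right _ hxy
  · refine not_NA_down (ρ := fun x => x ⊓ N) (R := Ain p N) ?_ ?_ ?_ ?_ hac
    · intro x hx
      refine ⟨hx.1, ?_⟩
      rw [inf_eq_left.2 hx.2]
      exact hx.1.1
    · rintro x ⟨h1, h2⟩
      exact ⟨mem_ApS_of_le h1 inf_le_left h2, inf_le_right⟩
    · intro x _
      exact inf_le_left
    · intro x _ y _ h
      exact inf_le_inf_right _ h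
  · intro T hT hTX
    have hTN : T ⊓ N = ⊥ := by
      by_contra h
      exact hTX ⟨hT, h⟩
    exact hlink _ T hT hTN le_rfl

end Vale.Agent.P240.K
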