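import Vale.Agent.P240.K.Chains2

namespace Vale.Agent.P240.K

open Finsupp

variable {𝕜 : Type*} [Field 𝕜]

variable {α β γ : Type*}

/-- `S` is not `𝕜`-acyclic: some strict cycle in `S` is not a boundary. -/
def NA (𝕜 : Type*) [Field 𝕜] [PartialOrder α] (S : Set α) : Prop :=
  ∃ z ∈ Sp 𝕜 (st S), bd z = 0 ∧ ∀ c ∈ Sp 𝕜 (st S), bd c ≠ z

/-! ### Homogeneous components -/

open Classical in
/-- component of length `n` -/
noncomputable def len (n : ℕ) : Ch 𝕜 α →ₗ[𝕜] Ch 𝕜 α :=
  Finsupp.linearCombination 𝕜 fun l : List α => if l.length = n then single l (1 : 𝕜) else 0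

lemma len_single (n : ℕ) (l : List α) :
    len n (single l (1 : 𝕜)) = if l.length = n then single l (1 : 𝕜) else 0 := by
  simp [len, Finsupp.linearCombination_single]

lemma len_of_mem {n : ℕ} {c : Ch 𝕜 α} (hc : c ∈ Sp 𝕜 (fun l : List α => l.length = n)) :
    len n c = c := by
  have := eq_of_Sp (F := len n) (G := LinearMap.id) (fun l (hl : l.length = n) => by
    rw [len_single, if_pos hl]; rfl) hc
  simpa using this

lemma len_of_ne {n : ℕ} {c : Ch 𝕜 α} (hc : c ∈ Sp 𝕜 (fun l : List α => l.length ≠ n)) :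
    len n c = 0 := by
  have := eq_of_Sp (F := len n) (G := 0) (fun l (hl : l.length ≠ n) => by
    rw [len_single, if_neg hl]; rfl) hc
  simpa using this

lemma len_mem {P : List α → Prop} {n : ℕ} {c : Ch 𝕜 α} (hc : c ∈ Sp 𝕜 P) :
    len n c ∈ Sp 𝕜 (fun l => l.length = n ∧ P l) :=
  map_mem _ (fun l hl => by
    rw [len_single]
    split_ifs with h
    · exact single_mem_Sp ⟨h, hl⟩ _
    · exact Submodule.zero_mem _) hc

lemma bd_single_len (l : List α) :
    bd (single l (1 : 𝕜)) ∈ Sp 𝕜 (fun m : List α => m.length + 1 = l.length) := by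
  induction l with
  | nil => simp
  | cons x l ih =>
    rw [bd_single_cons]
    refine Submodule.sub_mem _ (single_mem_Sp (by simp) _) (cons_mem ?_ ih)
    intro m hm
    simp [hm]

lemma bd_len (n : ℕ) (c : Ch 𝕜 α) : bd (len (n + 1) c) = len n (bd c) := by
  have := lin_ext_apply (f := bd.comp (len (n + 1))) (g := (len n).comp bd)
    (fun l => by
      simp only [LinearMap.comp_apply]
      rw [len_single]
      have h := bd_single_len (𝕜 := 𝕜) l
      split_ifs with hl
      · rw [len_of_mem]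
        refine Sp_mono (fun m hm => ?_) h
        rw [hl] at hm
        exact Nat.add_right_cancel hm
      · rw [map_zero, len_of_ne]
        refine Sp_mono (fun m hm => ?_) h
        intro hmn
        rw [hmn] at hm
        exact hl hm.symm) c
  simpa using this

lemma bd_len_zero (c : Ch 𝕜 α) : bd (len 0 c) = 0 := by
  have := lin_ext_apply (f := bd.comp (len 0)) (g := (0 : Ch 𝕜 α →ₗ[𝕜] Ch 𝕜 α))
    (fun l => by
      simp only [LinearMap.comp_apply]
      rw [len_single]
      split_ifs with hl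
      · have : l = [] := List.length_eq_zero_iff.1 hl
        subst this
        simp
      · simp) c
  simpa using this

lemma sum_len (N : ℕ) {c : Ch 𝕜 α} (hc : c ∈ Sp 𝕜 (fun l : List α => l.length < N)) :
    ∑ n ∈ Finset.range N, len n c = c := by
  have := eq_of_Sp (F := ∑ n ∈ Finset.range N, len n) (G := LinearMap.id)
    (fun l (hl : l.length < N) => by
      simp only [LinearMap.sum_apply, len_single, LinearMap.id_apply]
      rw [Finset.sum_ite_eq]
      rw [if_pos (Finset.mem_range.2 hl)]) hc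
  simpa using this

lemma exists_len_bound (c : Ch 𝕜 α) : ∃ N, c ∈ Sp 𝕜 (fun l : List α => l.length < N) := by
  refine ⟨c.support.sup List.length + 1, ?_⟩
  rw [mem_Sp]
  intro l hl
  exact Nat.lt_succ_of_le (Finset.le_sup (f := List.length) hl)

/-! ### Reversal -/

/-- signed reversal of a list -/
noncomputable def rvL : List α → Ch 𝕜 α
  | [] => single [] (1 : 𝕜)
  | x :: l => sn x (rvL l)

/-- signed reversal -/
noncomputable def rv : Ch 𝕜 α →ₗ[𝕜] Ch 𝕜 α := Finsupp.linearCombination 𝕜 rvL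

lemma rv_single (l : List α) : rv (single l (1 : 𝕜)) = rvL l := by
  simp [rv, Finsupp.linearCombination_single]

lemma rv_nil : rv (single ([] : List α) (1 : 𝕜)) = single [] (1 : 𝕜) := by
  rw [rv_single, rvL]

lemma rv_cons (x : α) (c : Ch 𝕜 α) : rv (cons x c) = sn x (rv c) := by
  have := lin_ext_apply (f := rv.comp (cons x)) (g := (sn x).comp rv)
    (fun l => by simp [rv_single, rvL]) c
  simpa using this

lemma bd_rv (c : Ch 𝕜 α) : bd (rv c) = rv (bd c) := by
  have := ch_ext_apply (F := bd.comp rv) (G := rv.comp bd) (by simp [rv_nil])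
    (fun y c h => by
      simp only [LinearMap.comp_apply] at h
      simp [rv_cons, h]) c
  simpa using this

lemma rv_sn (x : α) (c : Ch 𝕜 α) : rv (sn x c) = cons x (rv c) := by
  have := ch_ext_apply (F := rv.comp (sn x)) (G := (cons x).comp rv)
    (by
      have e : single [x] (1 : 𝕜) = cons x (single [] (1 : 𝕜)) := by simp
      simp only [LinearMap.comp_apply, sn_single, List.length_nil, pow_zero, one_smul,
        List.nil_append]
      rw [e, rv_cons, rv_nil]
      simp)
    (fun y c h => by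
      simp only [LinearMap.comp_apply] at h
      simp [rv_cons, h]) c
  simpa using this

lemma rv_rv (c : Ch 𝕜 α) : rv (rv c) = c := by
  have := ch_ext_apply (F := rv.comp rv) (G := (LinearMap.id : Ch 𝕜 α →ₗ[𝕜] Ch 𝕜 α))
    (by simp [rv_nil])
    (fun y c h => by
      simp only [LinearMap.comp_apply, LinearMap.id_apply] at h
      simp [rv_cons, rv_sn, h]) c
  simpa using this

lemma rvL_mem (l : List α) : rvL l ∈ Sp 𝕜 (fun m : List α => m = l.reverse) := by
  induction l with
  | nil => exact single_mem_Sp (by simp) _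
  | cons x l ih =>
    rw [rvL]
    refine sn_mem ?_ ih
    rintro m rfl
    simp

lemma rv_mem {P Q : List α → Prop} (h : ∀ l, P l → Q l.reverse) {c : Ch 𝕜 α} (hc : c ∈ Sp 𝕜 P) :
    rv c ∈ Sp 𝕜 Q :=
  map_mem _ (fun l hl => by
    rw [rv_single]
    refine Sp_mono ?_ (rvL_mem l)
    rintro m rfl
    exact h l hl) hc

/-! ### Comparison with the official definition -/

lemma isChain_iff [Preorder α] {n : ℕ} {c : Ch 𝕜 α} :
    IsChain n c ↔ c ∈ Sp 𝕜 (fun l : List α => l.length = n ∧ l.Pairwise (· < ·)) := by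
  rw [mem_Sp]; rfl

lemma official_iff [PartialOrder α] : HomologyNonzero 𝕜 α ↔ NA 𝕜 (Set.univ : Set α) := by
  have hrev : ∀ l : List α, l.Pairwise (· < ·) → st (Set.univ : Set α) l.reverse := by
    intro l hl
    refine ⟨?_, fun _ _ => trivial⟩
    rw [List.pairwise_reverse]
    exact hl
  have hrev' : ∀ l : List α, st (Set.univ : Set α) l → l.reverse.Pairwise (· < ·) := by
    intro l hl
    rw [List.pairwise_reverse]
    exact hl.1
  constructor
  · rintro ⟨n, z, hz, hbz, hne⟩
    rw [isChain_iff] at hz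
    refine ⟨rv z, rv_mem (fun l hl => hrev l hl.2) hz, by rw [bd_rv, hbz, map_zero], ?_⟩
    intro c hc hcz
    refine hne (len (n + 1) (rv c)) ?_ ?_
    · rw [isChain_iff]
      exact len_mem (P := fun l : List α => l.Pairwise (· < ·)) (rv_mem hrev' hc)
    · rw [bd_len, bd_rv, hcz, rv_rv]
      exact len_of_mem (Sp_mono (fun l hl => hl.1) hz)
  · rintro ⟨z, hz, hbz, hne⟩
    by_contra hcon
    have hz' : rv z ∈ Sp 𝕜 (fun l : List α => l.Pairwise (· < ·)) := rv_mem hrev' hz
    have hb : bd (rv z) = 0 := by rw [bd_rv, hbz, map_zero]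
    have key : ∀ n, ∃ c, IsChain (n + 1) c ∧ bd c = len n (rv z) := by
      intro n
      by_contra hn
      push Not at hn
      refine hcon ⟨n, len n (rv z), ?_, ?_, hn⟩
      · rw [isChain_iff]
        exact len_mem hz'
      · rcases n with _ | n
        · exact bd_len_zero _
        · rw [bd_len, hb, map_zero]
    choose c hc hbc using key
    obtain ⟨N, hN⟩ := exists_len_bound (rv z)
    refine hne (rv (∑ n ∈ Finset.range N, c n)) ?_ ?_
    · refine rv_mem hrev ?_
      refine Submodule.sum_mem _ fun n _ => ?_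
      have := hc n
      rw [isChain_iff] at this
      exact Sp_mono (fun l hl => hl.2) this
    · rw [bd_rv, map_sum]
      simp only [hbc]
      rw [sum_len N hN, rv_rv]

/-! ### Transport along order embeddings -/

lemma mp_injOn {S : Set α} {f : α → β} (hf : Set.InjOn f S) {c d : Ch 𝕜 α}
    (hc : c ∈ Sp 𝕜 (fun l : List α => ∀ a ∈ l, a ∈ S))
    (hd : d ∈ Sp 𝕜 (fun l : List α => ∀ a ∈ l, a ∈ S)) (h : mp f c = mp f d) : c = d := by
  have hinj : Set.InjOn (List.map f) {l : List α | ∀ a ∈ l, a ∈ S} := by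
    intro l hl m hm hlm
    have hlm' : l.map f = m.map f := hlm
    clear hlm
    induction l generalizing m with
    | nil =>
      symm
      simpa using hlm'.symm
    | cons x l ih =>
      rcases m with _ | ⟨y, m⟩
      · simp at hlm'
      · simp only [List.map_cons, List.cons.injEq] at hlm'
        have hl' : ∀ a ∈ x :: l, a ∈ S := hl
        have hm' : ∀ a ∈ y :: m, a ∈ S := hm
        rw [hf (hl' x (by simp)) (hm' y (by simp)) hlm'.1,
          ih (fun a ha => hl' a (by simp [ha])) (fun a ha => hm' a (by simp [ha])) hlm'.2]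
  exact Finsupp.mapDomain_injOn _ hinj hc hd h

lemma exists_lift {S : Set α} {f : α → β} [PartialOrder α] [PartialOrder β]
    (hlt : ∀ x ∈ S, ∀ y ∈ S, f x < f y → x < y) {c : Ch 𝕜 β} (hc : c ∈ Sp 𝕜 (st (f '' S))) :
    ∃ c' ∈ Sp 𝕜 (st S), mp f c' = c := by
  have key : ∀ l : List β, st (f '' S) l → ∃ l' : List α, st S l' ∧ l'.map f = l := by
    intro l
    induction l with
    | nil => intro _; exact ⟨[], ⟨by simp, by simp⟩, rfl⟩
    | cons y l ih =>
      intro hl
      have hp := List.pairwise_cons.1 hl.1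
      obtain ⟨l', hl', rfl⟩ := ih ⟨hp.2, fun a ha => hl.2 a (by simp [ha])⟩
      obtain ⟨x, hx, rfl⟩ := hl.2 y (by simp)
      refine ⟨x :: l', ⟨?_, ?_⟩, rfl⟩
      · rw [List.pairwise_cons]
        refine ⟨fun a ha => hlt _ (hl'.2 a ha) _ hx (hp.1 _ (List.mem_map_of_mem ha)), hl'.1⟩
      · intro a ha
        rcases List.mem_cons.1 ha with h | ha
        · rw [h]; exact hx
        · exact hl'.2 a ha
  have h2 : Sp 𝕜 (st (f '' S)) ≤ (Sp 𝕜 (st S)).map (mp f) := by
    rw [Sp, Finsupp.supported_eq_span_single]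
    refine Submodule.span_le.2 ?_
    rintro _ ⟨l, hl, rfl⟩
    obtain ⟨l', hl', rfl⟩ := key l hl
    exact ⟨single l' (1 : 𝕜), single_mem_Sp hl' _, by simp⟩
  obtain ⟨c', h, h'⟩ := h2 hc
  exact ⟨c', h, h'⟩

lemma st_map {S : Set α} {T : Set β} {f : α → β} [PartialOrder α] [PartialOrder β]
    (hT : ∀ x ∈ S, f x ∈ T)
    (hlt : ∀ x ∈ S, ∀ y ∈ S, x < y → f x < f y) (l : List α) (hl : st S l) :
    st T (l.map f) := by
  refine ⟨?_, ?_⟩
  · rw [List.pairwise_map]
    exact hl.1.imp_of_mem fun {a b} ha hb hab => hlt _ (hl.2 b hb) _ (hl.2 a ha) hab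
  · intro a ha
    obtain ⟨b, hb, rfl⟩ := List.mem_map.1 ha
    exact hT _ (hl.2 b hb)

lemma wk_map {S : Set α} {T : Set β} {f : α → β} [Preorder α] [Preorder β]
    (hT : ∀ x ∈ S, f x ∈ T)
    (hle : ∀ x ∈ S, ∀ y ∈ S, x ≤ y → f x ≤ f y) (l : List α) (hl : wk S l) :
    wk T (l.map f) := by
  refine ⟨?_, ?_⟩
  · rw [List.pairwise_map]
    exact hl.1.imp_of_mem fun {a b} ha hb hab => hle _ (hl.2 b hb) _ (hl.2 a ha) hab
  · intro a ha
    obtain ⟨b, hb, rfl⟩ := List.mem_map.1 ha
    exact hT _ (hl.2 b hb)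

lemma NA_image [PartialOrder α] [PartialOrder β] {S : Set α} {f : α → β}
    (hf : Set.InjOn f S) (hlt : ∀ x ∈ S, ∀ y ∈ S, x < y ↔ f x < f y) :
    NA 𝕜 (f '' S) ↔ NA 𝕜 S := by
  have hin : ∀ {c : Ch 𝕜 α}, c ∈ Sp 𝕜 (st S) → c ∈ Sp 𝕜 (fun l : List α => ∀ a ∈ l, a ∈ S) :=
    fun hc => Sp_mono (fun l hl => hl.2) hc
  constructor
  · rintro ⟨z, hz, hbz, hne⟩
    obtain ⟨z', hz', rfl⟩ := exists_lift (fun x hx y hy h => (hlt x hx y hy).2 h) hz
    refine ⟨z', hz', ?_, ?_⟩
    · refine mp_injOn hf (hin (bd_st hz')) (Submodule.zero_mem _) ?_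
      rw [← bd_mp, hbz, map_zero]
    · intro c hc h
      refine hne (mp f c) (mp_mem (st_map (T := f '' S) (fun x hx => Set.mem_image_of_mem f hx)
        fun x hx y hy h => (hlt x hx y hy).1 h) hc) ?_
      rw [bd_mp, h]
  · rintro ⟨z, hz, hbz, hne⟩
    refine ⟨mp f z, mp_mem (st_map (T := f '' S) (fun x hx => Set.mem_image_of_mem f hx)
        fun x hx y hy h => (hlt x hx y hy).1 h) hz, by rw [bd_mp, hbz, map_zero], ?_⟩
    intro c hc h
    obtain ⟨c', hc', rfl⟩ := exists_lift (fun x hx y hy h => (hlt x hx y hy).2 h) hc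
    rw [bd_mp] at h
    exact hne c' hc' (mp_injOn hf (hin (bd_st hc')) (hin hz) h)

end Vale.Agent.P240.K
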