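import Vale.Agent.P240.K.Shuffle
import Vale.Agent.P240.K.NonAcyclic

namespace Vale.Agent.P240.K

open Finsupp

variable {𝕜 : Type*} [Field 𝕜]

variable {α β γ : Type*}

/-- a functional vanishing on lists that are not strictly decreasing -/
def Nrm [LT α] (lam : Ch 𝕜 α →ₗ[𝕜] 𝕜) : Prop :=
  ∀ l : List α, ¬ l.Pairwise (· > ·) → lam (single l (1 : 𝕜)) = 0

/-- a functional vanishing on boundaries of weak chains in `S` -/
def Coc [LE α] (S : Set α) (lam : Ch 𝕜 α →ₗ[𝕜] 𝕜) : Prop :=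
  ∀ c ∈ Sp 𝕜 (wk S), lam (bd c) = 0

/-! ### Existence of functionals -/

lemma exists_functional {V : Type*} [AddCommGroup V] [Module 𝕜 V] (B : Submodule 𝕜 V) (z : V)
    (hz : z ∉ B) : ∃ mu : V →ₗ[𝕜] 𝕜, (∀ b ∈ B, mu b = 0) ∧ mu z ≠ 0 := by
  obtain ⟨f, hf, hfB⟩ := Submodule.exists_dual_map_eq_bot_of_notMem hz inferInstance
  refine ⟨f, fun b hb => ?_, hf⟩
  have : f b ∈ B.map f := ⟨b, hb, rfl⟩
  rw [hfB] at this
  simpa using this

/-- boundaries of strict chains in `S` -/
noncomputable def Bst (𝕜 : Type*) [Field 𝕜] [LT α] (S : Set α) : Submodule 𝕜 (Ch 𝕜 α) := (Sp 𝕜 (st S)).map bd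

lemma exists_cocycle [PartialOrder α] (S : Set α) (V : Submodule 𝕜 (Ch 𝕜 α)) (z : Ch 𝕜 α)
    (hz : pi z ∉ Bst 𝕜 S ⊔ V) :
    ∃ lam : Ch 𝕜 α →ₗ[𝕜] 𝕜, Nrm lam ∧ Coc S lam ∧ (∀ v, pi v ∈ V → lam v = 0) ∧ lam z ≠ 0 := by
  obtain ⟨mu, h1, h2⟩ := exists_functional _ _ hz
  refine ⟨mu.comp pi, ?_, ?_, ?_, h2⟩
  · intro l hl
    rw [LinearMap.comp_apply, pi_single, if_neg hl, map_zero]
  · intro c hc
    rw [LinearMap.comp_apply, ← bd_pi hc]
    exact h1 _ (Submodule.mem_sup_left ⟨pi c, pi_mem hc, rfl⟩)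
  · intro v hv
    exact h1 _ (Submodule.mem_sup_right hv)

lemma Nrm.pi [PartialOrder α] {lam : Ch 𝕜 α →ₗ[𝕜] 𝕜} (h : Nrm lam) (z : Ch 𝕜 α) :
    lam (pi z) = lam z := by
  have := lin_ext_apply (f := lam.comp Vale.Agent.P240.K.pi) (g := lam)
    (fun l => by
      rw [LinearMap.comp_apply, pi_single]
      split_ifs with hl
      · rfl
      · rw [map_zero, h l hl]) z
  simpa using this

lemma NA_of_functional [PartialOrder α] {S : Set α} (lam : Ch 𝕜 α →ₗ[𝕜] 𝕜)
    (hn : ∀ l, wk S l → ¬ l.Pairwise (· > ·) → lam (single l (1 : 𝕜)) = 0)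
    (hc : Coc S lam) (z : Ch 𝕜 α) (hz : z ∈ Sp 𝕜 (wk S)) (hb : bd z = 0) (hl : lam z ≠ 0) : NA 𝕜 S := by
  refine ⟨pi z, pi_mem hz, by rw [bd_pi hz, hb, map_zero], ?_⟩
  intro c hc' h
  have h1 : lam (pi z) = lam z := by
    have := eq_of_Sp (F := lam.comp Vale.Agent.P240.K.pi) (G := lam)
      (fun l (hl : wk S l) => by
        rw [LinearMap.comp_apply, pi_single]
        split_ifs with h
        · rfl
        · rw [map_zero, hn l hl h]) hz
    simpa using this
  rw [← h] at h1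
  rw [hc c (Sp_mono st_wk hc')] at h1
  exact hl h1.symm

/-! ### The detection functional -/

open Classical in
/-- detection functional on lists, with values in functionals of a prefix -/
noncomputable def PhiL (D : Set α) (f : α → β) (lW : Ch 𝕜 β →ₗ[𝕜] 𝕜) (lD : Ch 𝕜 α →ₗ[𝕜] 𝕜) :
    List α → (Ch 𝕜 β →ₗ[𝕜] 𝕜)
  | [] => lD (single [] (1 : 𝕜)) • lW
  | x :: l => if x ∈ D then lD (single (x :: l) (1 : 𝕜)) • lW else (PhiL D f lW lD l).comp (ap (f x))

/-- detection functional -/
noncomputable def Phi (D : Set α) (f : α → β) (lW : Ch 𝕜 β →ₗ[𝕜] 𝕜) (lD : Ch 𝕜 α →ₗ[𝕜] 𝕜) :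
    Ch 𝕜 α →ₗ[𝕜] (Ch 𝕜 β →ₗ[𝕜] 𝕜) := Finsupp.linearCombination 𝕜 (PhiL D f lW lD)

/-- detection functional -/
noncomputable def phi (D : Set α) (f : α → β) (lW : Ch 𝕜 β →ₗ[𝕜] 𝕜) (lD : Ch 𝕜 α →ₗ[𝕜] 𝕜) :
    Ch 𝕜 α →ₗ[𝕜] 𝕜 := (Phi D f lW lD).flip (single [] (1 : 𝕜))

section
variable {D : Set α} {f : α → β} {lW : Ch 𝕜 β →ₗ[𝕜] 𝕜} {lD : Ch 𝕜 α →ₗ[𝕜] 𝕜}

lemma Phi_single (l : List α) : Phi D f lW lD (single l (1 : 𝕜)) = PhiL D f lW lD l := by
  simp [Phi, Finsupp.linearCombination_single]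

lemma phi_single (l : List α) : phi D f lW lD (single l (1 : 𝕜)) = PhiL D f lW lD l (single [] (1 : 𝕜)) := by
  rw [phi, LinearMap.flip_apply, Phi_single]

lemma PhiL_cons_not {x : α} (hx : x ∉ D) (l : List α) :
    PhiL D f lW lD (x :: l) = (PhiL D f lW lD l).comp (ap (f x)) := by
  rw [PhiL, if_neg hx]

lemma PhiL_cons_mem {x : α} (hx : x ∈ D) (l : List α) :
    PhiL D f lW lD (x :: l) = lD (single (x :: l) (1 : 𝕜)) • lW := by
  rw [PhiL, if_pos hx]

lemma PhiL_of_D {l : List α} (hl : ∀ a ∈ l, a ∈ D) :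
    PhiL D f lW lD l = lD (single l (1 : 𝕜)) • lW := by
  cases l with
  | nil => rw [PhiL]
  | cons x l => rw [PhiL_cons_mem (hl x (by simp))]

lemma Phi_of_D {c : Ch 𝕜 α} (hc : c ∈ Sp 𝕜 (fun l : List α => ∀ a ∈ l, a ∈ D)) :
    Phi D f lW lD c = lD c • lW := by
  have := eq_of_Sp (F := Phi D f lW lD) (G := lD.smulRight lW)
    (fun l (hl : ∀ a ∈ l, a ∈ D) => by
      rw [Phi_single, PhiL_of_D hl]; rfl) hc
  simpa using this

lemma Phi_cons_not {x : α} (hx : x ∉ D) (c : Ch 𝕜 α) (P : Ch 𝕜 β) :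
    Phi D f lW lD (cons x c) P = Phi D f lW lD c (ap (f x) P) := by
  have := lin_ext_apply (f := (Phi D f lW lD).comp (cons x))
    (g := (LinearMap.lcomp 𝕜 𝕜 (ap (f x))).comp (Phi D f lW lD))
    (fun l => by
      simp only [LinearMap.comp_apply, cons_single, Phi_single, PhiL_cons_not hx]
      rfl) c
  have h := congrArg (fun F => F P) this
  simpa using h

/-- the cocycle property of the detection functional -/
lemma Phi_bd [PartialOrder α] [PartialOrder β] {S : Set α} {SW : Set β}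
    (hlow : ∀ x ∈ S, ∀ y ∈ S, x ≤ y → y ∈ D → x ∈ D)
    (hf : ∀ x ∈ S, x ∉ D → f x ∈ SW)
    (hmono : ∀ x ∈ S, x ∉ D → ∀ y ∈ S, y ∉ D → x ≤ y → f x ≤ f y)
    (hW : Coc SW lW) (hD : Coc (S ∩ D) lD) :
    ∀ (l : List α), wk S l → ∀ P : Ch 𝕜 β,
      P ∈ Sp 𝕜 (fun p : List β => wk SW p ∧ ∀ b ∈ p, ∀ x ∈ l, x ∉ D → f x ≤ b) →
      Phi D f lW lD (bd (single l (1 : 𝕜))) P = PhiL D f lW lD l (sg (bd P)) := by
  have hW' : ∀ P ∈ Sp 𝕜 (wk SW), lW (sg (bd P)) = 0 := by
    intro P hP
    have := hW (sg P) (sg_mem hP)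
    rw [bd_sg, map_neg, neg_eq_zero] at this
    exact this
  intro l
  induction l with
  | nil =>
    intro _ P hP
    rw [PhiL, bd_single_nil, map_zero, LinearMap.zero_apply, LinearMap.smul_apply,
      hW' P (Sp_mono (fun p hp => hp.1) hP), smul_zero]
  | cons x l ih =>
    intro hl P hP
    have hp := List.pairwise_cons.1 hl.1
    have hxS : x ∈ S := hl.2 x (by simp)
    have hlS : wk S l := ⟨hp.2, fun a ha => hl.2 a (by simp [ha])⟩
    by_cases hx : x ∈ D
    · have hall : ∀ a ∈ x :: l, a ∈ D := by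
        intro a ha
        rcases List.mem_cons.1 ha with h | ha'
        · rw [h]; exact hx
        · exact hlow a (hl.2 a ha) x hxS (hp.1 a ha') hx
      have hm : single (x :: l) (1 : 𝕜) ∈ Sp 𝕜 (wk (S ∩ D)) :=
        single_mem_Sp ⟨hl.1, fun a ha => ⟨hl.2 a ha, hall a ha⟩⟩ _
      rw [PhiL_of_D hall, Phi_of_D, hD _ hm, LinearMap.smul_apply, LinearMap.smul_apply,
        hW' P (Sp_mono (fun p hp => hp.1) hP), zero_smul, smul_zero]
      exact Sp_mono (fun l hl a ha => (hl.2 a ha).2) (bd_wk hm)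
    · have hP' : ap (f x) P ∈ Sp 𝕜 (fun p : List β => wk SW p ∧
          ∀ b ∈ p, ∀ y ∈ l, y ∉ D → f y ≤ b) := by
        refine ap_mem ?_ hP
        rintro p ⟨hp1, hp2⟩
        refine ⟨⟨?_, ?_⟩, ?_⟩
        · rw [List.pairwise_append]
          refine ⟨hp1.1, by simp, ?_⟩
          intro a ha b hb
          rw [List.mem_singleton] at hb
          rw [hb]
          exact hp2 a ha x (by simp) hx
        · intro a ha
          rcases List.mem_append.1 ha with ha | ha
          · exact hp1.2 a ha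
          · rw [List.mem_singleton] at ha
            rw [ha]
            exact hf x hxS hx
        · intro b hb y hy hyD
          rcases List.mem_append.1 hb with hb | hb
          · exact hp2 b hb y (by simp [hy]) hyD
          · rw [List.mem_singleton] at hb
            rw [hb]
            exact hmono y (hlS.2 y hy) hyD x hxS hx (hp.1 y hy)
      rw [bd_single_cons, map_sub, LinearMap.sub_apply, Phi_cons_not hx, ih hlS _ hP',
        PhiL_cons_not hx, Phi_single, LinearMap.comp_apply, bd_ap, map_add, sg_sg, sg_ap, map_add,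
        map_neg]
      abel

lemma phi_coc [PartialOrder α] [PartialOrder β] {S : Set α} {SW : Set β}
    (hlow : ∀ x ∈ S, ∀ y ∈ S, x ≤ y → y ∈ D → x ∈ D)
    (hf : ∀ x ∈ S, x ∉ D → f x ∈ SW)
    (hmono : ∀ x ∈ S, x ∉ D → ∀ y ∈ S, y ∉ D → x ≤ y → f x ≤ f y)
    (hW : Coc SW lW) (hD : Coc (S ∩ D) lD) : Coc S (phi D f lW lD) := by
  intro c hc
  have := eq_of_Sp (F := (phi D f lW lD).comp bd) (G := 0) (fun l (hl : wk S l) => by
    rw [LinearMap.comp_apply, phi, LinearMap.flip_apply,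
      Phi_bd hlow hf hmono hW hD l hl _ (single_mem_Sp ⟨⟨by simp, by simp⟩, by simp⟩ _)]
    simp) hc
  simpa using this

lemma PhiL_prefix [LT β] (hn : Nrm lW) (l : List α) :
    ∀ p : List β, ¬ p.Pairwise (· > ·) → PhiL D f lW lD l (single p 1) = 0 := by
  induction l with
  | nil => intro p hp; rw [PhiL, LinearMap.smul_apply, hn p hp, smul_zero]
  | cons x l ih =>
    intro p hp
    by_cases hx : x ∈ D
    · rw [PhiL_cons_mem hx, LinearMap.smul_apply, hn p hp, smul_zero]
    · rw [PhiL_cons_not hx, LinearMap.comp_apply, ap_single]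
      refine ih _ fun h => hp ?_
      exact (List.pairwise_append.1 h).1

lemma PhiL_nrm [PartialOrder α] [PartialOrder β] {S : Set α} (hnW : Nrm lW) (hnD : Nrm lD) :
    ∀ l : List α, wk S l → ¬ l.Pairwise (· > ·) → ∀ p : List β,
      PhiL D f lW lD l (single p 1) = 0 := by
  intro l
  induction l with
  | nil => intro _ h; exact absurd List.Pairwise.nil h
  | cons x l ih =>
    intro hl hns p
    have hp := List.pairwise_cons.1 hl.1
    have hxS : x ∈ S := hl.2 x (by simp)
    have hlS : wk S l := ⟨hp.2, fun a ha => hl.2 a (by simp [ha])⟩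
    by_cases hx : x ∈ D
    · rw [PhiL_cons_mem hx, LinearMap.smul_apply, hnD _ hns, zero_smul]
    · rw [PhiL_cons_not hx, LinearMap.comp_apply, ap_single]
      by_cases hls : l.Pairwise (· > ·)
      · rcases l with _ | ⟨y, l⟩
        · exact absurd (List.pairwise_singleton _ _) hns
        · have hxy : x = y := by
            by_contra hne
            apply hns
            have hyx : y < x := lt_of_le_of_ne (hp.1 y (by simp)) (Ne.symm hne)
            rw [List.pairwise_cons]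
            refine ⟨?_, hls⟩
            intro a ha
            rcases List.mem_cons.1 ha with h | ha
            · rw [h]; exact hyx
            · exact lt_of_le_of_lt (le_of_lt ((List.pairwise_cons.1 hls).1 a ha)) hyx
          subst hxy
          rw [PhiL_cons_not hx, LinearMap.comp_apply, ap_single]
          refine PhiL_prefix hnW _ _ fun h => ?_
          rw [List.append_assoc, List.pairwise_append] at h
          have := h.2.1
          simp at this
      · exact ih hlS hls _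

/-- evaluation of the detection functional on shuffle products -/
lemma PhiL_shuffle [PartialOrder β] [Max α] {A B : Set α}
    (hA : ∀ a ∈ A, a ∉ D) (hB : ∀ b ∈ B, b ∈ D)
    (hAB : ∀ a ∈ A, ∀ b ∈ B, a ⊔ b ∉ D ∧ f (a ⊔ b) = f a) (hnW : Nrm lW) (n : ℕ) :
    ∀ s t : List α, s.length + t.length = n → (∀ a ∈ s, a ∈ A) → (∀ b ∈ t, b ∈ B) →
      ∀ p : List β, Phi D f lW lD (sh (single s (1 : 𝕜)) (single t (1 : 𝕜))) (single p 1) =
        lW (single (p ++ s.map f) 1) * lD (single t (1 : 𝕜)) := by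
  induction n with
  | zero =>
    intro s t h _ _ p
    have hs : s = [] := List.length_eq_zero_iff.1 (by omega)
    have ht : t = [] := List.length_eq_zero_iff.1 (by omega)
    subst hs ht
    rw [sh_nil_left, Phi_single, PhiL]
    simp [mul_comm]
  | succ n ih =>
    intro s t h hs ht p
    rcases s with _ | ⟨a, s⟩
    · rw [sh_nil_left, Phi_single, PhiL_of_D fun b hb => hB b (ht b hb)]
      simp [mul_comm]
    rcases t with _ | ⟨b, t⟩
    · rw [sh_nil_right]
      have : ∀ (s : List α) (hs : ∀ a ∈ s, a ∈ A) (p : List β),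
          PhiL D f lW lD s (single p 1) = lW (single (p ++ s.map f) 1) * lD (single [] (1 : 𝕜)) := by
        intro s
        induction s with
        | nil => intro _ p; rw [PhiL]; simp [mul_comm]
        | cons a s ih' =>
          intro hs p
          rw [PhiL_cons_not (hA a (hs a (by simp))), LinearMap.comp_apply, ap_single,
            ih' (fun x hx => hs x (by simp [hx]))]
          simp
      rw [Phi_single, this _ hs]
    have h1 := ih s (b :: t) (by simp only [List.length_cons] at h ⊢; omega)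
      (fun x hx => hs x (by simp [hx])) ht (p ++ [f a])
    have h2 := ih (a :: s) t (by simp only [List.length_cons] at h ⊢; omega) hs
      (fun x hx => ht x (by simp [hx])) (p ++ [f a])
    have hab := hAB a (hs a (by simp)) b (ht b (by simp))
    rw [← cons_single a s, ← cons_single b t, sh_cons_cons, Phi_cons_not hab.1, hab.2, ap_single,
      map_add, LinearMap.add_apply, cons_single, cons_single, h1, sg_single, map_smul sh,
      LinearMap.smul_apply, map_smul (Phi D f lW lD), LinearMap.smul_apply, h2]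
    have h3 : lW (single (p ++ [f a] ++ List.map f (a :: s)) 1) = 0 := by
      refine hnW _ fun h => ?_
      rw [List.append_assoc, List.pairwise_append] at h
      have := h.2.1
      simp at this
    rw [h3]
    simp

lemma phi_shuffle [PartialOrder β] [Max α] {A B : Set α}
    (hA : ∀ a ∈ A, a ∉ D) (hB : ∀ b ∈ B, b ∈ D)
    (hAB : ∀ a ∈ A, ∀ b ∈ B, a ⊔ b ∉ D ∧ f (a ⊔ b) = f a) (hnW : Nrm lW)
    {x y : Ch 𝕜 α} (hx : x ∈ Sp 𝕜 (fun l : List α => ∀ a ∈ l, a ∈ A))
    (hy : y ∈ Sp 𝕜 (fun l : List α => ∀ b ∈ l, b ∈ B)) :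
    phi D f lW lD (sh x y) = lW (mp f x) * lD y := by
  have h1 : ∀ s : List α, (∀ a ∈ s, a ∈ A) → ∀ {y : Ch 𝕜 α},
      y ∈ Sp 𝕜 (fun l : List α => ∀ b ∈ l, b ∈ B) →
      phi D f lW lD (sh (single s (1 : 𝕜)) y) = lW (mp f (single s (1 : 𝕜))) * lD y := by
    intro s hs y hy
    have := eq_of_Sp (F := (phi D f lW lD).comp (sh (single s (1 : 𝕜))))
      (G := (lW (mp f (single s (1 : 𝕜)))) • lD)
      (fun t (ht : ∀ b ∈ t, b ∈ B) => by
        have := PhiL_shuffle (lD := lD) hA hB hAB hnW _ s t rfl hs ht []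
        rw [LinearMap.comp_apply, phi, LinearMap.flip_apply, this, LinearMap.smul_apply,
          mp_single, smul_eq_mul, List.nil_append]) hy
    simpa using this
  have := eq_of_Sp (F := ((phi D f lW lD).comp ((sh).flip y)))
      (G := (lD y) • (lW.comp (mp f)))
      (fun s (hs : ∀ a ∈ s, a ∈ A) => by
        rw [LinearMap.comp_apply, LinearMap.flip_apply, h1 s hs hy, LinearMap.smul_apply,
          LinearMap.comp_apply, smul_eq_mul, mul_comm]) hx
  simp only [LinearMap.comp_apply, LinearMap.flip_apply, LinearMap.smul_apply, smul_eq_mul] at this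
  rw [this, mul_comm]

end

/-! ### Extension by zero over movers -/

section ext
open Classical in
/-- keep lists all of whose entries lie in `U` -/
noncomputable def res (U : Set α) : Ch 𝕜 α →ₗ[𝕜] Ch 𝕜 α :=
  Finsupp.linearCombination 𝕜 fun l : List α => if ∀ a ∈ l, a ∈ U then single l (1 : 𝕜) else 0

open Classical in
lemma res_single (U : Set α) (l : List α) :
    res U (single l (1 : 𝕜)) = if ∀ a ∈ l, a ∈ U then single l (1 : 𝕜) else 0 := by
  simp [res, Finsupp.linearCombination_single]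

lemma res_of_mem {U : Set α} {c : Ch 𝕜 α} (hc : c ∈ Sp 𝕜 (fun l : List α => ∀ a ∈ l, a ∈ U)) :
    res U c = c := by
  have := eq_of_Sp (F := res U) (G := LinearMap.id) (fun l (hl : ∀ a ∈ l, a ∈ U) => by
    rw [res_single, if_pos hl]; rfl) hc
  simpa using this

lemma res_of_not {U : Set α} {c : Ch 𝕜 α} (hc : c ∈ Sp 𝕜 (fun l : List α => ∃ a ∈ l, a ∉ U)) :
    res U c = 0 := by
  have := eq_of_Sp (F := res U) (G := 0) (fun l (hl : ∃ a ∈ l, a ∉ U) => by
    rw [res_single, if_neg (fun h => by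
      obtain ⟨a, ha, hau⟩ := hl
      exact hau (h a ha))]; rfl) hc
  simpa using this

lemma ext_coc [PartialOrder α] [Preorder β] {S U : Set α} {T : Set β} {rho : α → β}
    {psi : Ch 𝕜 β →ₗ[𝕜] 𝕜}
    (hU : ∀ x ∈ S, x ∈ U → ∀ y ∈ S, x ≤ y → y ∈ U)
    (hrho : ∀ x ∈ S, x ∈ U → rho x ∈ T)
    (hmono : ∀ x ∈ S, x ∈ U → ∀ y ∈ S, y ∈ U → x ≤ y → rho x ≤ rho y)
    (hpsi : Coc T psi)
    (hvan : ∀ l, wk S l → (∀ a ∈ l, a ∈ U) → ∀ e ∈ S, e ∉ U → (∀ a ∈ l, e ≤ a) →
      psi (single (l.map rho) (1 : 𝕜)) = 0) :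
    Coc S ((psi.comp (mp rho)).comp (res U)) := by
  intro c hc
  have := eq_of_Sp (F := ((psi.comp (mp rho)).comp (res U)).comp bd) (G := 0)
    (fun l (hl : wk S l) => ?_) hc
  · simpa using this
  simp only [LinearMap.comp_apply, LinearMap.zero_apply]
  by_cases hall : ∀ a ∈ l, a ∈ U
  · have hm : single l (1 : 𝕜) ∈ Sp 𝕜 (fun l : List α => ∀ a ∈ l, a ∈ U) := single_mem_Sp hall _
    rw [res_of_mem (bd_mem (fun l l' hs h a ha => h a (hs.subset ha)) hm), ← bd_mp, mp_single]
    refine hpsi _ (single_mem_Sp ⟨?_, ?_⟩ _)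
    · rw [List.pairwise_map]
      exact hl.1.imp_of_mem fun {a b} ha hb hab =>
        hmono _ (hl.2 b hb) (hall b hb) _ (hl.2 a ha) (hall a ha) hab
    · intro a ha
      obtain ⟨b, hb, rfl⟩ := List.mem_map.1 ha
      exact hrho _ (hl.2 b hb) (hall b hb)
  · push Not at hall
    obtain ⟨e0, he0, he0U⟩ := hall
    rcases List.eq_nil_or_concat l with rfl | ⟨l1, e, rfl⟩
    · simp at he0
    rw [List.concat_eq_append] at *
    have hp := List.pairwise_append.1 hl.1
    have heS : e ∈ S := hl.2 e (by simp)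
    have heU : e ∉ U := by
      rcases List.mem_append.1 he0 with h | h
      · intro he
        exact he0U (hU e heS he e0 (hl.2 e0 he0) (hp.2.2 e0 h e (by simp)))
      · rw [List.mem_singleton] at h
        rw [← h]; exact he0U
    have e1 : single (l1 ++ [e]) (1 : 𝕜) = ap e (single l1 1) := by simp
    rw [e1, bd_ap, map_add, res_of_not, zero_add]
    · by_cases hl1 : ∀ a ∈ l1, a ∈ U
      · rw [sg_single, map_smul, res_of_mem (single_mem_Sp hl1 _), map_smul, map_smul, mp_single,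
          hvan l1 ⟨hp.1, fun a ha => hl.2 a (by simp [ha])⟩ hl1 e heS heU
            (fun a ha => hp.2.2 a ha e (by simp)), smul_zero]
      · push Not at hl1
        rw [sg_single, map_smul, res_of_not (single_mem_Sp hl1 _), smul_zero, map_zero, map_zero]
    · have hm : bd (single l1 (1 : 𝕜)) ∈ Sp 𝕜 (fun _ : List α => True) :=
        bd_mem (fun _ _ _ _ => trivial) (single_mem_Sp trivial _)
      exact ap_mem (fun l _ => ⟨e, by simp, heU⟩) hm

end ext

end Vale.Agent.P240.K
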