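import Vale.Agent.P240.K.Lefschetz
import Vale.Agent.P240.K.Detect

namespace Vale.Agent.P240.K

open Finsupp

section
variable {R R' : Type*} [CommRing R] [CommRing R'] {α : Type*}

/-- boundary over a commutative ring -/
noncomputable def bdR (R : Type*) [CommRing R] {α : Type*} : (List α →₀ R) →ₗ[R] (List α →₀ R) :=
  Finsupp.linearCombination R fun l : List α =>
    ∑ i ∈ Finset.range l.length, (-1 : R) ^ i • Finsupp.single (l.eraseIdx i) (1 : R)

/-- change of coefficients -/
noncomputable def MR (φ : R →+ R') : (List α →₀ R) →+ (List α →₀ R') :=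
  Finsupp.mapRange.addMonoidHom φ

lemma MR_apply (φ : R →+ R') (c : List α →₀ R) (l : List α) : MR φ c l = φ (c l) := rfl

lemma MR_single (φ : R →+ R') (l : List α) (r : R) : MR φ (single l r) = single l (φ r) :=
  Finsupp.mapRange_single (hf := φ.map_zero)

lemma bdR_MR (φ : R →+ R') (c : List α →₀ R) : bdR R' (MR φ c) = MR φ (bdR R c) := by
  have hneg : ∀ (i : ℕ) (r : R), φ (r * (-1) ^ i) = φ r * (-1) ^ i := by
    intro i r
    rcases neg_one_pow_eq_or R i with h | h
    · rcases neg_one_pow_eq_or R' i with h' | h'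
      · rw [h, h', mul_one, mul_one]
      · rcases Nat.even_or_odd i with hi | hi
        · rw [hi.neg_one_pow, hi.neg_one_pow, mul_one, mul_one]
        · rw [hi.neg_one_pow, hi.neg_one_pow, mul_neg_one, mul_neg_one, map_neg]
    · rcases Nat.even_or_odd i with hi | hi
      · rw [hi.neg_one_pow, hi.neg_one_pow, mul_one, mul_one]
      · rw [hi.neg_one_pow, hi.neg_one_pow, mul_neg_one, mul_neg_one, map_neg]
  induction c using Finsupp.induction_linear with
  | zero => simp
  | add f g hf hg => rw [map_add, map_add, hf, hg, map_add, map_add]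
  | single l r =>
    rw [MR_single, bdR, bdR, Finsupp.linearCombination_single, Finsupp.linearCombination_single,
      Finset.smul_sum, Finset.smul_sum, map_sum]
    refine Finset.sum_congr rfl fun i _ => ?_
    rw [smul_smul, smul_smul, Finsupp.smul_single, Finsupp.smul_single, MR_single, smul_eq_mul,
      smul_eq_mul, mul_one, mul_one, hneg]

lemma MR_supported {s : Set (List α)} (φ : R →+ R') {c : List α →₀ R}
    (hc : c ∈ Finsupp.supported R R s) : MR φ c ∈ Finsupp.supported R' R' s := by
  rw [Finsupp.mem_supported] at hc ⊢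
  intro l hl
  apply hc
  rw [Finset.mem_coe, Finsupp.mem_support_iff] at hl ⊢
  intro h
  exact hl (by rw [MR_apply, h, map_zero])

end

section
variable {𝕜 : Type*} [Field 𝕜] {α : Type*} [PartialOrder α] {S : Set α}

lemma st_finite (hS : S.Finite) : {l : List α | st S l}.Finite := by
  classical
  have h : {l : List α | st S l} ⊆ ⋃ n ∈ Finset.range (hS.toFinset.card + 1), stn S n := by
    intro l hl
    rw [Set.mem_iUnion₂]
    refine ⟨l.length, ?_, rfl, hl⟩
    rw [Finset.mem_range]
    exact Nat.lt_succ_of_le (st_length_le hS hl)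
  refine Set.Finite.subset ?_ h
  refine Set.Finite.biUnion (Finset.finite_toSet _) fun n _ => stn_finite hS n

omit [PartialOrder α] in
lemma bdR_eq {K : Type*} [Field K] (c : List α →₀ K) : bdR K c = bd c := rfl

lemma castZ_inj {x y : ℤ} (h : Int.castAddHom ℚ x = Int.castAddHom ℚ y) : x = y :=
  Int.cast_injective (α := ℚ) h

/-- Acyclicity descends along a split extension. -/
lemma not_NA_retr {F : Type*} [Field F] (ι : F →+ 𝕜) (ρ : 𝕜 →+ F) (h : ∀ x, ρ (ι x) = x)
    (hac : ¬ NA 𝕜 S) : ¬ NA F S := by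
  rw [not_NA_iff] at hac ⊢
  intro z hz hb
  obtain ⟨c, hc, hcz⟩ := hac (MR ι z) (MR_supported ι hz) (by
    rw [← bdR_eq, bdR_MR, bdR_eq, hb, map_zero])
  refine ⟨MR ρ c, MR_supported ρ hc, ?_⟩
  rw [← bdR_eq, bdR_MR, bdR_eq, hcz]
  ext l
  rw [MR_apply, MR_apply, h]

/-- an additive map to a subfield fixing `1` -/
lemma exists_retr (F : Type*) [Field F] [Algebra F 𝕜] :
    ∃ ρ : 𝕜 →ₗ[F] F, ρ 1 = 1 := by
  obtain ⟨f, -, hf⟩ := exists_functional (𝕜 := F) (⊥ : Submodule F 𝕜) 1 (by
    rw [Submodule.mem_bot]; exact one_ne_zero)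
  exact ⟨(f 1)⁻¹ • f, by rw [LinearMap.smul_apply, smul_eq_mul, inv_mul_cancel₀ hf]⟩

/-- **Universal coefficients**: an acyclic finite poset over some field is `ℚ`-acyclic. -/
theorem NA_of_rat (hS : S.Finite) (h : NA ℚ S) : NA 𝕜 S := by
  by_contra hac
  apply absurd h
  obtain ⟨q, hq⟩ := CharP.exists 𝕜
  rcases Nat.eq_zero_or_pos q with hq0 | hq0
  · subst hq0
    have : CharZero 𝕜 := CharP.charP_to_charZero 𝕜
    obtain ⟨ρ, hρ⟩ := exists_retr (𝕜 := 𝕜) ℚ
    refine not_NA_retr (Rat.castHom 𝕜).toAddMonoidHom ρ.toAddMonoidHom (fun x => ?_) hac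
    change ρ ((x : ℚ) : 𝕜) = x
    have : ((x : ℚ) : 𝕜) = x • (1 : 𝕜) := by rw [Rat.smul_one_eq_cast]
    rw [this, map_smul, hρ, smul_eq_mul, mul_one]
  · have hqp : q.Prime := (CharP.char_is_prime_or_zero 𝕜 q).resolve_right hq0.ne'
    have : Fact q.Prime := ⟨hqp⟩
    let alg : Algebra (ZMod q) 𝕜 := ZMod.algebra 𝕜 q
    obtain ⟨ρ, hρ⟩ := exists_retr (𝕜 := 𝕜) (ZMod q)
    have hac' : ¬ NA (ZMod q) S := by
      refine not_NA_retr (algebraMap (ZMod q) 𝕜).toAddMonoidHom ρ.toAddMonoidHom (fun x => ?_) hac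
      change ρ (algebraMap (ZMod q) 𝕜 x) = x
      rw [Algebra.algebraMap_eq_smul_one, map_smul, hρ, smul_eq_mul, mul_one]
    clear hac hρ ρ alg hq
    rw [not_NA_iff] at hac' ⊢
    -- integral cycles and boundaries
    let st' : Set (List α) := {l | st S l}
    let C : Submodule ℤ (List α →₀ ℤ) := Finsupp.supported ℤ ℤ st'
    let Z : Submodule ℤ (List α →₀ ℤ) := C ⊓ LinearMap.ker (bdR ℤ)
    let B : Submodule ℤ (List α →₀ ℤ) := C.map (bdR ℤ)
    have hstf : st'.Finite := st_finite hS
    have hCfg : C.FG := by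
      have : Finite st' := hstf
      have h1 : Module.Finite ℤ C :=
        Module.Finite.equiv (Finsupp.supportedEquivFinsupp (M := ℤ) (R := ℤ) st').symm
      exact Module.Finite.iff_fg.1 h1
    have hZfg : Z.FG := by
      have hN : IsNoetherian ℤ C := isNoetherian_of_fg_of_noetherian C hCfg
      have h2 : (Z.comap C.subtype).FG := IsNoetherian.noetherian _
      have h3 : (Z.comap C.subtype).map C.subtype = Z := by
        rw [Submodule.map_comap_subtype]
        exact inf_eq_right.2 inf_le_left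
      rw [← h3]
      exact h2.map _
    have hcast : ∀ z : List α →₀ ℤ, ∀ l, MR (Int.castAddHom (ZMod q)) z l = ((z l : ℤ) : ZMod q) :=
      fun _ _ => rfl
    have hstep : ∀ z ∈ Z, ∃ b ∈ B, ∃ y ∈ Z, z = b + (q : ℤ) • y := by
      rintro z ⟨hz, hbz⟩
      have hbz' : bdR ℤ z = 0 := hbz
      obtain ⟨c, hc, hcz⟩ := hac' (MR (Int.castAddHom (ZMod q)) z) (MR_supported _ hz) (by
        rw [← bdR_eq, bdR_MR, hbz', map_zero])
      let c2 : List α →₀ ℤ := Finsupp.mapRange (fun x : ZMod q => (x.val : ℤ)) (by simp) c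
      have hc2 : MR (Int.castAddHom (ZMod q)) c2 = c := by
        ext l
        rw [hcast]
        change (((c l).val : ℤ) : ZMod q) = c l
        simp
      have hc2s : c2 ∈ C := by
        change c2 ∈ Finsupp.supported ℤ ℤ st'
        rw [Finsupp.mem_supported]
        intro l hl
        have hc' : c ∈ Finsupp.supported (ZMod q) (ZMod q) st' := hc
        rw [Finsupp.mem_supported] at hc'
        apply hc'
        rw [Finset.mem_coe, Finsupp.mem_support_iff] at hl ⊢
        intro h0
        apply hl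
        change (((c l).val : ℕ) : ℤ) = 0
        rw [h0]
        simp
      set w : List α →₀ ℤ := z - bdR ℤ c2 with hw
      have hwdvd : ∀ l, (q : ℤ) ∣ w l := by
        intro l
        rw [← ZMod.intCast_zmod_eq_zero_iff_dvd, ← hcast, hw, map_sub, ← bdR_MR, hc2, bdR_eq, hcz,
          sub_self]
        rfl
      let y : List α →₀ ℤ := Finsupp.mapRange (fun x : ℤ => x / q) (by simp) w
      have hwy : w = (q : ℤ) • y := by
        ext l
        change w l = (q : ℤ) * (w l / q)
        rw [Int.mul_ediv_cancel' (hwdvd l)]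
      have hbw : bdR ℤ w = 0 := by
        have hbb : bdR ℤ (bdR ℤ c2) = 0 := by
          have hinj : Function.Injective (MR (α := α) (Int.castAddHom ℚ)) := by
            intro a b hab
            ext l
            have := DFunLike.congr_fun hab l
            rw [MR_apply, MR_apply] at this
            exact castZ_inj this
          apply hinj
          rw [← bdR_MR, ← bdR_MR, map_zero, bdR_eq, bdR_eq, bd_bd]
        rw [hw, map_sub, hbz', hbb, sub_zero]
      have hws : w ∈ C := by
        refine Submodule.sub_mem _ hz ?_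
        change bdR ℤ c2 ∈ Finsupp.supported ℤ ℤ st'
        rw [Finsupp.mem_supported]
        intro l hl
        have h4 : bd (MR (Int.castAddHom ℚ) c2) ∈ Sp ℚ (st S) := bd_st (MR_supported _ hc2s)
        rw [mem_Sp] at h4
        refine h4 l ?_
        rw [Finset.mem_coe, Finsupp.mem_support_iff] at hl
        rw [Finsupp.mem_support_iff, ← bdR_eq, bdR_MR, MR_apply]
        intro h5
        exact hl (castZ_inj (h5.trans (map_zero _).symm))
      refine ⟨bdR ℤ c2, ⟨c2, hc2s, rfl⟩, y, ⟨?_, ?_⟩, ?_⟩
      · change y ∈ Finsupp.supported ℤ ℤ st'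
        rw [Finsupp.mem_supported]
        intro l hl
        have hws' : w ∈ Finsupp.supported ℤ ℤ st' := hws
        rw [Finsupp.mem_supported] at hws'
        apply hws'
        rw [Finset.mem_coe, Finsupp.mem_support_iff] at hl ⊢
        intro h0
        apply hl
        change w l / q = 0
        rw [h0]
        simp
      · change bdR ℤ y = 0
        rw [hwy, map_smul] at hbw
        exact (smul_eq_zero.1 hbw).resolve_left (by exact_mod_cast hqp.ne_zero)
      · rw [← hwy, hw]
        abel
    -- Nakayama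
    have hnak := Submodule.exists_sub_one_mem_and_smul_eq_zero_of_fg_of_le_smul
      (Ideal.span {(q : ℤ)}) (Z.map B.mkQ) (hZfg.map _) (by
        rintro _ ⟨z, hz, rfl⟩
        obtain ⟨b, hb, y, hy, rfl⟩ := hstep z hz
        have hb0 : B.mkQ b = 0 := (Submodule.Quotient.mk_eq_zero B).2 hb
        rw [map_add, hb0, zero_add, map_smul]
        exact Submodule.smul_mem_smul (Ideal.mem_span_singleton_self _) ⟨y, hy, rfl⟩)
    obtain ⟨r, hr, hrz⟩ := hnak
    have hr0 : r ≠ 0 := by
      rintro rfl
      rw [Ideal.mem_span_singleton, zero_sub, dvd_neg] at hr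
      have : q ∣ 1 := by exact_mod_cast hr
      exact hqp.one_lt.ne' (Nat.dvd_one.1 this)
    intro z hz hb
    -- clear denominators
    let m : ℤ := ∏ l ∈ z.support, ((z l).den : ℤ)
    have hm0 : m ≠ 0 := Finset.prod_ne_zero_iff.2 fun l _ => by exact_mod_cast (z l).den_nz
    have hint : ∀ l, ∃ k : ℤ, (m : ℚ) * z l = k := by
      intro l
      by_cases hl : l ∈ z.support
      · have h1 : ((z l).den : ℤ) ∣ m := Finset.dvd_prod_of_mem (fun l => ((z l).den : ℤ)) hl
        obtain ⟨t, ht⟩ := h1
        refine ⟨t * (z l).num, ?_⟩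
        rw [ht]
        push_cast
        have h2 : ((z l).den : ℚ) * z l = (z l).num := by
          rw [mul_comm]; exact Rat.mul_den_eq_num _
        calc ((z l).den : ℚ) * t * z l = t * (((z l).den : ℚ) * z l) := by ring
          _ = t * (z l).num := by rw [h2]
      · rw [Finsupp.notMem_support_iff] at hl
        exact ⟨0, by rw [hl]; simp⟩
    choose k hk using hint
    have hk0 : ∀ l, k l ≠ 0 → l ∈ z.support := by
      intro l hl
      rw [Finsupp.mem_support_iff]
      intro h0
      apply hl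
      have := hk l
      rw [h0, mul_zero] at this
      exact_mod_cast this.symm
    let zi : List α →₀ ℤ := Finsupp.onFinset z.support k hk0
    have hzi : MR (Int.castAddHom ℚ) zi = (m : ℚ) • z := by
      ext l
      change ((k l : ℤ) : ℚ) = m * z l
      rw [hk]
    have hziZ : zi ∈ Z := by
      refine ⟨?_, ?_⟩
      · change zi ∈ Finsupp.supported ℤ ℤ st'
        rw [Finsupp.mem_supported]
        intro l hl
        rw [Finset.mem_coe, Finsupp.mem_support_iff] at hl
        exact (mem_Sp.1 hz) l (hk0 l hl)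
      · change bdR ℤ zi = 0
        ext l
        have h1 : MR (Int.castAddHom ℚ) (bdR ℤ zi) l = 0 := by
          rw [← bdR_MR, hzi, bdR_eq, map_smul, hb, smul_zero]
          rfl
        rw [MR_apply] at h1
        exact castZ_inj (h1.trans (map_zero _).symm)
    have h2 := hrz _ ⟨zi, hziZ, rfl⟩
    rw [← map_smul, Submodule.mkQ_apply, Submodule.Quotient.mk_eq_zero] at h2
    obtain ⟨c, hc, hcz⟩ := h2
    have hrm : (r : ℚ) * m ≠ 0 := mul_ne_zero (by exact_mod_cast hr0) (by exact_mod_cast hm0)
    refine ⟨((r : ℚ) * m)⁻¹ • MR (Int.castAddHom ℚ) c,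
      Submodule.smul_mem _ _ (MR_supported _ hc), ?_⟩
    rw [map_smul, ← bdR_eq, bdR_MR, hcz]
    have h3 : MR (Int.castAddHom ℚ) (r • zi) = (r : ℚ) • MR (Int.castAddHom ℚ) zi := by
      ext l
      change (((r • zi) l : ℤ) : ℚ) = (r : ℚ) * ((zi l : ℤ) : ℚ)
      rw [Finsupp.smul_apply, smul_eq_mul]
      push_cast
      ring
    rw [h3, hzi, smul_smul, smul_smul, mul_assoc, inv_mul_cancel₀ hrm, one_smul]

end

end Vale.Agent.P240.K
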