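import Vale.Agent.P240.K.Family
import Vale.Agent.P240.K.UCT
import Vale.Agent.P240.K.S1

namespace Vale.Agent.P240.K

open Finsupp Subgroup

variable {𝕜 : Type*} [Field 𝕜]

universe u

section
variable {G : Type*} [Group G] {p : ℕ}

lemma mem_Rest {F D : Set (Subgroup G)} {x : G} :
    x ∈ Rest F D ↔ ∀ M ∈ F, M ∉ D → x ∈ centralizer (M : Set G) := by
  rw [Rest, mem_iInf]
  constructor
  · intro h M hM hMD
    have := h M
    rw [mem_iInf] at this
    exact this ⟨hM, hMD⟩
  · intro h M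
    rw [mem_iInf]
    rintro ⟨h1, h2⟩
    exact h M h1 h2

lemma le_Rest {F D : Set (Subgroup G)} {E : Subgroup G}
    (h : ∀ M ∈ F, M ∉ D → E ≤ centralizer (M : Set G)) : E ≤ Rest F D :=
  fun _ hx => mem_Rest.2 fun M h1 h2 => h M h1 h2 hx

lemma cj_mul_mem {g x : G} {L : Subgroup G} (hx : x ∈ L) : g * x * g⁻¹ ∈ cj g L := by
  rw [mem_cj]
  have : g⁻¹ * (g * x * g⁻¹) * g = x := by group
  rwa [this]

lemma mem_of_comm {H : Subgroup G} {x : G} (h : ∀ y ∈ H, x * y = y * x) :
    x ∈ normalizer (H : Set G) := by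
  rw [mem_normalizer_iff]
  intro y
  constructor
  · intro hy
    rw [h y hy, mul_assoc, mul_inv_cancel, mul_one]
    exact hy
  · intro hy
    have h3 := h _ hy
    have h4 : y = x * y * x⁻¹ := by
      have h5 : x * (x * y * x⁻¹) = x * y := by rw [h3]; group
      exact (mul_left_cancel h5).symm
    rw [h4]
    exact hy

end

end Vale.Agent.P240.K
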