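import Vale.Agent.P240.K.Weights3
import Vale.Agent.P240.K.Free

namespace Vale.Agent.P240.K

open Subgroup

universe u

lemma elem_closure {W : Type*} [Group W] {p : ℕ} {E : Set W}
    (hc : ∀ x ∈ E, ∀ y ∈ E, x * y = y * x) (hp : ∀ x ∈ E, x ^ p = 1) :
    (∀ x ∈ closure E, ∀ y ∈ closure E, x * y = y * x) ∧ ∀ x ∈ closure E, x ^ p = 1 := by
  have h1 : ∀ x ∈ closure E, ∀ y ∈ closure E, x * y = y * x := by
    have h2 : closure E ≤ centralizer E := by
      rw [closure_le]
      intro x hx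
      rw [SetLike.mem_coe, mem_centralizer_iff]
      intro y hy
      exact hc y hy x hx
    have h3 : closure E ≤ centralizer (closure E : Set W) := by
      rw [closure_le]
      intro x hx
      rw [SetLike.mem_coe, mem_centralizer_iff]
      intro y hy
      exact ((mem_centralizer_iff.1 (h2 hy)) x hx).symm
    intro x hx y hy
    exact ((mem_centralizer_iff.1 (h3 hx)) y hy).symm
  refine ⟨h1, ?_⟩
  intro x hx
  induction hx using closure_induction with
  | mem x hx => exact hp x hx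
  | one => exact one_pow _
  | mul x y hx hy h2 h3 =>
    have : Commute x y := h1 x hx y hy
    rw [this.mul_pow, h2, h3, one_mul]
  | inv x _ h2 => rw [inv_pow, h2, inv_one]

section
variable {G : Type u} [Group G] {p : ℕ}

/-- the elementary abelian Sylow subgroup -/
lemma exists_elem_sylow [hp : Fact p.Prime] [Finite G] {D Q : Subgroup G}
    (hn : ∀ x ∈ D, ∀ q ∈ Q, x * q * x⁻¹ ∈ Q) (hpQ : ¬ p ∣ Nat.card Q)
    (hcomm : ∀ x ∈ D, ∀ y ∈ D, x ^ p = 1 → y ^ p = 1 → x * y * x⁻¹ * y⁻¹ ∈ Q) :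
    ∃ P ≤ D, (∀ x ∈ P, ∀ y ∈ P, x * y = y * x) ∧ (∀ x ∈ P, x ^ p = 1) ∧
      ∀ X ≤ D, (∀ x ∈ X, x ^ p = 1) → ∃ q ∈ Q, ∀ x ∈ X, q⁻¹ * x * q ∈ P := by
  have hN : (Q.subgroupOf D).Normal := by
    refine ⟨fun m hm x => ?_⟩
    rw [mem_subgroupOf] at hm ⊢
    exact hn x x.2 m hm
  set π : D →* D ⧸ Q.subgroupOf D := QuotientGroup.mk' _ with hπ
  have hπ1 : ∀ x : D, π x = 1 ↔ (x : G) ∈ Q := by
    intro x
    change ((x : D ⧸ Q.subgroupOf D) = 1) ↔ _
    rw [QuotientGroup.eq_one_iff, mem_subgroupOf]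
  set E : Set (D ⧸ Q.subgroupOf D) := {w | ∃ x : D, x ^ p = 1 ∧ π x = w} with hE
  obtain ⟨hCc, hCp⟩ := elem_closure (p := p) (E := E) (by
    rintro _ ⟨x, hx, rfl⟩ _ ⟨y, hy, rfl⟩
    have h1 : π (x * y * x⁻¹ * y⁻¹) = 1 := by
      rw [hπ1]
      push_cast
      exact hcomm x x.2 y y.2 (by exact_mod_cast congrArg Subtype.val hx)
        (by exact_mod_cast congrArg Subtype.val hy)
    rw [map_mul, map_mul, map_mul, map_inv, map_inv] at h1
    have h2 := mul_inv_eq_one.1 h1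
    exact mul_inv_eq_iff_eq_mul.1 h2) (by
    rintro _ ⟨x, hx, rfl⟩
    rw [← map_pow, hx, map_one])
  set K : Subgroup D := (closure E).comap π with hK
  let P' : Sylow p K := default
  -- the intersection with `Q` is trivial
  have hint : ∀ z : K, z ∈ (P' : Subgroup K) → (((z : D) : G) ∈ Q) → z = 1 := by
    intro z hz hzQ
    obtain ⟨k, hk⟩ := P'.isPGroup' ⟨z, hz⟩
    have h1 : z ^ p ^ k = 1 := congrArg Subtype.val hk
    have h2 : ((z : D) : G) ^ p ^ k = 1 := by
      have := congrArg (fun z : K => ((z : D) : G)) h1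
      simpa using this
    have h3 : orderOf ((z : D) : G) ∣ p ^ k := orderOf_dvd_of_pow_eq_one h2
    have h4 : orderOf ((z : D) : G) ∣ Nat.card Q := by
      have := orderOf_dvd_natCard (⟨((z : D) : G), hzQ⟩ : Q)
      rwa [← orderOf_coe] at this
    have h5 : Nat.Coprime (p ^ k) (Nat.card Q) :=
      Nat.Coprime.pow_left k ((Nat.Prime.coprime_iff_not_dvd hp.out).2 hpQ)
    have h6 := orderOf_eq_one_iff.1 (Nat.eq_one_of_dvd_coprimes h5 h3 h4)
    exact Subtype.ext (Subtype.ext h6)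
  let j : K →* G := D.subtype.comp K.subtype
  refine ⟨(P' : Subgroup K).map j, ?_, ?_, ?_, ?_⟩
  · rintro _ ⟨x, _, rfl⟩
    exact (x : D).2
  · rintro _ ⟨x, hx, rfl⟩ _ ⟨y, hy, rfl⟩
    have h1 : x * y * x⁻¹ * y⁻¹ = 1 := by
      refine hint _ (mul_mem (mul_mem (mul_mem hx hy) (inv_mem hx)) (inv_mem hy)) ?_
      rw [← hπ1]
      have h2 := hCc (π x) x.2 (π y) y.2
      push_cast
      rw [map_mul, map_mul, map_mul, map_inv, map_inv, h2, mul_inv_cancel_right, mul_inv_cancel]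
    have h3 := mul_inv_eq_iff_eq_mul.1 (mul_inv_eq_one.1 h1)
    rw [← map_mul, ← map_mul, h3]
  · rintro _ ⟨x, hx, rfl⟩
    have h1 : x ^ p = 1 := by
      refine hint _ (pow_mem hx p) ?_
      rw [← hπ1]
      push_cast
      rw [map_pow]
      exact hCp _ x.2
    rw [← map_pow, h1, map_one]
  · intro X hXD hXp
    have hmem : ∀ x (hx : x ∈ X), (⟨x, hXD hx⟩ : D) ∈ K := by
      intro x hx
      refine subset_closure ⟨⟨x, hXD hx⟩, ?_, rfl⟩
      exact Subtype.ext (hXp x hx)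
    have hXK : IsPGroup p (X.comap j) := by
      intro x
      refine ⟨1, ?_⟩
      rw [pow_one]
      apply Subtype.ext
      apply Subtype.ext
      apply Subtype.ext
      have := hXp _ x.2
      simpa [j] using this
    obtain ⟨S, hS⟩ := hXK.exists_le_sylow
    obtain ⟨g, hg⟩ := MulAction.exists_smul_eq K P' S
    -- decomposition of `g`
    have hsurj : Function.Surjective (π.subgroupComap (closure E)) := by
      rintro ⟨w, hw⟩
      obtain ⟨x, rfl⟩ := QuotientGroup.mk'_surjective _ w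
      exact ⟨⟨x, hw⟩, rfl⟩
    have htop : (Sylow.mapSurjective hsurj P' : Subgroup (closure E)) = ⊤ := by
      refine ((Sylow.mapSurjective hsurj P').is_maximal' (Q := ⊤) ?_ le_top).symm
      intro w
      exact ⟨1, by rw [pow_one]; apply Subtype.ext; apply Subtype.ext; exact hCp _ w.1.2⟩
    have h1 : (π.subgroupComap (closure E)) g ∈
        (Sylow.mapSurjective hsurj P' : Subgroup (closure E)) := by rw [htop]; trivial
    rw [Sylow.coe_mapSurjective] at h1
    obtain ⟨y, hy, hyg⟩ := h1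
    have h2 : (((g * y⁻¹ : K) : D) : G) ∈ Q := by
      rw [← hπ1]
      have h3 : π (y : D) = π (g : D) := congrArg Subtype.val hyg
      push_cast
      rw [map_mul, map_inv, h3, mul_inv_cancel]
    refine ⟨_, h2, ?_⟩
    intro x hx
    have h3 : (⟨⟨x, hXD hx⟩, hmem x hx⟩ : K) ∈ (S : Subgroup K) := hS hx
    rw [← hg] at h3
    have h4 : g⁻¹ * (⟨⟨x, hXD hx⟩, hmem x hx⟩ : K) * g ∈ (P' : Subgroup K) := by
      rw [Sylow.coe_subgroup_smul] at h3
      obtain ⟨z, hz, hzx⟩ := h3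
      have h5 : (⟨⟨x, hXD hx⟩, hmem x hx⟩ : K) = g * z * g⁻¹ := hzx.symm
      rw [h5]
      have h6 : g⁻¹ * (g * z * g⁻¹) * g = z := by group
      rw [h6]
      exact hz
    refine ⟨y * (g⁻¹ * (⟨⟨x, hXD hx⟩, hmem x hx⟩ : K) * g) * y⁻¹,
      mul_mem (mul_mem hy h4) (inv_mem hy), ?_⟩
    simp only [j, MonoidHom.comp_apply, Subgroup.coe_subtype]
    push_cast
    group

end

end Vale.Agent.P240.K
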