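import Vale.Agent.P240.K.Count

namespace Vale.Agent.P240.K

open Subgroup

universe u

section
variable {G : Type u} [Group G] {p : ℕ}

/-- conjugation is an order isomorphism -/
def cjIso (g : G) : Subgroup G ≃o Subgroup G where
  toFun := cj g
  invFun := cj g⁻¹
  left_inv E := by rw [← cj_mul, inv_mul_cancel, cj_one]
  right_inv E := by rw [← cj_mul, mul_inv_cancel, cj_one]
  map_rel_iff' := cj_le

lemma cj_mem_ApS {g : G} {E : Subgroup G} : cj g E ∈ ApS p G ↔ E ∈ ApS p G :=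
  map_mem_ApS (f := (MulAut.conj g).toMonoidHom) (MulAut.conj g).injective

open Classical in
/-- the Möbius function -/
noncomputable def mb (p : ℕ) (F : Subgroup G) : ℤ :=
  if F = ⊥ then 1 else - eu {Y | Y ∈ ApS p G ∧ Y < F}

lemma mb_cj (q : G) (F : Subgroup G) : mb p (cj q F) = mb p F := by
  have h1 : cj q F = ⊥ ↔ F = ⊥ := by
    have hb : cj q (⊥ : Subgroup G) = ⊥ := by
      rw [cj, Subgroup.map_bot]
    constructor
    · intro h
      exact cj_injective q (h.trans hb.symm)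
    · rintro rfl
      exact hb
  have h2 : {Y | Y ∈ ApS p G ∧ Y < cj q F} = cjIso q '' {Y | Y ∈ ApS p G ∧ Y < F} := by
    ext Y
    constructor
    · rintro ⟨hY1, hY2⟩
      refine ⟨cj q⁻¹ Y, ⟨cj_mem_ApS.2 hY1, ?_⟩, ?_⟩
      · rw [← cj_lt (g := q), ← cj_mul, mul_inv_cancel, cj_one]
        exact hY2
      · change cj q (cj q⁻¹ Y) = Y
        rw [← cj_mul, mul_inv_cancel, cj_one]
    · rintro ⟨Z, ⟨hZ1, hZ2⟩, rfl⟩
      exact ⟨cj_mem_ApS.2 hZ1, cj_lt.2 hZ2⟩
  unfold mb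
  rw [h2, eu_image]
  by_cases h : F = ⊥
  · rw [if_pos h, if_pos (h1.2 h)]
  · rw [if_neg h, if_neg fun h' => h (h1.1 h')]

lemma mb_of_mem {F : Subgroup G} (hF : F ∈ ApS p G) :
    mb p F = - eu {Y | Y ∈ ApS p G ∧ Y < F} := by
  unfold mb
  rw [if_neg hF.1]

lemma sum_mb [Finite G] {E : Subgroup G} (hE : E ∈ ApS p G) : ∑ F ∈ subs E, mb p F = 0 := by
  classical
  have hfin : {Y | Y ∈ ApS p G ∧ Y ≤ E}.Finite := Set.toFinite _
  have h1 : subs E = insert ⊥ hfin.toFinset := by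
    ext F
    rw [mem_subs, Finset.mem_insert, Set.Finite.mem_toFinset]
    constructor
    · intro h
      by_cases hb : F = ⊥
      · exact Or.inl hb
      · exact Or.inr ⟨mem_ApS_of_le hE h hb, h⟩
    · rintro (rfl | h)
      · exact bot_le
      · exact h.2
  have h2 : (⊥ : Subgroup G) ∉ hfin.toFinset := by
    rw [Set.Finite.mem_toFinset]
    exact fun h => h.1.1 rfl
  rw [h1, Finset.sum_insert h2]
  have h3 : ∀ F ∈ hfin.toFinset, mb p F =
      - eu {Y | Y ∈ {Y | Y ∈ ApS p G ∧ Y ≤ E} ∧ Y < F} := by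
    intro F hF
    rw [Set.Finite.mem_toFinset] at hF
    rw [mb_of_mem hF.1]
    congr 2
    ext Y
    exact ⟨fun h => ⟨⟨h.1, h.2.le.trans hF.2⟩, h.2⟩, fun h => ⟨h.1.1, h.2⟩⟩
  rw [Finset.sum_congr rfl h3, Finset.sum_neg_distrib]
  have h4 := eu_rec hfin
  rw [eu_top hfin (m := E) ⟨hE, le_rfl⟩ fun x hx => hx.2] at h4
  have h5 : mb p (⊥ : Subgroup G) = 1 := by unfold mb; rw [if_pos rfl]
  rw [h5]
  linarith

/-- the number of conjugates under a `p'`-subgroup -/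
lemma card_orb [Finite G] {Q F : Subgroup G} (hn : ∀ x ∈ F, ∀ q ∈ Q, x * q * x⁻¹ ∈ Q)
    (hFQ : ∀ x ∈ F, x ∈ Q → x = 1) :
    Nat.card {X | ∃ q ∈ Q, X = cj q F} *
      Nat.card (Q ⊓ centralizer (F : Set G) : Subgroup G) = Nat.card Q := by
  let act : MulAction Q (Subgroup G) :=
    { smul := fun q X => cj (q : G) X
      one_smul := fun X => cj_one X
      mul_smul := fun a b X => cj_mul (a : G) b X }
  have h1 := MulAction.index_stabilizer Q F
  have h2 := (MulAction.stabilizer Q F).card_mul_index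
  have h3 : MulAction.orbit Q F = {X | ∃ q ∈ Q, X = cj q F} := by
    ext X
    constructor
    · rintro ⟨q, rfl⟩
      exact ⟨q, q.2, rfl⟩
    · rintro ⟨q, hq, rfl⟩
      exact ⟨⟨q, hq⟩, rfl⟩
  have h4 : Nat.card (MulAction.stabilizer Q F) =
      Nat.card (Q ⊓ centralizer (F : Set G) : Subgroup G) := by
    refine Nat.card_congr
      { toFun := fun q => ⟨q.1.1, q.1.2, ?_⟩
        invFun := fun q => ⟨⟨q.1, q.2.1⟩, ?_⟩
        left_inv := fun _ => rfl
        right_inv := fun _ => rfl }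
    · have h5 : cj (q.1 : G) F = F := q.2
      change (q.1 : G) ∈ centralizer (F : Set G)
      rw [mem_centralizer_iff]
      intro f hf
      have h6 : (q.1 : G) * f * (q.1 : G)⁻¹ ∈ F := by
        have := (mem_normalizer_iff.1 (cj_eq_iff.1 h5) f).1 hf
        exact this
      have h7 : (q.1 : G) * f * (q.1 : G)⁻¹ * f⁻¹ = 1 := by
        refine hFQ _ (mul_mem h6 (inv_mem hf)) ?_
        have h8 := hn f hf _ (inv_mem q.1.2)
        have h9 : (q.1 : G) * f * (q.1 : G)⁻¹ * f⁻¹ = q.1 * (f * (q.1 : G)⁻¹ * f⁻¹) := by group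
        rw [h9]
        exact mul_mem q.1.2 h8
      exact (mul_inv_eq_iff_eq_mul.1 (mul_inv_eq_one.1 h7)).symm
    · change cj (q.1 : G) F = F
      rw [cj_eq_iff]
      refine mem_of_comm ?_
      intro f hf
      exact (mem_centralizer_iff.1 q.2.2 f hf).symm
  rw [h1, h3, h4] at h2
  rw [← h2, mul_comm]
  rfl

/-- **Non-vanishing** of the reduced Euler characteristic, with its sign. -/
theorem eu_pos [hp : Fact p.Prime] [Finite G] {D Q : Subgroup G}
    (hn : ∀ x ∈ D, ∀ q ∈ Q, x * q * x⁻¹ ∈ Q) (hQD : Q ≤ D) (hsol : Group.IsSolvable Q)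
    (hpQ : ¬ p ∣ Nat.card Q)
    (hcomm : ∀ x ∈ D, ∀ y ∈ D, x ^ p = 1 → y ^ p = 1 → x * y * x⁻¹ * y⁻¹ ∈ Q)
    (hfaith : ∀ x ∈ D, x ^ p = 1 → (∀ q ∈ Q, x * q = q * x) → x = 1) :
    ∃ P ≤ D, (∀ x ∈ P, x ^ p = 1) ∧
      (∀ X ≤ D, (∀ x ∈ X, x ^ p = 1) → ∃ q ∈ Q, ∀ x ∈ X, q⁻¹ * x * q ∈ P) ∧
      ∀ m, Nat.card P = p ^ m → 0 < (-1 : ℤ) ^ m * eu (Ain p D) := by
  classical
  obtain ⟨P, hPD, hPc, hPp, hconj⟩ := exists_elem_sylow hn hpQ hcomm
  obtain ⟨Λ, hΛ, hw⟩ := exists_weights hPc hPp _ Q rfl hsol hpQ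
    (fun x hx => hn x (hPD hx))
  have hPQ : ∀ x ∈ P, x ∈ Q → x = 1 := by
    intro x hx hxQ
    rw [← orderOf_eq_one_iff]
    have h1 : orderOf x ∣ p := orderOf_dvd_of_pow_eq_one (hPp x hx)
    have h2 : orderOf x ∣ Nat.card Q := by
      have := orderOf_dvd_natCard (⟨x, hxQ⟩ : Q)
      rwa [← orderOf_coe] at this
    rcases (Nat.dvd_prime hp.out).1 h1 with h | h
    · exact h
    · rw [h] at h2
      exact absurd h2 hpQ
  have hPA : ∀ F ≤ P, F ≠ ⊥ → F ∈ ApS p G := fun F hF hne =>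
    ⟨hne, fun x hx y hy => hPc x (hF hx) y (hF hy), fun x hx => hPp x (hF hx)⟩
  have hS : (Ain p D).Finite := Set.toFinite _
  -- the sum over all elements
  have e1 : eu (Ain p D) = 1 + ∑ X ∈ hS.toFinset, mb p X := by
    rw [eu_rec hS]
    have h3 : ∀ X ∈ hS.toFinset, eu {Y | Y ∈ Ain p D ∧ Y < X} = - mb p X := by
      intro X hX
      rw [Set.Finite.mem_toFinset] at hX
      rw [mb_of_mem hX.1, neg_neg]
      congr 1
      ext Y
      exact ⟨fun h => ⟨h.1.1, h.2⟩, fun h => ⟨⟨h.1, h.2.le.trans hX.2⟩, h.2⟩⟩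
    rw [Finset.sum_congr rfl h3, Finset.sum_neg_distrib]
    ring
  -- the fibres
  let orb : Subgroup G → Finset (Subgroup G) := fun F =>
    (Set.toFinite {X | ∃ q ∈ Q, X = cj q F}).toFinset
  have e2 : hS.toFinset = ((subs P).erase ⊥).biUnion orb := by
    ext X
    rw [Set.Finite.mem_toFinset, Finset.mem_biUnion]
    constructor
    · intro hX
      obtain ⟨q, hq, hqX⟩ := hconj X hX.2 hX.1.2.2
      refine ⟨cj q⁻¹ X, ?_, ?_⟩
      · rw [Finset.mem_erase, mem_subs]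
        refine ⟨(cj_mem_ApS (p := p).2 hX.1).1, ?_⟩
        intro y hy
        rw [mem_cj, inv_inv] at hy
        have h3 := hqX _ hy
        have h4 : q⁻¹ * (q * y * q⁻¹) * q = y := by group
        rwa [h4] at h3
      · rw [Set.Finite.mem_toFinset]
        refine ⟨q, hq, ?_⟩
        rw [← cj_mul, mul_inv_cancel, cj_one]
    · rintro ⟨F, hF, hX⟩
      rw [Finset.mem_erase, mem_subs] at hF
      rw [Set.Finite.mem_toFinset] at hX
      obtain ⟨q, hq, rfl⟩ := hX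
      exact cj_mem_Ain (hQD hq) ⟨hPA F hF.2 hF.1, hF.2.trans hPD⟩
  have e3 : ((((subs P).erase ⊥ : Finset (Subgroup G)) : Set (Subgroup G))).PairwiseDisjoint
      orb := by
    intro F hF F' hF' hne
    rw [Finset.mem_coe, Finset.mem_erase, mem_subs] at hF hF'
    change Disjoint (orb F) (orb F')
    rw [Finset.disjoint_left]
    intro X hX hX'
    rw [Set.Finite.mem_toFinset] at hX hX'
    obtain ⟨q, hq, rfl⟩ := hX
    obtain ⟨q', hq', hX'⟩ := hX'
    apply hne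
    have key : ∀ q ∈ Q, ∀ A ≤ P, ∀ B ≤ P, cj q A = B → A ≤ B := by
      rintro q hq A hA B hB rfl x hx
      have h3 : q * x * q⁻¹ ∈ cj q A := cj_mul_mem hx
      have h4 : q * x * q⁻¹ * x⁻¹ = 1 := by
        refine hPQ _ (mul_mem (hB h3) (inv_mem (hA hx))) ?_
        have h5 : q * x * q⁻¹ * x⁻¹ = q * (x * q⁻¹ * x⁻¹) := by group
        rw [h5]
        exact mul_mem hq (hn x (hPD (hA hx)) _ (inv_mem hq))
      rwa [mul_inv_eq_one.1 h4] at h3
    have h6 : cj (q'⁻¹ * q) F = F' := by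
      rw [cj_mul, hX', ← cj_mul, inv_mul_cancel, cj_one]
    have h7 : cj (q⁻¹ * q') F' = F := by
      rw [cj_mul, ← hX', ← cj_mul, inv_mul_cancel, cj_one]
    exact le_antisymm (key _ (mul_mem (inv_mem hq') hq) F hF.2 F' hF'.2 h6)
      (key _ (mul_mem (inv_mem hq) hq') F' hF'.2 F hF.2 h7)
  have e4 : ∀ F ∈ (subs P).erase ⊥, ∑ X ∈ orb F, mb p X = mb p F * wt Λ F := by
    intro F hF
    rw [Finset.mem_erase, mem_subs] at hF
    have h3 : ∀ X ∈ orb F, mb p X = mb p F := by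
      intro X hX
      rw [Set.Finite.mem_toFinset] at hX
      obtain ⟨q, _, rfl⟩ := hX
      exact mb_cj q F
    rw [Finset.sum_congr rfl h3, Finset.sum_const, nsmul_eq_mul]
    have h4 := card_orb (Q := Q) (F := F) (fun x hx => hn x (hPD (hF.2 hx)))
      (fun x hx => hPQ x (hF.2 hx))
    have h5 := hw F hF.2
    have h6 : ((orb F).card : ℤ) = wt Λ F := by
      have h7 : Nat.card {X | ∃ q ∈ Q, X = cj q F} = (orb F).card :=
        Nat.card_eq_card_finite_toFinset _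
      have h8 : (Nat.card (Q ⊓ centralizer (F : Set G) : Subgroup G) : ℤ) ≠ 0 := by
        exact_mod_cast Nat.card_pos.ne'
      apply mul_left_cancel₀ h8
      rw [← h5, ← h4, h7]
      push_cast
      ring
    rw [h6]
    ring
  have e5 : eu (Ain p D) = ∑ F ∈ subs P, mb p F * wt Λ F := by
    rw [e1, e2, Finset.sum_biUnion e3, Finset.sum_congr rfl e4]
    have h3 : (⊥ : Subgroup G) ∈ subs P := mem_subs.2 bot_le
    rw [← Finset.add_sum_erase _ _ h3]
    congr 1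
    have h4 : wt Λ (⊥ : Subgroup G) = 1 := by
      unfold wt
      apply List.prod_eq_one
      intro x hx
      obtain ⟨a, _, rfl⟩ := List.mem_map.1 hx
      rw [if_pos bot_le]
    rw [h4, mb, if_pos rfl, mul_one]
  refine ⟨P, hPD, hPp, hconj, fun m hm => ?_⟩
  rw [e5]
  refine (weights_pos (P := P) (mb p) (by rw [mb, if_pos rfl])
    (fun E hE hne => sum_mb (hPA E hE hne)) Λ hΛ P le_rfl m hm).2 ?_
  · intro x hx hxΛ
    refine hfaith x (hPD hx) (hPp x hx) ?_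
    have h4 : zpowers x ≤ P := zpowers_le.2 hx
    have h5 := hw _ h4
    have h6 : wt Λ (zpowers x) = 1 := by
      unfold wt
      apply List.prod_eq_one
      intro y hy
      obtain ⟨a, ha, rfl⟩ := List.mem_map.1 hy
      rw [if_pos (zpowers_le.2 (hxΛ a ha))]
    rw [h6, mul_one] at h5
    have h7 : Nat.card Q = Nat.card (Q ⊓ centralizer (zpowers x : Set G) : Subgroup G) := by
      exact_mod_cast h5
    have h8 : Q ⊓ centralizer (zpowers x : Set G) = Q :=
      Subgroup.eq_of_le_of_card_ge inf_le_left h7.le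
    intro q hq
    rw [← h8] at hq
    exact mem_centralizer_iff.1 hq.2 x (mem_zpowers x)

/-- **Non-vanishing** of the reduced Euler characteristic. -/
theorem eu_ne_zero [hp : Fact p.Prime] [Finite G] {D Q : Subgroup G}
    (hn : ∀ x ∈ D, ∀ q ∈ Q, x * q * x⁻¹ ∈ Q) (hQD : Q ≤ D) (hsol : Group.IsSolvable Q)
    (hpQ : ¬ p ∣ Nat.card Q)
    (hcomm : ∀ x ∈ D, ∀ y ∈ D, x ^ p = 1 → y ^ p = 1 → x * y * x⁻¹ * y⁻¹ ∈ Q)
    (hfaith : ∀ x ∈ D, x ^ p = 1 → (∀ q ∈ Q, x * q = q * x) → x = 1) :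
    eu (Ain p D) ≠ 0 := by
  obtain ⟨P, hPD, hPp, _, h⟩ := eu_pos hn hQD hsol hpQ hcomm hfaith
  have hPg : IsPGroup p P := fun x => ⟨1, by
    rw [pow_one]
    exact Subtype.ext (hPp x x.2)⟩
  obtain ⟨m, hm⟩ := IsPGroup.iff_card.1 hPg
  have h3 := h m hm
  intro h0
  rw [h0, mul_zero] at h3
  exact lt_irrefl _ h3

end

end Vale.Agent.P240.K
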