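import Vale.Agent.P240.K.S1

namespace Vale.Agent.P240.K

open Finsupp Subgroup

variable {𝕜 : Type*} [Field 𝕜] {G : Type*} [Group G] {p : ℕ}

lemma acyclic_of_normal' [Fact p.Prime] (hchar : (p : 𝕜) = 0) [Finite G] {H H1 : Subgroup G}
    (hle : H ≤ H1) (hn : (H.subgroupOf H1).Normal) (hac : ¬ NA 𝕜 (Ain p H)) :
    ¬ NA 𝕜 (Ain p H1) := by
  rw [← HQ_sub_iff, HQ_iff]
  refine acyclic_of_normal hchar (N := H.subgroupOf H1) ?_
  rw [← NA_Ain_map H1.subtype_injective, Subgroup.map_subgroupOf_eq_of_le hle]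
  exact hac

/-- If `W / M` is a `p`-group and `M ≤ H ≤ W`, acyclicity passes from `H` to `W`. -/
theorem acyclic_of_pquot [hp : Fact p.Prime] (hchar : (p : 𝕜) = 0) [Finite G] {M : Subgroup G}
    [hM : M.Normal] (hq : ∀ g : G, ∃ k : ℕ, g ^ p ^ k ∈ M) {H : Subgroup G} (hMH : M ≤ H)
    (hac : ¬ NA 𝕜 (Ain p H)) : ¬ NA 𝕜 (ApS p G) := by
  have hpg : IsPGroup p (G ⧸ M) := by
    intro x
    obtain ⟨g, rfl⟩ := QuotientGroup.mk_surjective x
    obtain ⟨k, hk⟩ := hq g
    refine ⟨k, ?_⟩
    rw [← QuotientGroup.mk_pow, QuotientGroup.eq_one_iff]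
    exact hk
  have hnil : Group.IsNilpotent (G ⧸ M) := hpg.isNilpotent
  have hnc : NormalizerCondition (G ⧸ M) := Group.normalizerCondition_of_isNilpotent
  have key : ∀ n : ℕ, ∀ H : Subgroup G, M ≤ H → Nat.card G - Nat.card H ≤ n →
      ¬ NA 𝕜 (Ain p H) → ¬ NA 𝕜 (ApS p G) := by
    intro n
    induction n with
    | zero =>
      intro H _ hn hac
      have h1 : Nat.card H = Nat.card G := le_antisymm (Subgroup.card_le_card_group H) (by omega)
      have h2 : H = ⊤ := Subgroup.eq_top_of_card_eq H h1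
      subst h2
      have : Ain p (⊤ : Subgroup G) = ApS p G := by
        ext E
        exact ⟨fun h => h.1, fun h => ⟨h, le_top⟩⟩
      rwa [this] at hac
    | succ n ih =>
      intro H hMH hn hac
      by_cases htop : H = ⊤
      · subst htop
        have : Ain p (⊤ : Subgroup G) = ApS p G := by
          ext E
          exact ⟨fun h => h.1, fun h => ⟨h, le_top⟩⟩
        rwa [this] at hac
      · have hker : (QuotientGroup.mk' M).ker ≤ H := by rw [QuotientGroup.ker_mk']; exact hMH
        have hsurj : Function.Surjective (QuotientGroup.mk' M) := QuotientGroup.mk'_surjective M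
        have hcm : (H.map (QuotientGroup.mk' M)).comap (QuotientGroup.mk' M) = H :=
          Subgroup.comap_map_eq_self hker
        have hlt : H.map (QuotientGroup.mk' M) < ⊤ := by
          rw [lt_top_iff_ne_top]
          intro h
          apply htop
          rw [← hcm, h, Subgroup.comap_top]
        have h1 := hnc _ hlt
        have h2 : (normalizer ((H.map (QuotientGroup.mk' M) : Subgroup (G ⧸ M)) : Set (G ⧸ M))).comap
            (QuotientGroup.mk' M) = normalizer (H : Set G) := by
          rw [Subgroup.comap_normalizer_eq_of_surjective _ hsurj, hcm]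
        have h3 : H < normalizer (H : Set G) := by
          refine lt_of_le_of_ne Subgroup.le_normalizer fun h => ?_
          apply h1.ne
          rw [← Subgroup.map_comap_eq_self_of_surjective hsurj
            (normalizer ((H.map (QuotientGroup.mk' M) : Subgroup (G ⧸ M)) : Set (G ⧸ M))), h2, ← h]
        have hcard : Nat.card H < Nat.card (normalizer (H : Set G)) := by
          have hss : (H : Set G) ⊂ ((normalizer (H : Set G) : Subgroup G) : Set G) := h3
          exact Set.ncard_lt_ncard hss (Set.toFinite _)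
        have hcard2 : Nat.card (normalizer (H : Set G)) ≤ Nat.card G :=
          Subgroup.card_le_card_group _
        exact ih _ (hMH.trans h3.le) (by omega)
          (acyclic_of_normal' hchar h3.le Subgroup.normal_in_normalizer hac)
  exact key _ H hMH le_rfl hac

/-- relative version -/
theorem acyclic_of_pquot' [hp : Fact p.Prime] (hchar : (p : 𝕜) = 0) [Finite G]
    {M H W : Subgroup G} (hMH : M ≤ H) (hHW : H ≤ W) (hM : (M.subgroupOf W).Normal)
    (hq : ∀ g ∈ W, ∃ k : ℕ, g ^ p ^ k ∈ M) (hac : ¬ NA 𝕜 (Ain p H)) :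
    ¬ NA 𝕜 (Ain p W) := by
  rw [← HQ_sub_iff, HQ_iff]
  refine acyclic_of_pquot hchar (M := M.subgroupOf W) (H := H.subgroupOf W) ?_ ?_ ?_
  · rintro ⟨g, hg⟩
    obtain ⟨k, hk⟩ := hq g hg
    exact ⟨k, by rw [mem_subgroupOf]; simpa using hk⟩
  · intro x hx
    rw [mem_subgroupOf] at hx ⊢
    exact hMH hx
  · rw [← NA_Ain_map W.subtype_injective, Subgroup.map_subgroupOf_eq_of_le hHW]
    exact hac

end Vale.Agent.P240.K
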