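import Vale.Agent.P240.K.Free
import Vale.Agent.P240.K.Subnormal

namespace Vale.Agent.P240.K

open Finsupp Subgroup

variable {𝕜 : Type*} [Field 𝕜]

universe u

section
variable {G : Type u} [Group G] {p : ℕ}

/-- Inheritance by normal subgroups in characteristic `p`. -/
theorem HQ_normal [Fact p.Prime] [Finite G] (hchar : (p : 𝕜) = 0) (N : Subgroup G)
    (hN : N.Normal) (h : HQ 𝕜 p G) : HQ 𝕜 p N := by
  rw [HQ_sub_iff]
  by_contra hac
  exact acyclic_of_normal hchar hac ((HQ_iff).1 h)

end

end Vale.Agent.P240.K
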