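import Vale.Agent.P240.K.Dual

namespace Vale.Agent.P240.K

open Finsupp Subgroup

section
variable {G : Type*} [Group G] {p : ℕ}

/-- elementary abelian `p`-subgroups, including the trivial one -/
def ApB (p : ℕ) (G : Type*) [Group G] : Set (Subgroup G) := {E | E = ⊥ ∨ E ∈ ApS p G}

lemma eu_Ain [Finite G] (H : Subgroup G) :
    eu (Ain p H) = ∑ X ∈ (Set.toFinite {X | X ∈ ApB p G ∧ X ≤ H}).toFinset, mb p X := by
  classical
  have hS : (Ain p H).Finite := Set.toFinite _
  have h1 : (Set.toFinite {X | X ∈ ApB p G ∧ X ≤ H}).toFinset = insert ⊥ hS.toFinset := by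
    ext X
    rw [Set.Finite.mem_toFinset, Finset.mem_insert, Set.Finite.mem_toFinset]
    constructor
    · rintro ⟨h1 | h1, h2⟩
      · exact Or.inl h1
      · exact Or.inr ⟨h1, h2⟩
    · rintro (h | h)
      · exact ⟨Or.inl h, h.le.trans bot_le⟩
      · exact ⟨Or.inr h.1, h.2⟩
  have h2 : (⊥ : Subgroup G) ∉ hS.toFinset := by
    rw [Set.Finite.mem_toFinset]
    exact fun h => h.1.1 rfl
  rw [h1, Finset.sum_insert h2, eu_rec hS]
  have h3 : ∀ X ∈ hS.toFinset, eu {Y | Y ∈ Ain p H ∧ Y < X} = - mb p X := by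
    intro X hX
    rw [Set.Finite.mem_toFinset] at hX
    rw [mb_of_mem hX.1, neg_neg]
    congr 1
    ext Y
    exact ⟨fun h => ⟨h.1.1, h.2⟩, fun h => ⟨⟨h.1, h.2.le.trans hX.2⟩, h.2⟩⟩
  have h4 : mb p (⊥ : Subgroup G) = 1 := by unfold mb; rw [if_pos rfl]
  rw [Finset.sum_congr rfl h3, Finset.sum_neg_distrib, h4]
  ring

/-- the weights above -/
noncomputable def kp (p : ℕ) (F : Subgroup G) : ℤ := eu {A | A ∈ ApS p G ∧ F < A}

lemma sum_kp [Finite G] {F' : Subgroup G} (hF' : F' ∈ ApB p G) :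
    ∑ F ∈ (Set.toFinite {F | F ∈ ApB p G ∧ F' ≤ F}).toFinset, kp p F = 1 := by
  classical
  have hS : {A | A ∈ ApS p G ∧ F' < A}.Finite := Set.toFinite _
  have h1 : (Set.toFinite {F | F ∈ ApB p G ∧ F' ≤ F}).toFinset = insert F' hS.toFinset := by
    ext X
    rw [Set.Finite.mem_toFinset, Finset.mem_insert, Set.Finite.mem_toFinset]
    constructor
    · rintro ⟨h1, h2⟩
      rcases h2.eq_or_lt with h | h
      · exact Or.inl h.symm
      · refine Or.inr ⟨?_, h⟩
        rcases h1 with h1 | h1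
        · rw [h1] at h
          exact absurd h (not_lt_bot)
        · exact h1
    · rintro (h | h)
      · subst h
        exact ⟨hF', le_rfl⟩
      · exact ⟨Or.inr h.1, h.2.le⟩
  have h2 : F' ∉ hS.toFinset := by
    rw [Set.Finite.mem_toFinset]
    exact fun h => lt_irrefl _ h.2
  rw [h1, Finset.sum_insert h2]
  have h3 := eu_rec' hS
  have h4 : ∀ x ∈ hS.toFinset, eu {y | y ∈ {A | A ∈ ApS p G ∧ F' < A} ∧ x < y} = kp p x := by
    intro x hx
    rw [Set.Finite.mem_toFinset] at hx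
    unfold kp
    congr 1
    ext y
    exact ⟨fun h => ⟨h.1.1, h.2⟩, fun h => ⟨⟨h.1, hx.2.trans h.2⟩, h.2⟩⟩
  rw [Finset.sum_congr rfl h4] at h3
  unfold kp at h3 ⊢
  rw [h3]
  ring

lemma map_ApB {H : Type*} [Group H] (f : G →* H) {X : Subgroup G} (hX : X ∈ ApB p G) :
    X.map f ∈ ApB p H := by
  by_cases h : X.map f = ⊥
  · exact Or.inl h
  · rcases hX with hX | hX
    · rw [hX, Subgroup.map_bot] at h
      exact absurd rfl h
    · refine Or.inr ⟨h, ?_, ?_⟩
      · rintro _ ⟨x, hx, rfl⟩ _ ⟨y, hy, rfl⟩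
        rw [← map_mul, ← map_mul, hX.2.1 x hx y hy]
      · rintro _ ⟨x, hx, rfl⟩
        rw [← map_pow, hX.2.2 x hx, map_one]

/-- fibration formula -/
lemma eu_cover [Finite G] {H : Type*} [Group H] [Finite H] (f : G →* H) :
    eu (ApS p G) = ∑ F ∈ (Set.toFinite (ApB p H)).toFinset, eu (Ain p (F.comap f)) * kp p F := by
  classical
  have h1 : eu (ApS p G) = ∑ X ∈ (Set.toFinite (ApB p G)).toFinset, mb p X := by
    have h := eu_Ain (p := p) (⊤ : Subgroup G)
    have h2 : Ain p (⊤ : Subgroup G) = ApS p G := by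
      ext E
      exact ⟨fun h => h.1, fun h => ⟨h, le_top⟩⟩
    rw [h2] at h
    rw [h]
    refine Finset.sum_congr ?_ fun _ _ => rfl
    ext X
    rw [Set.Finite.mem_toFinset, Set.Finite.mem_toFinset]
    exact ⟨fun h => h.1, fun h => ⟨h, le_top⟩⟩
  have h2 : ∀ F, eu (Ain p (F.comap f)) =
      ∑ X ∈ (Set.toFinite (ApB p G)).toFinset, if X.map f ≤ F then mb p X else 0 := by
    intro F
    rw [eu_Ain, ← Finset.sum_filter]
    refine Finset.sum_congr ?_ fun _ _ => rfl
    ext X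
    rw [Set.Finite.mem_toFinset, Finset.mem_filter, Set.Finite.mem_toFinset,
      Subgroup.map_le_iff_le_comap]
    rfl
  have h3 : ∀ X ∈ (Set.toFinite (ApB p G)).toFinset,
      (∑ F ∈ (Set.toFinite (ApB p H)).toFinset, if X.map f ≤ F then kp p F else 0) = 1 := by
    intro X hX
    rw [Set.Finite.mem_toFinset] at hX
    rw [← Finset.sum_filter, ← sum_kp (map_ApB f hX)]
    refine Finset.sum_congr ?_ fun _ _ => rfl
    ext F
    rw [Set.Finite.mem_toFinset, Finset.mem_filter, Set.Finite.mem_toFinset]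
    rfl
  symm
  rw [h1, Finset.sum_congr rfl fun F _ => by rw [h2 F, Finset.sum_mul], Finset.sum_comm]
  refine Finset.sum_congr rfl fun X hX => ?_
  conv_rhs => rw [← mul_one (mb p X), ← h3 X hX, Finset.mul_sum]
  refine Finset.sum_congr rfl fun F _ => ?_
  split_ifs <;> ring

end

end Vale.Agent.P240.K
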