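import Vale.Agent.P240.K.Gen

namespace Vale.Agent.P240.K

open Finsupp Subgroup

variable {𝕜 : Type*} [Field 𝕜]

variable {G Q R : Type*} [Group G] [Group Q] [Group R] {p : ℕ}

/-- the standing set-up: `N` normalizer and `K` centralizer of `L`, with the two quotients. -/
structure Ctx (p : ℕ) (L N K : Subgroup G) (πK : N →* Q) (πL : N →* R) : Prop where
  comp : CompLike p L
  hN : N = normalizer (L : Set G)
  hK : K = centralizer (L : Set G)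
  hπK : ∀ n : N, πK n = 1 ↔ (n : G) ∈ K
  hsurj : Function.Surjective πK
  hπL : ∀ n : N, πL n = 1 ↔ (n : G) ∈ L

/-- images in `R` of the members of a family not contained in `L` -/
def SRof (L N : Subgroup G) (πL : N →* R) (F : Set (Subgroup G)) : Set (Subgroup R) :=
  {X | ∃ E ∈ F, ¬ E ≤ L ∧ fq N πL E = X}

/-- part of the preimage in `K` -/
def kap (N K : Subgroup G) (πL : N →* R) (X : Subgroup R) : Subgroup G := pb N πL X ⊓ K

namespace Ctx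

variable {L N K : Subgroup G} {πK : N →* Q} {πL : N →* R}

lemma LN (h : Ctx p L N K πK πL) : L ≤ N := by rw [h.hN]; exact Subgroup.le_normalizer

lemma KN (h : Ctx p L N K πK πL) : K ≤ N := by
  intro k hk
  rw [h.hK] at hk
  rw [h.hN, Subgroup.mem_normalizer_iff]
  intro a
  constructor
  · intro hh
    rw [← (Subgroup.mem_centralizer_iff.1 hk) a hh, mul_assoc, mul_inv_cancel, mul_one]
    exact hh
  · intro hh
    have h4 := (Subgroup.mem_centralizer_iff.1 hk) _ hh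
    have h5 : k * a * k⁻¹ * k = k * a := by group
    rw [h5] at h4
    have h6 : a = k * a * k⁻¹ := mul_left_cancel h4
    rw [h6]
    exact hh

lemma Ln (h : Ctx p L N K πK πL) : (L.subgroupOf N).Normal := by
  rw [h.hN]; exact Subgroup.normal_in_normalizer

lemma Kn (h : Ctx p L N K πK πL) : (K.subgroupOf N).Normal := by
  have : K.subgroupOf N = πK.ker := by
    ext n
    rw [Subgroup.mem_subgroupOf, MonoidHom.mem_ker, h.hπK]
  rw [this]
  exact MonoidHom.normal_ker _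

lemma LK (h : Ctx p L N K πK πL) : L ⊓ K = ⊥ := by rw [h.hK]; exact h.comp.centre

lemma KL (h : Ctx p L N K πK πL) : K ⊓ L = ⊥ := by rw [inf_comm]; exact h.LK

lemma comm (h : Ctx p L N K πK πL) : ∀ l ∈ L, ∀ k ∈ K, l * k = k * l := fun l hl k hk => by
  rw [h.hK] at hk
  exact (Subgroup.mem_centralizer_iff.1 hk) l hl

lemma dec (h : Ctx p L N K πK πL) {x y : G} (hx : x ∈ N) (hy : y ∈ N)
    (hxy : y ∈ zpowers x ⊔ (L ⊔ K)) : ∃ i : ℤ, ∃ l ∈ L, ∃ k ∈ K, y = x ^ i * (l * k) := by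
  have h1 := h.Ln
  have h2 := h.Kn
  exact decomp h.LN h.KN hx hy hxy

lemma dec' (h : Ctx p L N K πK πL) {y : G} (hy : y ∈ L ⊔ K) :
    ∃ l ∈ L, ∃ k ∈ K, y = l * k := by
  obtain ⟨i, l, hl, k, hk, he⟩ := h.dec (x := 1) (y := y) (one_mem N) (sup_le h.LN h.KN hy)
    (Subgroup.mem_sup_right hy)
  rw [one_zpow, one_mul] at he
  exact ⟨l, hl, k, hk, he⟩

lemma SR_ApS (h : Ctx p L N K πK πL) {F : Set (Subgroup G)} (hF : F ⊆ Ain p N) :
    SRof L N πL F ⊆ ApS p R := by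
  rintro _ ⟨E, hE, hEL, rfl⟩
  exact fq_mem_ApS h.hπL (hF hE).1 (hF hE).2 hEL

lemma KSR (h : Ctx p L N K πK πL) {F : Set (Subgroup G)} (hF : Ain p K ⊆ F) :
    ∀ B ∈ Ain p K, fq N πL B ∈ SRof L N πL F := fun B hB =>
  ⟨B, hF hB, fun hh => hB.1.1 (le_bot_iff.1 (h.KL ▸ le_inf hB.2 hh)), rfl⟩

lemma fst (h : Ctx p L N K πK πL) :
    ∀ B ∈ Ain p K, ∀ B' ∈ Ain p K, B < B' → fq N πL B < fq N πL B' := by
  intro B hB B' hB' hh
  refine lt_of_le_of_ne (fq_mono hh.le) fun he => hh.ne ?_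
  rw [← pb_fq h.hπL h.KN h.KL hB.2, ← pb_fq h.hπL h.KN h.KL hB'.2, he]

/-- elements of `E` in `L K` lie in `L` when `kap` is trivial -/
lemma ELK (h : Ctx p L N K πK πL) {E : Subgroup G} (hE : E ∈ Ain p N)
    (hk : kap N K πL (fq N πL E) = ⊥) : ∀ x ∈ E, x ∈ L ⊔ K → x ∈ L := by
  intro x hx hxLK
  obtain ⟨l, hl, k, hk', hxe⟩ := h.dec' hxLK
  have h4 : k ∈ kap N K πL (fq N πL E) := by
    refine Subgroup.mem_inf.2 ⟨mem_pb.2 ⟨⟨k, h.KN hk'⟩, rfl, mem_fq.2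
      ⟨⟨x, hE.2 hx⟩, hx, ?_⟩⟩, hk'⟩
    have h5 : (⟨x, hE.2 hx⟩ : N) = ⟨l, h.LN hl⟩ * ⟨k, h.KN hk'⟩ := Subtype.ext hxe
    rw [h5, map_mul, (h.hπL ⟨l, h.LN hl⟩).2 hl, one_mul]
  rw [hk, Subgroup.mem_bot] at h4
  rw [hxe, h4, mul_one]
  exact hl

lemma exists_V [Fact p.Prime] [Finite G] (h : Ctx p L N K πK πL) :
    ∃ V : Submodule 𝕜 (Ch 𝕜 (Subgroup G)),
      (∀ g, g ∉ N → ∀ l, wk {E | E ∈ Ain p K ∧ ∀ x ∈ E, g * x = x * g} l →
        pi (single l (1 : 𝕜)) ∈ V) ∧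
      ∀ z ∈ Sp 𝕜 (st (Ain p K)), bd z = 0 → z ∉ Bst 𝕜 (Ain p K) → z ∉ Bst 𝕜 (Ain p K) ⊔ V := by
  classical
  let ι := {L2 : Subgroup G // L2 ≠ L ∧ ∃ g : G, L2 = L.map (MulAut.conj g).toMonoidHom}
  have : Fintype ι := Fintype.ofFinite ι
  let T : ι → Set (Subgroup G) := fun i => {E | E ∈ Ain p K ∧ ∀ x ∈ E, ∀ y ∈ i.1, x * y = y * x}
  have hconjN : ∀ g : G, g ∈ N → L.map (MulAut.conj g).toMonoidHom = L := by
    intro g hg
    rw [h.hN, Subgroup.mem_normalizer_iff] at hg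
    ext x
    rw [Subgroup.mem_map]
    constructor
    · rintro ⟨y, hy, rfl⟩
      exact (hg y).1 hy
    · intro hx
      refine ⟨g⁻¹ * x * g, ?_, ?_⟩
      · rw [hg]
        have : g * (g⁻¹ * x * g) * g⁻¹ = x := by group
        rw [this]; exact hx
      · simp [mul_assoc]
  have hcomm2 : ∀ g h : G, L.map (MulAut.conj g).toMonoidHom ≠ L.map (MulAut.conj h).toMonoidHom →
      ∀ x ∈ L.map (MulAut.conj g).toMonoidHom, ∀ y ∈ L.map (MulAut.conj h).toMonoidHom,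
      x * y = y * x := by
    rintro g g' hgh _ ⟨x, hx, rfl⟩ _ ⟨y, hy, rfl⟩
    have h4 : g⁻¹ * g' ∉ N := by
      intro hmem
      apply hgh
      have h5 := hconjN _ hmem
      have h6 : L.map (MulAut.conj g').toMonoidHom =
          (L.map (MulAut.conj (g⁻¹ * g')).toMonoidHom).map (MulAut.conj g).toMonoidHom := by
        rw [Subgroup.map_map]
        congr 1
        ext z
        simp [mul_assoc]
      rw [h6, h5]
    rw [h.hN] at h4
    have h7 := h.comp.conj _ h4 x hx y hy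
    have h8 := congrArg (fun z => g * z * g⁻¹) h7
    simp only [MulEquiv.toMonoidHom_eq_coe, MonoidHom.coe_coe, MulAut.conj_apply]
    calc g * x * g⁻¹ * (g' * y * g'⁻¹)
        = g * (x * (g⁻¹ * g' * y * (g⁻¹ * g')⁻¹)) * g⁻¹ := by group
      _ = g * ((g⁻¹ * g' * y * (g⁻¹ * g')⁻¹) * x) * g⁻¹ := h8
      _ = g' * y * g'⁻¹ * (g * x * g⁻¹) := by group
  have hmap1 : L.map (MulAut.conj (1 : G)).toMonoidHom = L := hconjN 1 (one_mem N)
  have hcomm1 : ∀ i : ι, ∀ x ∈ L, ∀ y ∈ i.1, x * y = y * x := by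
    rintro ⟨_, hne, g, rfl⟩ x hx y hy
    refine hcomm2 1 g ?_ x (by rw [hmap1]; exact hx) y hy
    rw [hmap1]; exact hne.symm
  have hιK : ∀ i : ι, i.1 ≤ K := by
    intro i y hy
    rw [h.hK, Subgroup.mem_centralizer_iff]
    exact fun x hx => hcomm1 i x hx y hy
  have hFex : ∀ i : ι, ∃ F ∈ ApS p G, F ≤ i.1 := by
    rintro ⟨_, hne, g, rfl⟩
    refine exists_ApS_le ?_
    rw [Subgroup.card_map_of_injective (MulAut.conj g).injective]
    exact h.comp.dvd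
  choose F hF hFi using hFex
  have hιι : ∀ i j : ι, i ≠ j → ∀ x ∈ i.1, ∀ y ∈ j.1, x * y = y * x := by
    rintro ⟨_, hne, g, rfl⟩ ⟨_, hne', h, rfl⟩ hij x hx y hy
    exact hcomm2 g h (fun h => hij (Subtype.ext h)) x hx y hy
  have hsupA : ∀ i : ι, ∀ E ∈ T i, E ⊔ F i ∈ Ain p K := fun i E hE =>
    ⟨sup_mem_ApS hE.1.1 (hF i) fun x hx y hy => hE.2 x hx y (hFi i hy),
      sup_le hE.1.2 ((hFi i).trans (hιK i))⟩
  have hrel := rel_zero (𝕜 := 𝕜) (Ain p K) T F (fun i E hE => hE.1)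
    (fun i => ⟨hF i, (hFi i).trans (hιK i)⟩) hsupA
    (fun i j hij => ⟨⟨hF i, (hFi i).trans (hιK i)⟩, fun x hx y hy =>
      hιι i j hij x (hFi i hx) y hy⟩)
    (fun i j hij E hE hE' => ⟨hsupA i E hE, by
      have h4 : E ⊔ F i ≤ centralizer (j.1 : Set G) := by
        refine sup_le ?_ ?_
        · intro x hx
          rw [Subgroup.mem_centralizer_iff]
          exact fun y hy => (hE'.2 x hx y hy).symm
        · intro x hx
          rw [Subgroup.mem_centralizer_iff]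
          exact fun y hy => (hιι i j hij x (hFi i hx) y hy).symm
      intro x hx y hy
      exact ((Subgroup.mem_centralizer_iff.1 (h4 hx)) y hy).symm⟩)
    Finset.univ
  refine ⟨Sp 𝕜 (fun l => ∃ i ∈ (Finset.univ : Finset ι), wk (T i) l), ?_, ?_⟩
  · intro g hg l hl
    refine pi_mem' (single_mem_Sp ?_ _)
    have hgne : L.map (MulAut.conj g).toMonoidHom ≠ L := by
      intro hh
      apply hg
      rw [h.hN, Subgroup.mem_normalizer_iff]
      intro x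
      constructor
      · intro hx
        rw [← hh]
        exact ⟨x, hx, rfl⟩
      · intro hx
        rw [← hh] at hx
        obtain ⟨y, hy, hyx⟩ := hx
        have : y = x := by
          apply (MulAut.conj g).injective
          exact hyx
        rw [← this]; exact hy
    refine ⟨⟨_, hgne, g, rfl⟩, Finset.mem_univ _, hl.1, ?_⟩
    intro E hE
    obtain ⟨hE1, hE2⟩ := hl.2 E hE
    refine ⟨hE1, ?_⟩
    rintro x hx _ ⟨y, hy, rfl⟩
    have h4 : x * y = y * x := (h.comm y hy x (hE1.2 hx)).symm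
    have h5 : g * x = x * g := hE2 x hx
    simp only [MulEquiv.toMonoidHom_eq_coe, MonoidHom.coe_coe, MulAut.conj_apply]
    have h6 : x * g⁻¹ = g⁻¹ * x := by
      rw [eq_inv_mul_iff_mul_eq, ← mul_assoc, h5, mul_assoc, mul_inv_cancel, mul_one]
    calc x * (g * y * g⁻¹) = (x * g) * y * g⁻¹ := by group
      _ = g * (x * y) * g⁻¹ := by rw [← h5]; group
      _ = g * y * (x * g⁻¹) := by rw [h4]; group
      _ = g * y * g⁻¹ * x := by rw [h6]; group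
  · intro be hbe hbbe hben hh
    obtain ⟨b, ⟨c1, hc1, rfl⟩, w, hw, hbw⟩ := Submodule.mem_sup.1 hh
    have hbw0 : bd w = 0 := by
      have h4 := congrArg bd hbw
      rw [map_add, hbbe, bd_bd, zero_add] at h4
      exact h4
    obtain ⟨c2, hc2, hc2w⟩ := hrel w hw hbw0
    have h5 : c1 + c2 ∈ Sp 𝕜 (wk (Ain p K)) := Submodule.add_mem _ (Sp_mono st_wk hc1) hc2
    refine hben ⟨pi (c1 + c2), pi_mem h5, ?_⟩
    rw [bd_pi h5, map_add, hc2w, hbw, pi_of_st hbe]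

/-- Detection through `L` below: a cycle of `K` that stays nonzero modulo `L`. -/
lemma case_a [Fact p.Prime] [Finite G] (h : Ctx p L N K πK πL) (h1 : NA 𝕜 (Ain p L))
    {be : Ch 𝕜 (Subgroup G)} (hbe : be ∈ Sp 𝕜 (st (Ain p K))) (hbbe : bd be = 0)
    (hben : mp (fq N πL) be ∉ Bst 𝕜 (SRof L N πL (Ain p N))) : NA 𝕜 (ApS p G) := by
  obtain ⟨al, hal, hbal, haln⟩ := h1
  have hmst : mp (fq N πL) be ∈ Sp 𝕜 (st (SRof L N πL (Ain p N))) :=
    mp_mem (st_map (h.KSR (F := Ain p N) (fun E hE => ⟨hE.1, hE.2.trans h.KN⟩)) h.fst) hbe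
  obtain ⟨lW, hnW, hW, -, hlW⟩ := exists_cocycle (SRof L N πL (Ain p N)) ⊥ (mp (fq N πL) be) (by
    rw [pi_of_st hmst, sup_bot_eq]; exact hben)
  obtain ⟨lD, hnD, hD, -, hlD⟩ := exists_cocycle (Ain p L) ⊥ al (by
    rw [pi_of_st hal, sup_bot_eq]
    rintro ⟨c, hc, hcz⟩
    exact haln c hc hcz)
  refine detect N L h.LN πL h.hπL (SRof L N πL (Ain p N))
    (fun E hE hEL => ⟨E, hE, hEL, rfl⟩) lW lD hnW hnD hW hD ?_
    K L h.KN le_rfl (fun k hk l hl => (h.comm l hl k hk).symm) h.KL be al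
    (Sp_mono st_wk hbe) (Sp_mono st_wk hal) hbbe hbal hlW hlD
  intro g hg l hl
  rcases l with _ | ⟨E, l⟩
  · obtain ⟨F, hF, hFL⟩ := exists_ApS_le (G := G) h.comp.dvd
    have : bd (single [F] (1 : 𝕜)) = single [] (1 : 𝕜) := by simp [bd_single_cons]
    rw [← this]
    exact hD _ (single_mem_Sp ⟨by simp, by simpa using ⟨hF, hFL⟩⟩ _)
  · exfalso
    obtain ⟨hE, hEg⟩ := hl.2 E (by simp)
    apply hE.1.1
    rw [eq_bot_iff, ← h.LK]
    intro x hx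
    refine Subgroup.mem_inf.2 ⟨hE.2 hx, ?_⟩
    rw [h.hK, Subgroup.mem_centralizer_iff]
    intro y hy
    rw [h.hN] at hg
    have h5 := h.comp.conj g hg y hy x (hE.2 hx)
    have h6 : g * x * g⁻¹ = x := by
      rw [hEg x hx, mul_assoc, mul_inv_cancel, mul_one]
    rwa [h6] at h5

/-- Splitting of a cycle of `K` that bounds modulo `L`. -/
lemma split [Fact p.Prime] [Finite G] (h : Ctx p L N K πK πL)
    (hR1 : ∀ E ∈ Ain p N, ∀ x ∈ E, ∀ y ∈ E, x ∉ L ⊔ K → y ∉ L ⊔ K → y ∈ zpowers x ⊔ (L ⊔ K))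
    {F : Set (Subgroup G)} (hF : F ⊆ Ain p N) (hKF : Ain p K ⊆ F)
    {be : Ch 𝕜 (Subgroup G)} (hbe : be ∈ Sp 𝕜 (st (Ain p K)))
    (hb : mp (fq N πL) be ∈ Bst 𝕜 (SRof L N πL F)) :
    ∃ c ∈ Sp 𝕜 (wk (Ain p K)), ∃ (s : Finset (Subgroup R)) (e : Subgroup R → Ch 𝕜 (Subgroup G)),
      (∀ X ∈ s, X ∈ SRof L N πL F ∧ kap N K πL X = ⊥) ∧
      (∀ X ∈ s, e X ∈ Sp 𝕜 (wk (Ain p (K ⊓ centralizer ((pb N πL X : Subgroup G) : Set G)))) ∧
        bd (e X) = 0) ∧ be = bd c + ∑ X ∈ s, e X := by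
  classical
  obtain ⟨c, hc, hcz⟩ := hb
  set SR : Set (Subgroup R) := SRof L N πL F with hSR
  have hSRa : SR ⊆ ApS p R := h.SR_ApS hF
  have hkmono : ∀ X Y, X ≤ Y → kap N K πL X ≤ kap N K πL Y := fun X Y h =>
    inf_le_inf_right _ (pb_mono h)
  have hkf : ∀ B ∈ Ain p K, kap N K πL (fq N πL B) = B := fun B hB =>
    pb_fq h.hπL h.KN h.KL hB.2
  have hkA : ∀ X ∈ SR, kap N K πL X ≠ ⊥ → kap N K πL X ∈ Ain p K := fun X hX hne =>
    pb_inf_ApS h.hπL h.KL (hSRa hX).2.1 (hSRa hX).2.2 hne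
  have key : ∀ X ∈ SR, ∀ Y ∈ SR, X ≤ Y → kap N K πL Y = ⊥ → X = Y := by
    rintro X ⟨E', hE', hE'L, rfl⟩ Y ⟨E, hE, hEL, rfl⟩ hXY hk
    refine le_antisymm hXY ?_
    obtain ⟨x', hx', hx'L⟩ := Set.not_subset.1 hE'L
    have hx'X : πL ⟨x', (hF hE').2 hx'⟩ ∈ fq N πL E' :=
      mem_fq.2 ⟨⟨x', (hF hE').2 hx'⟩, hx', rfl⟩
    obtain ⟨x, hxE, hxx'⟩ := mem_fq.1 (hXY hx'X)
    have hxL : (x : G) ∉ L := by
      rw [← h.hπL, hxx', h.hπL]
      exact hx'L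
    have hxLK : (x : G) ∉ L ⊔ K := fun hh => hxL (h.ELK (hF hE) hk x hxE hh)
    intro q hq
    obtain ⟨y, hyE, rfl⟩ := mem_fq.1 hq
    by_cases hyL : (y : G) ∈ L
    · rw [(h.hπL y).2 hyL]; exact one_mem _
    have hyLK : (y : G) ∉ L ⊔ K := fun hh => hyL (h.ELK (hF hE) hk y hyE hh)
    have h4 := hR1 E (hF hE) x hxE y hyE hxLK hyLK
    obtain ⟨i, l, hl, k, hk', hye⟩ := h.dec x.2 y.2 h4
    have h5 : y = x ^ i * (⟨l, h.LN hl⟩ * ⟨k, h.KN hk'⟩) := Subtype.ext (by simpa using hye)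
    have h6 : πL y = πL x ^ i * πL ⟨k, h.KN hk'⟩ := by
      rw [h5, map_mul, map_mul, (h.hπL ⟨l, h.LN hl⟩).2 hl, one_mul, map_zpow]
    have hxY : πL x ∈ fq N πL E := mem_fq.2 ⟨x, hxE, rfl⟩
    have h7 : πL ⟨k, h.KN hk'⟩ ∈ fq N πL E := by
      have : πL ⟨k, h.KN hk'⟩ = (πL x ^ i)⁻¹ * πL y := by rw [h6]; group
      rw [this]
      exact mul_mem (inv_mem (zpow_mem hxY i)) (mem_fq.2 ⟨y, hyE, rfl⟩)
    have h8 : k ∈ kap N K πL (fq N πL E) :=
      Subgroup.mem_inf.2 ⟨mem_pb.2 ⟨⟨k, h.KN hk'⟩, rfl, h7⟩, hk'⟩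
    rw [hk, Subgroup.mem_bot] at h8
    have h9 : (⟨k, h.KN hk'⟩ : N) = 1 := Subtype.ext h8
    rw [h6, h9, map_one, mul_one, hxx']
    exact zpow_mem hx'X i
  let P : Set (Subgroup R) := {X | X ∈ SR ∧ kap N K πL X = ⊥}
  have hfz : mp (fq N πL) be ∈ Sp 𝕜 (st (SR \ P)) := by
    refine mp_mem (st_map (T := SR \ P) (fun B hB => ⟨h.KSR hKF B hB, fun h => ?_⟩) h.fst) hbe
    exact hB.1.1 ((hkf B hB).symm.trans h.2)
  obtain ⟨c0, hc0, s, e, hs, he, hsum⟩ := exact_split (S := SR) (P := P)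
    (fun X hX Y hY hYX => key Y hY X hX.1 hYX hX.2) hc hfz hcz
  have hmk : mp (kap N K πL) (mp (fq N πL) be) = be := by
    rw [mp_mp]
    have := eq_of_Sp (F := mp (kap N K πL ∘ fq N πL)) (G := LinearMap.id)
      (fun l (hl : st (Ain p K) l) => by
        rw [mp_single]
        have : l.map (kap N K πL ∘ fq N πL) = l := by
          conv_rhs => rw [← List.map_id l]
          exact List.map_congr_left fun E hE => hkf E (hl.2 E hE)
        rw [this]; rfl) hbe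
    simpa using this
  refine ⟨mp (kap N K πL) c0, ?_, s, fun X => mp (kap N K πL) (e X), ?_, ?_, ?_⟩
  · exact mp_mem (wk_map (S := SR \ P) (fun X hX => hkA X hX.1 fun h => hX.2 ⟨hX.1, h⟩)
      fun X _ Y _ h => hkmono X Y h) (Sp_mono st_wk hc0)
  · intro X hX
    exact ⟨(hs X hX).2, (hs X hX).1.2⟩
  · intro X hX
    refine ⟨?_, by rw [bd_mp, (he X hX).2, map_zero]⟩
    have hXP := (hs X hX).1
    refine mp_mem (wk_map (S := {Y | Y ∈ SR ∧ X < Y}) ?_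
      fun X _ Y _ h => hkmono X Y h) (Sp_mono st_wk (he X hX).1)
    rintro Y ⟨hY, hXY⟩
    have h4 := hkA Y hY fun h => hXY.ne (key X hXP.1 Y hY hXY.le h)
    refine ⟨h4.1, le_inf inf_le_right ?_⟩
    intro k hk
    obtain ⟨hk1, hk2⟩ := Subgroup.mem_inf.1 hk
    obtain ⟨k', rfl, hk'⟩ := mem_pb.1 hk1
    rw [Subgroup.mem_centralizer_iff]
    intro h1 hh
    obtain ⟨h', rfl, hh'⟩ := mem_pb.1 hh
    have h5 : πL (h' * k') = πL (k' * h') := by
      rw [map_mul, map_mul]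
      exact (hSRa hY).2.1 _ (hXY.le hh') _ hk'
    have h6 : ((h' * k' * h'⁻¹ * k'⁻¹ : N) : G) ∈ K ⊓ L := by
      refine Subgroup.mem_inf.2 ⟨?_, ?_⟩
      · rw [← h.hπK, map_mul, map_mul, map_mul, map_inv, map_inv, (h.hπK k').2 hk2]
        group
      · rw [← h.hπL, map_mul, map_mul, map_inv, map_inv, h5, map_mul]
        group
    rw [h.KL, Subgroup.mem_bot] at h6
    have h7 : h' * k' * h'⁻¹ * k'⁻¹ = 1 := Subtype.ext h6
    have h8 : h' * k' = k' * h' := by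
      rw [mul_inv_eq_one, mul_inv_eq_iff_eq_mul] at h7
      exact h7
    exact congrArg Subtype.val h8
  · conv_lhs => rw [← hmk, hsum, map_add, map_sum, ← bd_mp]

/-- lifts of subgroups of `Q` to `L⟨x⟩` -/
lemma lift_fq (h : Ctx p L N K πK πL) {X : Subgroup R} {x : N} (hx : πL x ∈ X)
    {E : Subgroup Q} (hl : ∀ n : N, πK n ∈ E → (n : G) ∈ zpowers (x : G) ⊔ (L ⊔ K)) :
    fq N πK (pb N πK E ⊓ pb N πL X) = E := by
  refine le_antisymm ?_ ?_
  · intro q hq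
    obtain ⟨n, hn, rfl⟩ := mem_fq.1 hq
    obtain ⟨n', hn', h4⟩ := mem_pb.1 (Subgroup.mem_inf.1 hn).1
    rw [← Subtype.ext hn']
    exact h4
  · intro q hq
    obtain ⟨n, rfl⟩ := h.hsurj q
    obtain ⟨i, l, hl', k, hk', hne⟩ := h.dec x.2 n.2 (hl n hq)
    have h5 : n = (x ^ i * ⟨l, h.LN hl'⟩) * ⟨k, h.KN hk'⟩ := by
      refine Subtype.ext ?_
      rw [hne]
      simp [mul_assoc]
    have h6 : πK (x ^ i * ⟨l, h.LN hl'⟩) = πK n := by
      conv_rhs => rw [h5, map_mul, (h.hπK ⟨k, h.KN hk'⟩).2 hk', mul_one]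
    refine mem_fq.2 ⟨x ^ i * ⟨l, h.LN hl'⟩, Subgroup.mem_inf.2
      ⟨mem_pb.2 ⟨_, rfl, by rw [h6]; exact hq⟩, mem_pb.2 ⟨_, rfl, ?_⟩⟩, h6⟩
    rw [map_mul, (h.hπL ⟨l, h.LN hl'⟩).2 hl', mul_one, map_zpow]
    exact zpow_mem hx i

lemma lift_mem (h : Ctx p L N K πK πL) {X : Subgroup R} {x : N} (hx : πL x ∈ X)
    (hkX : kap N K πL X = ⊥) {E : Subgroup Q} (hE : E ∈ ApS p Q)
    (hl : ∀ n : N, πK n ∈ E → (n : G) ∈ zpowers (x : G) ⊔ (L ⊔ K)) :
    pb N πK E ⊓ pb N πL X ∈ Ain p (pb N πL X) := by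
  refine pb_inf_ApS h.hπK hkX hE.2.1 hE.2.2 fun h' => hE.1 ?_
  have h4 := h.lift_fq hx hl
  rw [h'] at h4
  rw [← h4, eq_bot_iff]
  intro q hq
  obtain ⟨n, hn, rfl⟩ := mem_fq.1 hq
  rw [Subgroup.mem_bot] at hn
  have : n = 1 := Subtype.ext hn
  rw [this, map_one]
  exact one_mem _

end Ctx

end Vale.Agent.P240.K
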