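import Vale.Agent.P240.K.Good

namespace Vale.Agent.P240.K

open Finsupp Subgroup

section
variable {α : Type*} [PartialOrder α] {S : Set α}

lemma stn_dual (S : Set α) (n : ℕ) :
    Nat.card (stn (α := αᵒᵈ) (OrderDual.ofDual ⁻¹' S) n) = Nat.card (stn S n) := by
  have h : stn S n = (fun l : List αᵒᵈ => (l.map OrderDual.ofDual).reverse) ''
      stn (α := αᵒᵈ) (OrderDual.ofDual ⁻¹' S) n := by
    ext l
    constructor
    · rintro ⟨h1, h2, h3⟩
      refine ⟨(l.map OrderDual.toDual).reverse, ⟨by simpa using h1, ?_, ?_⟩, ?_⟩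
      · rw [List.pairwise_reverse, List.pairwise_map]
        exact h2
      · intro a ha
        rw [List.mem_reverse, List.mem_map] at ha
        obtain ⟨b, hb, rfl⟩ := ha
        exact h3 b hb
      · change ((l.map OrderDual.toDual).reverse.map OrderDual.ofDual).reverse = l
        rw [List.map_reverse, List.reverse_reverse, List.map_map]
        conv_rhs => rw [← List.map_id l]
        rfl
    · rintro ⟨l, ⟨h1, h2, h3⟩, rfl⟩
      refine ⟨by simpa using h1, ?_, ?_⟩
      · rw [List.pairwise_reverse, List.pairwise_map]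
        exact h2
      · intro a ha
        rw [List.mem_reverse, List.mem_map] at ha
        obtain ⟨b, hb, rfl⟩ := ha
        exact h3 b hb
  rw [h]
  symm
  refine Nat.card_image_of_injective ?_ _
  intro l m hlm
  exact List.map_injective_iff.2 OrderDual.ofDual.injective (List.reverse_injective hlm)

lemma eu_dual (S : Set α) : eu (α := αᵒᵈ) (OrderDual.ofDual ⁻¹' S) = eu S := by
  have h1 : Nat.card (OrderDual.ofDual ⁻¹' S : Set αᵒᵈ) = Nat.card S := rfl
  rw [eu, eu, h1]
  exact Finset.sum_congr rfl fun n _ => by rw [stn_dual]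

/-- the recursion from below -/
lemma eu_rec' (hS : S.Finite) : eu S = 1 - ∑ x ∈ hS.toFinset, eu {y | y ∈ S ∧ x < y} := by
  have hS' : (OrderDual.ofDual ⁻¹' S : Set αᵒᵈ).Finite := hS
  have h := eu_rec hS'
  rw [eu_dual] at h
  rw [h]
  congr 1
  refine Finset.sum_bij (fun x _ => OrderDual.ofDual x) ?_ ?_ ?_ ?_
  · intro x hx
    rw [Set.Finite.mem_toFinset] at hx ⊢
    exact hx
  · intro x _ y _ h
    exact h
  · intro x hx
    refine ⟨OrderDual.toDual x, ?_, rfl⟩
    rw [Set.Finite.mem_toFinset] at hx ⊢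
    exact hx
  · intro x _
    rw [← eu_dual {y | y ∈ S ∧ OrderDual.ofDual x < y}]
    rfl

/-- rank–nullity -/
lemma euler_aux (hS : S.Finite) (m : ℕ)
    (hlow : ∀ n < m, ∀ z ∈ Finsupp.supported ℚ ℚ (stn S n), bd z = 0 →
      ∃ c ∈ Finsupp.supported ℚ ℚ (stn S (n + 1)), bd c = z) (N : ℕ) (hN : N ≤ m) :
    ∑ n ∈ Finset.range (N + 1), (-1 : ℤ) ^ n * (Nat.card (stn S n) : ℤ) =
      (-1 : ℤ) ^ N * Module.finrank ℚ (Zs ℚ S N) := by
  have hfr : ∀ n, Module.finrank ℚ (Finsupp.supported ℚ ℚ (stn S n)) = Nat.card (stn S n) := by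
    intro n
    have hfin := stn_finite hS n
    have : Fintype (stn S n) := hfin.fintype
    rw [(Finsupp.supportedEquivFinsupp (M := ℚ) (R := ℚ) (stn S n)).finrank_eq,
      Module.finrank_finsupp_self, Nat.card_eq_fintype_card]
  induction N with
  | zero =>
    have h : Zs ℚ S 0 = Finsupp.supported ℚ ℚ (stn S 0) := by
      rw [Zs, inf_eq_left]
      intro c hc
      have h1 : c = len 0 c :=
        (len_of_mem (Sp_mono (fun l (hl : l ∈ stn S 0) => hl.1) hc)).symm
      rw [LinearMap.mem_ker, h1, bd_len_zero]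
    rw [zero_add, Finset.sum_range_one, h, hfr]
  | succ N ih =>
    have := fd_supported (𝕜 := ℚ) hS (N + 1)
    have := fd_Zs (𝕜 := ℚ) hS (N + 1)
    have := fd_Zs (𝕜 := ℚ) hS N
    let d : Finsupp.supported ℚ ℚ (stn S (N + 1)) →ₗ[ℚ] Zs ℚ S N :=
      (bd : Ch ℚ α →ₗ[ℚ] Ch ℚ α).restrict (fun c hc => ⟨bd_stn hc, bd_bd c⟩)
    have hsurj : LinearMap.range d = ⊤ := by
      rw [LinearMap.range_eq_top]
      rintro ⟨z, hz1, hz2⟩
      obtain ⟨c, hc, hcz⟩ := hlow N (by omega) z hz1 (LinearMap.mem_ker.1 hz2)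
      exact ⟨⟨c, hc⟩, Subtype.ext hcz⟩
    have hker : Module.finrank ℚ (LinearMap.ker d) = Module.finrank ℚ (Zs ℚ S (N + 1)) := by
      have hk : (LinearMap.ker d).map (Finsupp.supported ℚ ℚ (stn S (N + 1))).subtype =
          Zs ℚ S (N + 1) := by
        ext c
        constructor
        · rintro ⟨⟨c, hc⟩, h, rfl⟩
          exact ⟨hc, congrArg Subtype.val h⟩
        · rintro ⟨hc, h⟩
          exact ⟨⟨c, hc⟩, Subtype.ext h, rfl⟩
      rw [← hk]
      exact (LinearEquiv.finrank_eq (Submodule.equivMapOfInjective _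
        (Submodule.subtype_injective _) _))
    have hrn := LinearMap.finrank_range_add_finrank_ker d
    rw [hsurj, finrank_top, hker, hfr] at hrn
    rw [Finset.sum_range_succ, ih (by omega), ← hrn, pow_succ]
    push_cast
    ring

lemma eu_sign (hS : S.Finite) (m : ℕ)
    (hlow : ∀ n < m, ∀ z ∈ Finsupp.supported ℚ ℚ (stn S n), bd z = 0 →
      ∃ c ∈ Finsupp.supported ℚ ℚ (stn S (n + 1)), bd c = z)
    (hdim : ∀ l, st S l → l.length ≤ m) : 0 ≤ (-1 : ℤ) ^ m * eu S := by
  have h1 : eu S = ∑ n ∈ Finset.range (m + 1), (-1 : ℤ) ^ n * (Nat.card (stn S n) : ℤ) := by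
    rw [← eu_eq hS (le_max_left (Nat.card S) m)]
    symm
    refine Finset.sum_subset ?_ ?_
    · intro n hn
      rw [Finset.mem_range] at hn ⊢
      exact lt_of_lt_of_le hn (Nat.succ_le_succ (le_max_right _ _))
    · intro n _ hn
      rw [Finset.mem_range, not_lt] at hn
      have : stn S n = ∅ := by
        rw [Set.eq_empty_iff_forall_notMem]
        rintro l ⟨h1, h2⟩
        have := hdim l h2
        omega
      rw [this]
      simp
  rw [h1, euler_aux hS m hlow m le_rfl, ← mul_assoc, ← mul_pow]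
  norm_num

end

end Vale.Agent.P240.K
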