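import Vale.Agent.P240.K.CM

namespace Vale.Agent.P240.K

open Finsupp Subgroup

section
variable {α β : Type*} [PartialOrder α] [PartialOrder β]

/-- minus the reduced Euler characteristic -/
noncomputable def eulerT (α : Type*) [Preorder α] : ℤ :=
  ∑ᶠ n : ℕ, (-1) ^ n * (Nat.card {l : List α // l.length = n ∧ l.Pairwise (· < ·)} : ℤ)

lemma euler_eq {f : β → α} (hf : Function.Injective f)
    (hlt : ∀ x y, x < y ↔ f x < f y) {S : Set α} (hS : S.Finite) (himg : f '' Set.univ = S) :
    eulerT β = eu S := by
  subst himg
  have h1 : ∀ n, Nat.card {l : List β // l.length = n ∧ l.Pairwise (· < ·)} =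
      Nat.card (stn (f '' Set.univ) n) := by
    intro n
    have h2 : stn (f '' Set.univ) n = (fun l : List β => (l.map f).reverse) ''
        {l : List β | l.length = n ∧ l.Pairwise (· < ·)} := by
      ext l
      constructor
      · rintro ⟨h1, h2, h3⟩
        have key : ∀ l : List α, (∀ a ∈ l, a ∈ f '' Set.univ) → ∃ m : List β, m.map f = l := by
          intro l
          induction l with
          | nil => intro _; exact ⟨[], rfl⟩
          | cons y l ih =>
            intro hl
            obtain ⟨m, rfl⟩ := ih fun a ha => hl a (List.mem_cons_of_mem _ ha)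
            obtain ⟨x, _, rfl⟩ := hl y (by simp)
            exact ⟨x :: m, rfl⟩
        obtain ⟨m, hm⟩ := key l.reverse (fun a ha => h3 a (List.mem_reverse.1 ha))
        refine ⟨m, ⟨?_, ?_⟩, ?_⟩
        · rw [← h1, ← List.length_reverse (as := l), ← hm, List.length_map]
        · have h4 : (m.map f).Pairwise (· < ·) := by
            rw [hm, List.pairwise_reverse]
            exact h2
          rw [List.pairwise_map] at h4
          exact h4.imp fun h => (hlt _ _).2 h
        · change (m.map f).reverse = l
          rw [hm, List.reverse_reverse]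
      · rintro ⟨m, ⟨h1, h2⟩, rfl⟩
        refine ⟨by simpa using h1, ?_, ?_⟩
        · rw [List.pairwise_reverse, List.pairwise_map]
          exact h2.imp fun h => (hlt _ _).1 h
        · intro a ha
          rw [List.mem_reverse, List.mem_map] at ha
          obtain ⟨b, _, rfl⟩ := ha
          exact ⟨b, trivial, rfl⟩
    rw [h2]
    symm
    refine Nat.card_image_of_injective ?_ _
    intro l m hlm
    exact List.map_injective_iff.2 hf (List.reverse_injective hlm)
  unfold eulerT
  simp only [h1]
  rw [← eu_eq hS le_rfl]
  refine finsum_eq_sum_of_support_subset _ ?_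
  intro n hn
  rw [Finset.mem_coe, Finset.mem_range]
  by_contra h
  apply hn
  change (-1 : ℤ) ^ n * (Nat.card (stn (f '' Set.univ) n) : ℤ) = 0
  rw [stn_empty hS (by omega)]
  simp

end

section
variable {G : Type*} [Group G]

/-- counting chains modulo `r` -/
lemma eu_mod {r : ℕ} [hr : Fact r.Prime] [Finite G] {S : Set (Subgroup G)}
    (U : Subgroup G) (hU : IsPGroup r U) (hstab : ∀ u ∈ U, ∀ E ∈ S, cj u E ∈ S) :
    (r : ℤ) ∣ eu S - eu {E | E ∈ S ∧ U ≤ normalizer (E : Set G)} := by
  have hS : S.Finite := Set.toFinite S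
  set X : Set (Subgroup G) := {E | E ∈ S ∧ U ≤ normalizer (E : Set G)} with hX
  have hXS : Nat.card X ≤ Nat.card S := Nat.card_mono hS fun E hE => hE.1
  have hdiv : ∀ n, (r : ℤ) ∣ (Nat.card (stn S n) : ℤ) - (Nat.card (stn X n) : ℤ) := by
    intro n
    have hfin : Finite (stn S n) := stn_finite hS n
    have hmap : ∀ u : U, ∀ l ∈ stn S n, l.map (cj (u : G)) ∈ stn S n := by
      rintro u l ⟨h1, h2, h3⟩
      refine ⟨by rw [List.length_map, h1], ?_, ?_⟩
      · rw [List.pairwise_map]
        exact h2.imp fun h => cj_lt.2 h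
      · intro a ha
        obtain ⟨b, hb, rfl⟩ := List.mem_map.1 ha
        exact hstab u u.2 b (h3 b hb)
    let act : MulAction U (stn S n) :=
      { smul := fun u l => ⟨l.1.map (cj (u : G)), hmap u l.1 l.2⟩
        one_smul := fun l => by
          apply Subtype.ext
          change l.1.map (cj ((1 : U) : G)) = l.1
          conv_rhs => rw [← List.map_id l.1]
          exact List.map_congr_left fun a _ => by simp [cj_one]
        mul_smul := fun u v l => by
          apply Subtype.ext
          change l.1.map (cj ((u * v : U) : G)) = (l.1.map (cj (v : G))).map (cj (u : G))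
          rw [List.map_map]
          exact List.map_congr_left fun a _ => by simp [cj_mul] }
    have h1 := hU.card_modEq_card_fixedPoints (stn S n)
    have h2 : Nat.card (MulAction.fixedPoints U (stn S n)) = Nat.card (stn X n) := by
      refine Nat.card_congr ⟨fun l => ⟨l.1.1, l.1.2.1, l.1.2.2.1, fun a ha =>
        ⟨l.1.2.2.2 a ha, ?_⟩⟩, fun l => ⟨⟨l.1, l.2.1, l.2.2.1, fun a ha => (l.2.2.2 a ha).1⟩, ?_⟩,
        fun _ => rfl, fun _ => rfl⟩
      · intro u hu
        rw [← cj_eq_iff]
        have h3 := congrArg Subtype.val (l.2 ⟨u, hu⟩)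
        have h4 : l.1.1.map (cj u) = l.1.1.map id := by
          rw [List.map_id]; exact h3
        exact List.map_inj_left.1 h4 a ha
      · intro u
        apply Subtype.ext
        change l.1.map (cj (u : G)) = l.1
        conv_rhs => rw [← List.map_id l.1]
        exact List.map_congr_left fun a ha => cj_eq_iff.2 ((l.2.2.2 a ha).2 u.2)
    rw [h2] at h1
    have h5 := (Nat.modEq_iff_dvd.1 h1.symm)
    exact h5
  rw [← eu_eq hS le_rfl, ← eu_eq (Set.toFinite X) hXS, ← Finset.sum_sub_distrib]
  refine Finset.dvd_sum fun n _ => ?_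
  rw [← mul_sub]
  exact Dvd.dvd.mul_left (hdiv n) _

end

end Vale.Agent.P240.K
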