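import Vale.Agent.P240.K.CM
import Vale.Agent.P240.K.Euler

namespace Vale.Agent.P240.K

open Finsupp Subgroup

variable {𝕜 : Type*} [Field 𝕜]

section
variable {α β : Type*} [PartialOrder α] [PartialOrder β]

lemma eu_emb {f : α → β} (hf : Function.Injective f) (hlt : ∀ x y, x < y ↔ f x < f y) (S : Set α) :
    eu (f '' S) = eu S := by
  have h1 : Nat.card (f '' S) = Nat.card S := Nat.card_image_of_injective hf S
  have key : ∀ l : List β, st (f '' S) l → ∃ l' : List α, st S l' ∧ l'.map f = l := by
    intro l
    induction l with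
    | nil => intro _; exact ⟨[], ⟨by simp, by simp⟩, rfl⟩
    | cons y l ih =>
      intro hl
      have hp := List.pairwise_cons.1 hl.1
      obtain ⟨l', hl', rfl⟩ := ih ⟨hp.2, fun a ha => hl.2 a (by simp [ha])⟩
      obtain ⟨x, hx, rfl⟩ := hl.2 y (by simp)
      refine ⟨x :: l', ⟨?_, ?_⟩, rfl⟩
      · rw [List.pairwise_cons]
        refine ⟨fun a ha => (hlt a x).2 (hp.1 _ (List.mem_map_of_mem ha)), hl'.1⟩
      · intro a ha
        rcases List.mem_cons.1 ha with h | ha
        · rw [h]; exact hx
        · exact hl'.2 a ha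
  have h2 : ∀ n, Nat.card (stn (f '' S) n) = Nat.card (stn S n) := by
    intro n
    have : stn (f '' S) n = (List.map f) '' stn S n := by
      ext l
      constructor
      · rintro ⟨hl1, hl2⟩
        obtain ⟨l', hl', rfl⟩ := key l hl2
        exact ⟨l', ⟨by simpa using hl1, hl'⟩, rfl⟩
      · rintro ⟨l, ⟨hl1, hl2⟩, rfl⟩
        exact ⟨by simpa using hl1, st_map (T := f '' S) (fun x hx => Set.mem_image_of_mem f hx)
          (fun x _ y _ h => (hlt x y).1 h) l hl2⟩
    rw [this]
    exact Nat.card_image_of_injective (List.map_injective_iff.2 hf) _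
  rw [eu, eu, h1]
  exact Finset.sum_congr rfl fun n _ => by rw [h2]

end

section
variable {G : Type*} [Group G] {p : ℕ}

lemma eu_sub (H : Subgroup G) : eu (Ain p H) = eu (ApS p H) := by
  have h : (fun E : Subgroup H => E.map H.subtype) '' (ApS p H) = Ain p H := by
    ext E
    constructor
    · rintro ⟨F, hF, rfl⟩
      exact ⟨(map_mem_ApS (f := H.subtype) H.subtype_injective).2 hF, Subgroup.map_subtype_le F⟩
    · rintro ⟨hE, h4⟩
      refine ⟨E.subgroupOf H, ?_, Subgroup.map_subgroupOf_eq_of_le h4⟩
      rw [← map_mem_ApS (f := H.subtype) H.subtype_injective]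
      rw [Subgroup.map_subgroupOf_eq_of_le h4]
      exact hE
  rw [← h]
  refine eu_emb (Subgroup.map_injective H.subtype_injective) (fun x y => ?_) _
  constructor
  · intro hxy
    refine lt_of_le_of_ne (Subgroup.map_mono hxy.le) fun h => hxy.ne ?_
    exact Subgroup.map_injective H.subtype_injective h
  · intro hxy
    refine lt_of_le_of_ne ?_ fun h => hxy.ne (by rw [h])
    exact (Subgroup.map_le_map_iff_of_injective H.subtype_injective).1 hxy.le

end

section
universe u
variable {G : Type u} [Group G] {p : ℕ}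

lemma euler_Ap (H : Type*) [Group H] [Finite H] : euler p H = eu (ApS p H) := by
  change eulerT (Ap p H) = _
  refine euler_eq (f := fun A => A.1) (fun A B h => Subtype.ext h) (fun A B => Iff.rfl)
    (Set.toFinite _) ?_
  ext A
  constructor
  · rintro ⟨B, _, rfl⟩
    exact B.2
  · intro h
    exact ⟨⟨A, h⟩, trivial, rfl⟩

end

end Vale.Agent.P240.K
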