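import Vale.Agent.P240.K.Groups
import Vale.Agent.P240.K.CompLike

namespace Vale.Agent.P240.K

open Finsupp Subgroup

variable {𝕜 : Type*} [Field 𝕜]

variable {G Q : Type*} [Group G] [Group Q] {p : ℕ}

/-- pullback to `G` of a subgroup of `Q` along `π : N → Q` -/
def pb (N : Subgroup G) (π : N →* Q) (X : Subgroup Q) : Subgroup G := (X.comap π).map N.subtype

lemma mem_pb {N : Subgroup G} {π : N →* Q} {X : Subgroup Q} {g : G} :
    g ∈ pb N π X ↔ ∃ n : N, (n : G) = g ∧ π n ∈ X := by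
  rw [pb, Subgroup.mem_map]
  constructor
  · rintro ⟨n, hn, rfl⟩; exact ⟨n, rfl, hn⟩
  · rintro ⟨n, rfl, hn⟩; exact ⟨n, hn, rfl⟩

lemma pb_mono {N : Subgroup G} {π : N →* Q} {X Y : Subgroup Q} (h : X ≤ Y) :
    pb N π X ≤ pb N π Y := by
  intro g hg
  rw [mem_pb] at *
  obtain ⟨n, rfl, hn⟩ := hg
  exact ⟨n, rfl, h hn⟩

lemma pb_le {N : Subgroup G} {π : N →* Q} {X : Subgroup Q} : pb N π X ≤ N := by
  intro g hg
  obtain ⟨n, rfl, _⟩ := mem_pb.1 hg
  exact n.2

/-- `x = y` if `x y⁻¹ ∈ C ⊓ M = ⊥`. -/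
lemma eq_of_mem {N M C : Subgroup G} {π : N →* Q} (hπ : ∀ n : N, π n = 1 ↔ (n : G) ∈ M)
    (hCM : C ⊓ M = ⊥) {x y : N} (hx : (x : G) ∈ C) (hy : (y : G) ∈ C) (h : π x = π y) :
    x = y := by
  have h1 : ((x * y⁻¹ : N) : G) ∈ C ⊓ M := by
    refine Subgroup.mem_inf.2 ⟨?_, ?_⟩
    · simpa using mul_mem hx (inv_mem hy)
    · rw [← hπ, map_mul, map_inv, h, mul_inv_cancel]
  rw [hCM, Subgroup.mem_bot] at h1
  have h2 : x * y⁻¹ = 1 := Subtype.ext h1
  rwa [mul_inv_eq_one] at h2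

lemma pb_inf_ApS {N M C : Subgroup G} {π : N →* Q} (hπ : ∀ n : N, π n = 1 ↔ (n : G) ∈ M)
    (hCM : C ⊓ M = ⊥) {X : Subgroup Q} (hXc : ∀ x ∈ X, ∀ y ∈ X, x * y = y * x)
    (hXp : ∀ x ∈ X, x ^ p = 1) (hne : pb N π X ⊓ C ≠ ⊥) : pb N π X ⊓ C ∈ Ain p C := by
  refine ⟨⟨hne, ?_, ?_⟩, inf_le_right⟩
  · rintro x ⟨hx, hxC⟩ y ⟨hy, hyC⟩
    obtain ⟨m, rfl, hm⟩ := mem_pb.1 hx
    obtain ⟨n, rfl, hn⟩ := mem_pb.1 hy
    have := eq_of_mem (x := m * n) (y := n * m) hπ hCM (by simpa using mul_mem hxC hyC)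
      (by simpa using mul_mem hyC hxC) (by rw [map_mul, map_mul, hXc _ hm _ hn])
    exact congrArg Subtype.val this
  · rintro x ⟨hx, hxC⟩
    obtain ⟨m, rfl, hm⟩ := mem_pb.1 hx
    have := eq_of_mem (x := m ^ p) (y := 1) hπ hCM (by simpa using pow_mem hxC p)
      (by simp) (by rw [map_pow, map_one, hXp _ hm])
    exact congrArg Subtype.val this

lemma pb_fq {N M C : Subgroup G} {π : N →* Q} (hπ : ∀ n : N, π n = 1 ↔ (n : G) ∈ M)
    (hCN : C ≤ N) (hCM : C ⊓ M = ⊥) {B : Subgroup G} (hB : B ≤ C) :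
    pb N π (fq N π B) ⊓ C = B := by
  ext g
  constructor
  · rintro ⟨hg, hgC⟩
    obtain ⟨n, rfl, hn⟩ := mem_pb.1 hg
    obtain ⟨m, hm, hmn⟩ := mem_fq.1 hn
    rw [eq_of_mem hπ hCM hgC (hB hm) hmn.symm]
    exact hm
  · intro hg
    exact ⟨mem_pb.2 ⟨⟨g, hCN (hB hg)⟩, rfl, mem_fq.2 ⟨⟨g, hCN (hB hg)⟩, hg, rfl⟩⟩, hB hg⟩

lemma exists_ApS_le [Fact p.Prime] [Finite G] {H : Subgroup G} (h : p ∣ Nat.card H) :
    ∃ F ∈ ApS p G, F ≤ H := by
  obtain ⟨x, hx⟩ := exists_prime_orderOf_dvd_card' p h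
  refine ⟨zpowers (x : G), ⟨?_, ?_, ?_⟩, ?_⟩
  · rw [Ne, Subgroup.zpowers_eq_bot]
    intro h1
    have h2 : x = 1 := Subtype.ext h1
    rw [h2, orderOf_one] at hx
    exact (Fact.out : p.Prime).one_lt.ne hx
  · rintro a ⟨i, rfl⟩ b ⟨j, rfl⟩
    simp only [← zpow_add, add_comm]
  · rintro a ⟨i, rfl⟩
    have hxp : (x : G) ^ p = 1 := by
      have := pow_orderOf_eq_one x
      rw [hx] at this
      exact_mod_cast congrArg Subtype.val this
    change ((x : G) ^ i) ^ p = 1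
    rw [← zpow_natCast, ← zpow_mul, mul_comm, zpow_mul, zpow_natCast, hxp, one_zpow]
  · rw [Subgroup.zpowers_le]
    exact x.2

lemma decomp {N L K : Subgroup G} (hLN : L ≤ N) (hKN : K ≤ N) [hLn : (L.subgroupOf N).Normal]
    [hKn : (K.subgroupOf N).Normal] {x y : G} (hx : x ∈ N) (hy : y ∈ N)
    (h : y ∈ zpowers x ⊔ (L ⊔ K)) : ∃ i : ℤ, ∃ l ∈ L, ∃ k ∈ K, y = x ^ i * (l * k) := by
  have h1 : (⟨y, hy⟩ : N) ∈ (zpowers x ⊔ (L ⊔ K)).subgroupOf N := by
    rw [Subgroup.mem_subgroupOf]; exact h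
  rw [Subgroup.subgroupOf_sup (by rw [Subgroup.zpowers_le]; exact hx) (sup_le hLN hKN),
    Subgroup.subgroupOf_sup hLN hKN, Subgroup.mem_sup_of_normal_right] at h1
  obtain ⟨a, ha, b, hb, hab⟩ := h1
  rw [Subgroup.mem_sup_of_normal_right] at hb
  obtain ⟨l, hl, k, hk, hlk⟩ := hb
  rw [Subgroup.mem_subgroupOf] at ha hl hk
  obtain ⟨i, hi⟩ := ha
  refine ⟨i, l, hl, k, hk, ?_⟩
  have := congrArg Subtype.val hab
  rw [← hlk] at this
  simp only [Subgroup.coe_mul] at this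
  rw [← this, ← hi]

section core

variable [Fact p.Prime] [Finite G]

theorem elimination_core (L : Subgroup G) (hL : CompLike p L) (N K : Subgroup G)
    (hN : N = normalizer (L : Set G)) (hK : K = centralizer (L : Set G))
    (πK : N →* Q) (hπK : ∀ n : N, πK n = 1 ↔ (n : G) ∈ K) (hsurj : Function.Surjective πK)
    (hout : ∀ x ∈ N, ∀ y ∈ N, x ^ p ∈ K → y ^ p ∈ K → x ∉ L ⊔ K → y ∉ L ⊔ K →
      y ∈ zpowers x ⊔ (L ⊔ K))
    (h1 : NA 𝕜 (Ain p L)) (h2 : NA 𝕜 (Ain p K)) (h3 : NA 𝕜 (ApS p Q)) : NA 𝕜 (ApS p G) := by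
  classical
  have hLN : L ≤ N := by rw [hN]; exact Subgroup.le_normalizer
  have hKN : K ≤ N := by
    intro k hk
    rw [hK] at hk
    rw [hN, Subgroup.mem_normalizer_iff]
    intro h
    constructor
    · intro hh
      rw [← (Subgroup.mem_centralizer_iff.1 hk) h hh, mul_assoc, mul_inv_cancel, mul_one]
      exact hh
    · intro hh
      have h4 := (Subgroup.mem_centralizer_iff.1 hk) _ hh
      have h5 : k * h * k⁻¹ * k = k * h := by group
      rw [h5] at h4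
      have h6 : h = k * h * k⁻¹ := mul_left_cancel h4
      rw [h6]
      exact hh
  have hLn : (L.subgroupOf N).Normal := by
    rw [hN]; exact Subgroup.normal_in_normalizer
  have hKn : (K.subgroupOf N).Normal := by
    have : K.subgroupOf N = πK.ker := by
      ext n
      rw [Subgroup.mem_subgroupOf, MonoidHom.mem_ker, hπK]
    rw [this]
    exact MonoidHom.normal_ker _
  have hLK : L ⊓ K = ⊥ := by rw [hK]; exact hL.centre
  have hKL : K ⊓ L = ⊥ := by rw [inf_comm]; exact hLK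
  have hLKc : ∀ l ∈ L, ∀ k ∈ K, l * k = k * l := fun l hl k hk => by
    rw [hK] at hk
    exact (Subgroup.mem_centralizer_iff.1 hk) l hl
  -- the quotient by `L`
  let πL : N →* N ⧸ (L.subgroupOf N) := QuotientGroup.mk' _
  have hπL : ∀ n : N, πL n = 1 ↔ (n : G) ∈ L := by
    intro n
    rw [← Subgroup.mem_subgroupOf]
    exact QuotientGroup.eq_one_iff n
  let SR : Set (Subgroup (N ⧸ (L.subgroupOf N))) := {X | ∃ E ∈ Ain p N, ¬ E ≤ L ∧ fq N πL E = X}
  have hSRa : SR ⊆ ApS p (N ⧸ (L.subgroupOf N)) := by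
    rintro _ ⟨E, hE, hEL, rfl⟩
    exact fq_mem_ApS hπL hE.1 hE.2 hEL
  have hKSR : ∀ B ∈ Ain p K, fq N πL B ∈ SR := fun B hB =>
    ⟨B, ⟨hB.1, hB.2.trans hKN⟩, fun h => hB.1.1 (le_bot_iff.1 (hKL ▸ le_inf hB.2 h)), rfl⟩
  -- strictness of `fq N πL` on `Ain p K`
  have hfst : ∀ B ∈ Ain p K, ∀ B' ∈ Ain p K, B < B' → fq N πL B < fq N πL B' := by
    intro B hB B' hB' h
    refine lt_of_le_of_ne (fq_mono h.le) fun he => h.ne ?_
    rw [← pb_fq hπL hKN hKL hB.2, ← pb_fq hπL hKN hKL hB'.2, he]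
  obtain ⟨al, hal, hbal, haln⟩ := h1
  by_cases ha : ∃ be ∈ Sp 𝕜 (st (Ain p K)), bd be = 0 ∧ mp (fq N πL) be ∉ Bst 𝕜 SR
  · -- case (a)
    obtain ⟨be, hbe, hbbe, hben⟩ := ha
    have hmst : mp (fq N πL) be ∈ Sp 𝕜 (st SR) := mp_mem (st_map hKSR hfst) hbe
    obtain ⟨lW, hnW, hW, -, hlW⟩ := exists_cocycle SR ⊥ (mp (fq N πL) be) (by
      rw [pi_of_st hmst, sup_bot_eq]; exact hben)
    obtain ⟨lD, hnD, hD, -, hlD⟩ := exists_cocycle (Ain p L) ⊥ al (by
      rw [pi_of_st hal, sup_bot_eq]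
      rintro ⟨c, hc, hcz⟩
      exact haln c hc hcz)
    refine detect N L hLN πL hπL SR (fun E hE hEL => ⟨E, hE, hEL, rfl⟩) lW lD hnW hnD hW hD ?_
      K L hKN le_rfl (fun k hk l hl => (hLKc l hl k hk).symm) hKL be al
      (Sp_mono st_wk hbe) (Sp_mono st_wk hal) hbbe hbal hlW hlD
    intro g hg l hl
    rcases l with _ | ⟨E, l⟩
    · obtain ⟨F, hF, hFL⟩ := exists_ApS_le (G := G) hL.dvd
      have : bd (single [F] (1 : 𝕜)) = single [] (1 : 𝕜) := by simp [bd_single_cons]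
      rw [← this]
      exact hD _ (single_mem_Sp ⟨by simp, by simpa using ⟨hF, hFL⟩⟩ _)
    · exfalso
      obtain ⟨hE, hEg⟩ := hl.2 E (by simp)
      apply hE.1.1
      rw [eq_bot_iff, ← hLK]
      intro x hx
      refine Subgroup.mem_inf.2 ⟨hE.2 hx, ?_⟩
      rw [hK, Subgroup.mem_centralizer_iff]
      intro y hy
      rw [hN] at hg
      have h5 := hL.conj g hg y hy x (hE.2 hx)
      have h6 : g * x * g⁻¹ = x := by
        rw [hEg x hx, mul_assoc, mul_inv_cancel, mul_one]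
      rwa [h6] at h5
  · -- case (b)
    push Not at ha
    obtain ⟨be, hbe, hbbe, hben⟩ := h2
    have hmst : mp (fq N πL) be ∈ Sp 𝕜 (st SR) := mp_mem (st_map hKSR hfst) hbe
    obtain ⟨c, hc, hcz⟩ := ha be hbe hbbe
    let kap : Subgroup (N ⧸ (L.subgroupOf N)) → Subgroup G := fun X => pb N πL X ⊓ K
    have hkmono : ∀ X Y, X ≤ Y → kap X ≤ kap Y := fun X Y h => inf_le_inf_right _ (pb_mono h)
    have hkf : ∀ B ∈ Ain p K, kap (fq N πL B) = B := fun B hB => pb_fq hπL hKN hKL hB.2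
    have hkA : ∀ X ∈ SR, kap X ≠ ⊥ → kap X ∈ Ain p K := fun X hX hne =>
      pb_inf_ApS hπL hKL (hSRa hX).2.1 (hSRa hX).2.2 hne
    -- elements of `E` in `L K` lie in `L` when `kap` is trivial
    have hELK : ∀ E ∈ Ain p N, kap (fq N πL E) = ⊥ → ∀ x ∈ E, x ∈ L ⊔ K → x ∈ L := by
      intro E hE hk x hx hxLK
      obtain ⟨i, l, hl, k, hk', hxe⟩ := decomp hLN hKN (x := 1) (one_mem N) (hE.2 hx)
        (Subgroup.mem_sup_right hxLK)
      rw [one_zpow, one_mul] at hxe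
      have h4 : k ∈ kap (fq N πL E) := by
        refine Subgroup.mem_inf.2 ⟨mem_pb.2 ⟨⟨k, hKN hk'⟩, rfl, mem_fq.2
          ⟨⟨x, hE.2 hx⟩, hx, ?_⟩⟩, hk'⟩
        have h5 : (⟨x, hE.2 hx⟩ : N) = ⟨l, hLN hl⟩ * ⟨k, hKN hk'⟩ := Subtype.ext hxe
        rw [h5, map_mul, (hπL ⟨l, hLN hl⟩).2 hl, one_mul]
      rw [hk, Subgroup.mem_bot] at h4
      rw [hxe, h4, mul_one]
      exact hl
    have key : ∀ X ∈ SR, ∀ Y ∈ SR, X ≤ Y → kap Y = ⊥ → X = Y := by
      rintro X ⟨E', hE', hE'L, rfl⟩ Y ⟨E, hE, hEL, rfl⟩ hXY hk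
      refine le_antisymm hXY ?_
      obtain ⟨x', hx', hx'L⟩ := Set.not_subset.1 hE'L
      have hx'X : πL ⟨x', hE'.2 hx'⟩ ∈ fq N πL E' := mem_fq.2 ⟨⟨x', hE'.2 hx'⟩, hx', rfl⟩
      obtain ⟨x, hxE, hxx'⟩ := mem_fq.1 (hXY hx'X)
      have hxL : (x : G) ∉ L := by
        rw [← hπL, hxx', hπL]
        exact hx'L
      have hxLK : (x : G) ∉ L ⊔ K := fun h => hxL (hELK E hE hk x hxE h)
      intro q hq
      obtain ⟨y, hyE, rfl⟩ := mem_fq.1 hq
      by_cases hyL : (y : G) ∈ L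
      · rw [(hπL y).2 hyL]; exact one_mem _
      have hyLK : (y : G) ∉ L ⊔ K := fun h => hyL (hELK E hE hk y hyE h)
      have h4 := hout x x.2 y y.2 (by rw [hE.1.2.2 _ hxE]; exact one_mem _)
        (by rw [hE.1.2.2 _ hyE]; exact one_mem _) hxLK hyLK
      obtain ⟨i, l, hl, k, hk', hye⟩ := decomp hLN hKN x.2 y.2 h4
      have h5 : y = x ^ i * (⟨l, hLN hl⟩ * ⟨k, hKN hk'⟩) := Subtype.ext (by simpa using hye)
      have h6 : πL y = πL x ^ i * πL ⟨k, hKN hk'⟩ := by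
        rw [h5, map_mul, map_mul, (hπL ⟨l, hLN hl⟩).2 hl, one_mul, map_zpow]
      have hxY : πL x ∈ fq N πL E := mem_fq.2 ⟨x, hxE, rfl⟩
      have h7 : πL ⟨k, hKN hk'⟩ ∈ fq N πL E := by
        have : πL ⟨k, hKN hk'⟩ = (πL x ^ i)⁻¹ * πL y := by rw [h6]; group
        rw [this]
        exact mul_mem (inv_mem (zpow_mem hxY i)) (mem_fq.2 ⟨y, hyE, rfl⟩)
      have h8 : k ∈ kap (fq N πL E) :=
        Subgroup.mem_inf.2 ⟨mem_pb.2 ⟨⟨k, hKN hk'⟩, rfl, h7⟩, hk'⟩
      rw [hk, Subgroup.mem_bot] at h8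
      have h9 : (⟨k, hKN hk'⟩ : N) = 1 := Subtype.ext h8
      rw [h6, h9, map_one, mul_one, hxx']
      exact zpow_mem hx'X i
    -- split the bounding chain
    let P : Set (Subgroup (N ⧸ (L.subgroupOf N))) := {X | X ∈ SR ∧ kap X = ⊥}
    have hfz : mp (fq N πL) be ∈ Sp 𝕜 (st (SR \ P)) := by
      refine mp_mem (st_map (T := SR \ P) (fun B hB => ⟨hKSR B hB, fun h => ?_⟩) hfst) hbe
      exact hB.1.1 ((hkf B hB).symm.trans h.2)
    obtain ⟨c0, hc0, s, e, hs, he, hsum⟩ := exact_split (S := SR) (P := P)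
      (fun X hX Y hY hYX => key Y hY X hX.1 hYX hX.2) hc hfz hcz
    have hmk : mp kap (mp (fq N πL) be) = be := by
      rw [mp_mp]
      have := eq_of_Sp (F := mp (kap ∘ fq N πL)) (G := LinearMap.id)
        (fun l (hl : st (Ain p K) l) => by
          rw [mp_single]
          have : l.map (kap ∘ fq N πL) = l := by
            conv_rhs => rw [← List.map_id l]
            exact List.map_congr_left fun E hE => hkf E (hl.2 E hE)
          rw [this]; rfl) hbe
      simpa using this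
    have heq : be = bd (mp kap c0) + ∑ X ∈ s, mp kap (e X) := by
      rw [← hmk, hsum, map_add, map_sum, bd_mp]
    have hc0' : mp kap c0 ∈ Sp 𝕜 (wk (Ain p K)) := by
      refine mp_mem (wk_map (S := SR \ P) (fun X hX => hkA X hX.1 fun h => hX.2 ⟨hX.1, h⟩)
        fun X _ Y _ h => hkmono X Y h) (Sp_mono st_wk hc0)
    have hev : ∀ X ∈ s, mp kap (e X) ∈
        Sp 𝕜 (wk (Ain p (K ⊓ centralizer ((pb N πL X : Subgroup G) : Set G)))) := by
      intro X hX
      have hXP := (hs X hX).1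
      refine mp_mem (wk_map (S := {Y | Y ∈ SR ∧ X < Y}) ?_
        fun X _ Y _ h => hkmono X Y h) (Sp_mono st_wk (he X hX).1)
      rintro Y ⟨hY, hXY⟩
      have h4 := hkA Y hY fun h => hXY.ne (key X hXP.1 Y hY hXY.le h)
      refine ⟨h4.1, le_inf inf_le_right ?_⟩
      intro k hk
      obtain ⟨hk1, hk2⟩ := Subgroup.mem_inf.1 hk
      obtain ⟨k', rfl, hk'⟩ := mem_pb.1 hk1
      rw [Subgroup.mem_centralizer_iff]
      intro h hh
      obtain ⟨h', rfl, hh'⟩ := mem_pb.1 hh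
      have h5 : πL (h' * k') = πL (k' * h') := by
        rw [map_mul, map_mul]
        exact (hSRa hY).2.1 _ (hXY.le hh') _ hk'
      -- the commutator lies in `L` and in `K`
      have h6 : ((h' * k' * h'⁻¹ * k'⁻¹ : N) : G) ∈ K ⊓ L := by
        refine Subgroup.mem_inf.2 ⟨?_, ?_⟩
        · rw [← hπK, map_mul, map_mul, map_mul, map_inv, map_inv, (hπK k').2 hk2]
          group
        · rw [← hπL, map_mul, map_mul, map_inv, map_inv, h5, map_mul]
          group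
      rw [hKL, Subgroup.mem_bot] at h6
      have h7 : h' * k' * h'⁻¹ * k'⁻¹ = 1 := Subtype.ext h6
      have h8 : h' * k' = k' * h' := by
        rw [mul_inv_eq_one, mul_inv_eq_iff_eq_mul] at h7
        exact h7
      exact congrArg Subtype.val h8
    -- the conjugates of `L`
    let ι := {L2 : Subgroup G // L2 ≠ L ∧ ∃ g : G, L2 = L.map (MulAut.conj g).toMonoidHom}
    have : Fintype ι := Fintype.ofFinite ι
    let T : ι → Set (Subgroup G) := fun i => {E | E ∈ Ain p K ∧ ∀ x ∈ E, ∀ y ∈ i.1, x * y = y * x}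
    have hconjN : ∀ g : G, g ∈ N → L.map (MulAut.conj g).toMonoidHom = L := by
      intro g hg
      rw [hN, Subgroup.mem_normalizer_iff] at hg
      ext x
      rw [Subgroup.mem_map]
      constructor
      · rintro ⟨y, hy, rfl⟩
        exact (hg y).1 hy
      · intro hx
        refine ⟨g⁻¹ * x * g, ?_, ?_⟩
        · rw [hg]
          have : g * (g⁻¹ * x * g) * g⁻¹ = x := by group
          rw [this]; exact hx
        · simp [mul_assoc]
    have hcomm2 : ∀ g h : G, L.map (MulAut.conj g).toMonoidHom ≠ L.map (MulAut.conj h).toMonoidHom →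
        ∀ x ∈ L.map (MulAut.conj g).toMonoidHom, ∀ y ∈ L.map (MulAut.conj h).toMonoidHom,
        x * y = y * x := by
      rintro g h hgh _ ⟨x, hx, rfl⟩ _ ⟨y, hy, rfl⟩
      have h4 : g⁻¹ * h ∉ N := by
        intro hmem
        apply hgh
        have h5 := hconjN _ hmem
        have h6 : L.map (MulAut.conj h).toMonoidHom =
            (L.map (MulAut.conj (g⁻¹ * h)).toMonoidHom).map (MulAut.conj g).toMonoidHom := by
          rw [Subgroup.map_map]
          congr 1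
          ext z
          simp [mul_assoc]
        rw [h6, h5]
      rw [hN] at h4
      have h7 := hL.conj _ h4 x hx y hy
      have h8 := congrArg (fun z => g * z * g⁻¹) h7
      simp only [MulEquiv.toMonoidHom_eq_coe, MonoidHom.coe_coe, MulAut.conj_apply]
      calc g * x * g⁻¹ * (h * y * h⁻¹)
          = g * (x * (g⁻¹ * h * y * (g⁻¹ * h)⁻¹)) * g⁻¹ := by group
        _ = g * ((g⁻¹ * h * y * (g⁻¹ * h)⁻¹) * x) * g⁻¹ := h8
        _ = h * y * h⁻¹ * (g * x * g⁻¹) := by group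
    have hmap1 : L.map (MulAut.conj (1 : G)).toMonoidHom = L := hconjN 1 (one_mem N)
    have hcomm1 : ∀ i : ι, ∀ x ∈ L, ∀ y ∈ i.1, x * y = y * x := by
      rintro ⟨_, hne, g, rfl⟩ x hx y hy
      refine hcomm2 1 g ?_ x (by rw [hmap1]; exact hx) y hy
      rw [hmap1]; exact hne.symm
    have hιK : ∀ i : ι, i.1 ≤ K := by
      intro i y hy
      rw [hK, Subgroup.mem_centralizer_iff]
      exact fun x hx => hcomm1 i x hx y hy
    have hFex : ∀ i : ι, ∃ F ∈ ApS p G, F ≤ i.1 := by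
      rintro ⟨_, hne, g, rfl⟩
      refine exists_ApS_le ?_
      rw [Subgroup.card_map_of_injective (MulAut.conj g).injective]
      exact hL.dvd
    choose F hF hFi using hFex
    have hιι : ∀ i j : ι, i ≠ j → ∀ x ∈ i.1, ∀ y ∈ j.1, x * y = y * x := by
      rintro ⟨_, hne, g, rfl⟩ ⟨_, hne', h, rfl⟩ hij x hx y hy
      exact hcomm2 g h (fun h => hij (Subtype.ext h)) x hx y hy
    have hsupA : ∀ i : ι, ∀ E ∈ T i, E ⊔ F i ∈ Ain p K := fun i E hE =>
      ⟨sup_mem_ApS hE.1.1 (hF i) fun x hx y hy => hE.2 x hx y (hFi i hy),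
        sup_le hE.1.2 ((hFi i).trans (hιK i))⟩
    have hrel := rel_zero (𝕜 := 𝕜) (Ain p K) T F (fun i E hE => hE.1)
      (fun i => ⟨hF i, (hFi i).trans (hιK i)⟩) hsupA
      (fun i j hij => ⟨⟨hF i, (hFi i).trans (hιK i)⟩, fun x hx y hy =>
        hιι i j hij x (hFi i hx) y hy⟩)
      (fun i j hij E hE hE' => ⟨hsupA i E hE, by
        have h4 : E ⊔ F i ≤ centralizer (j.1 : Set G) := by
          refine sup_le ?_ ?_
          · intro x hx
            rw [Subgroup.mem_centralizer_iff]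
            exact fun y hy => (hE'.2 x hx y hy).symm
          · intro x hx
            rw [Subgroup.mem_centralizer_iff]
            exact fun y hy => (hιι i j hij x (hFi i hx) y hy).symm
        intro x hx y hy
        exact ((Subgroup.mem_centralizer_iff.1 (h4 hx)) y hy).symm⟩)
      Finset.univ
    let V : Submodule 𝕜 (Ch 𝕜 (Subgroup G)) := Sp 𝕜 (fun l => ∃ i ∈ (Finset.univ : Finset ι), wk (T i) l)
    have hbeV : be ∉ Bst 𝕜 (Ain p K) ⊔ V := by
      intro h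
      obtain ⟨b, ⟨c1, hc1, rfl⟩, w, hw, hbw⟩ := Submodule.mem_sup.1 h
      have hbw0 : bd w = 0 := by
        have h4 := congrArg bd hbw
        rw [map_add, hbbe, bd_bd, zero_add] at h4
        exact h4
      obtain ⟨c2, hc2, hc2w⟩ := hrel w hw hbw0
      have h5 : c1 + c2 ∈ Sp 𝕜 (wk (Ain p K)) := Submodule.add_mem _ (Sp_mono st_wk hc1) hc2
      refine hben (pi (c1 + c2)) (pi_mem h5) ?_
      rw [bd_pi h5, map_add, hc2w, hbw, pi_of_st hbe]
    obtain ⟨X, hXs, hXV⟩ : ∃ X ∈ s, pi (mp kap (e X)) ∉ Bst 𝕜 (Ain p K) ⊔ V := by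
      by_contra hcon
      push Not at hcon
      apply hbeV
      have h4 : be = bd (pi (mp kap c0)) + ∑ X ∈ s, pi (mp kap (e X)) := by
        conv_lhs => rw [← pi_of_st hbe, heq]
        rw [map_add, map_sum, bd_pi hc0']
      rw [h4]
      refine Submodule.add_mem _ (Submodule.mem_sup_left ⟨_, pi_mem hc0', rfl⟩) ?_
      exact Submodule.sum_mem _ fun X hX => hcon X hX
    have hXP := (hs X hXs).1
    obtain ⟨lD, hnD, hD, hDV, hlD⟩ := exists_cocycle (Ain p K) V (mp kap (e X)) hXV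
    -- lift of the cycle of `Q`
    obtain ⟨om, hom, hbom, homn⟩ := h3
    obtain ⟨lW, hnW, hW, -, hlW⟩ := exists_cocycle (ApS p Q) ⊥ om (by
      rw [pi_of_st hom, sup_bot_eq]
      rintro ⟨c, hc, hcz⟩
      exact homn c hc hcz)
    set H1 : Subgroup G := pb N πL X with hH1
    have hH1K : H1 ⊓ K = ⊥ := hXP.2
    let sig : Subgroup Q → Subgroup G := fun E => pb N πK E ⊓ H1
    have hsf : ∀ E ∈ ApS p Q, fq N πK (sig E) = E := by
      intro E hE
      refine le_antisymm ?_ ?_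
      · intro q hq
        obtain ⟨n, hn, rfl⟩ := mem_fq.1 hq
        obtain ⟨n', hn', h4⟩ := mem_pb.1 (Subgroup.mem_inf.1 hn).1
        rw [← Subtype.ext hn']
        exact h4
      · intro q hq
        obtain ⟨n, rfl⟩ := hsurj q
        have hnp : ((n : G)) ^ p ∈ K := by
          have : ((n ^ p : N) : G) ∈ K := by rw [← hπK, map_pow, hE.2.2 _ hq]
          simpa using this
        have hfin : ∀ m : N, (m : G) ∈ H1 → πK m = πK n → πK n ∈ fq N πK (sig E) := by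
          intro m hm hmn
          exact mem_fq.2 ⟨m, Subgroup.mem_inf.2 ⟨mem_pb.2 ⟨m, rfl, by rw [hmn]; exact hq⟩, hm⟩, hmn⟩
        by_cases hnLK : (n : G) ∈ L ⊔ K
        · obtain ⟨i, l, hl, k, hk', hne⟩ := decomp hLN hKN (x := 1) (one_mem N) n.2
            (Subgroup.mem_sup_right hnLK)
          rw [one_zpow, one_mul] at hne
          have h4 : n = ⟨l, hLN hl⟩ * ⟨k, hKN hk'⟩ := Subtype.ext hne
          refine hfin ⟨l, hLN hl⟩ ?_ ?_
          · refine mem_pb.2 ⟨⟨l, hLN hl⟩, rfl, ?_⟩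
            rw [(hπL ⟨l, hLN hl⟩).2 hl]
            exact one_mem _
          · rw [h4, map_mul, (hπK ⟨k, hKN hk'⟩).2 hk', mul_one]
        · obtain ⟨E', hE', hE'L, hE'X⟩ := hXP.1
          obtain ⟨x, hx, hxL⟩ := Set.not_subset.1 hE'L
          have hkE' : kap (fq N πL E') = ⊥ := by rw [hE'X]; exact hXP.2
          have hxLK : x ∉ L ⊔ K := fun h => hxL (hELK E' hE' hkE' x hx h)
          have h4 := hout x (hE'.2 hx) n n.2 (by rw [hE'.1.2.2 _ hx]; exact one_mem _) hnp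
            hxLK hnLK
          obtain ⟨i, l, hl, k, hk', hne⟩ := decomp hLN hKN (hE'.2 hx) n.2 h4
          have h5 : n = (⟨x, hE'.2 hx⟩ ^ i * ⟨l, hLN hl⟩) * ⟨k, hKN hk'⟩ := by
            refine Subtype.ext ?_
            rw [hne]
            simp [mul_assoc]
          refine hfin (⟨x, hE'.2 hx⟩ ^ i * ⟨l, hLN hl⟩) ?_ ?_
          · refine mem_pb.2 ⟨_, rfl, ?_⟩
            rw [map_mul, (hπL ⟨l, hLN hl⟩).2 hl, mul_one, map_zpow, ← hE'X]
            exact zpow_mem (mem_fq.2 ⟨⟨x, hE'.2 hx⟩, hx, rfl⟩) i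
          · conv_rhs => rw [h5, map_mul, (hπK ⟨k, hKN hk'⟩).2 hk', mul_one]
    have hsA : ∀ E ∈ ApS p Q, sig E ∈ Ain p H1 := fun E hE =>
      pb_inf_ApS hπK hH1K hE.2.1 hE.2.2 fun h => hE.1 (by
        have h4 := hsf E hE
        have h5 : sig E = ⊥ := h
        rw [h5] at h4
        rw [← h4, eq_bot_iff]
        intro q hq
        obtain ⟨n, hn, rfl⟩ := mem_fq.1 hq
        rw [Subgroup.mem_bot] at hn
        have : n = 1 := Subtype.ext hn
        rw [this, map_one]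
        exact one_mem _)
    have hx : mp sig om ∈ Sp 𝕜 (wk (Ain p H1)) :=
      mp_mem (wk_map hsA fun E _ F _ h => inf_le_inf_right _ (pb_mono h)) (Sp_mono st_wk hom)
    have hmx : mp (fq N πK) (mp sig om) = om := by
      rw [mp_mp]
      have := eq_of_Sp (F := mp (fq N πK ∘ sig)) (G := LinearMap.id)
        (fun l (hl : st (ApS p Q) l) => by
          rw [mp_single]
          have : l.map (fq N πK ∘ sig) = l := by
            conv_rhs => rw [← List.map_id l]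
            exact List.map_congr_left fun E hE => hsf E (hl.2 E hE)
          rw [this]; rfl) hom
      simpa using this
    refine detect N K hKN πK hπK (ApS p Q) (fun E hE hEK => fq_mem_ApS hπK hE.1 hE.2 hEK)
      lW lD hnW hnD hW hD ?_ H1 (K ⊓ centralizer (H1 : Set G)) pb_le inf_le_left ?_ hH1K
      (mp sig om) (mp kap (e X)) hx (hev X hXs) (by rw [bd_mp, hbom, map_zero])
      (by rw [bd_mp, (he X hXs).2, map_zero]) (by rw [hmx]; exact hlW) hlD
    · intro g hg l hl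
      refine hDV _ (pi_mem' (single_mem_Sp ?_ _))
      have hgne : L.map (MulAut.conj g).toMonoidHom ≠ L := by
        intro h
        apply hg
        rw [hN, Subgroup.mem_normalizer_iff]
        intro x
        constructor
        · intro hx
          rw [← h]
          exact ⟨x, hx, rfl⟩
        · intro hx
          rw [← h] at hx
          obtain ⟨y, hy, hyx⟩ := hx
          have : y = x := by
            apply (MulAut.conj g).injective
            exact hyx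
          rw [← this]; exact hy
      refine ⟨⟨_, hgne, g, rfl⟩, Finset.mem_univ _, hl.1, ?_⟩
      intro E hE
      obtain ⟨hE1, hE2⟩ := hl.2 E hE
      refine ⟨hE1, ?_⟩
      rintro x hx _ ⟨y, hy, rfl⟩
      have h4 : x * y = y * x := (hLKc y hy x (hE1.2 hx)).symm
      have h5 : g * x = x * g := hE2 x hx
      simp only [MulEquiv.toMonoidHom_eq_coe, MonoidHom.coe_coe, MulAut.conj_apply]
      have h6 : x * g⁻¹ = g⁻¹ * x := by
        rw [eq_inv_mul_iff_mul_eq, ← mul_assoc, h5, mul_assoc, mul_inv_cancel, mul_one]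
      calc x * (g * y * g⁻¹) = x * g * y * g⁻¹ := by group
        _ = g * x * y * g⁻¹ := by rw [h5]
        _ = g * (x * y) * g⁻¹ := by group
        _ = g * (y * x) * g⁻¹ := by rw [h4]
        _ = g * y * (x * g⁻¹) := by group
        _ = g * y * (g⁻¹ * x) := by rw [h6]
        _ = g * y * g⁻¹ * x := by group
    · intro a ha b hb
      exact (Subgroup.mem_centralizer_iff.1 (Subgroup.mem_inf.1 hb).2) a ha

end core

end Vale.Agent.P240.K
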