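import Vale.Agent.P240.K.Elim

namespace Vale.Agent.P240.K

open Subgroup

variable {𝕜 : Type*} [Field 𝕜]

universe u

theorem elimination {p : ℕ} [Fact p.Prime] {G : Type u} [Group G] [Finite G]
    (L : Subgroup G) (hL : CompLike p L)
    (hout : ∀ x ∈ normalizer (L : Set G), ∀ y ∈ normalizer (L : Set G),
      x ^ p ∈ centralizer (L : Set G) → y ^ p ∈ centralizer (L : Set G) →
      x ∉ L ⊔ centralizer (L : Set G) → y ∉ L ⊔ centralizer (L : Set G) →
      y ∈ zpowers x ⊔ (L ⊔ centralizer (L : Set G)))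
    (h1 : HQ 𝕜 p L) (h2 : HQ 𝕜 p (centralizer (L : Set G)))
    (h3 : HQ 𝕜 p L.normalizerMonoidHom.range) : HQ 𝕜 p G := by
  rw [HQ_iff]
  refine elimination_core L hL (normalizer (L : Set G)) (centralizer (L : Set G)) rfl rfl
    L.normalizerMonoidHom.rangeRestrict ?_ L.normalizerMonoidHom.rangeRestrict_surjective hout
    ((HQ_sub_iff L).1 h1) ((HQ_sub_iff _).1 h2) (HQ_iff.1 h3)
  intro n
  rw [← MonoidHom.mem_ker, MonoidHom.ker_rangeRestrict, normalizerMonoidHom_ker,
    Subgroup.mem_subgroupOf]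

end Vale.Agent.P240.K
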