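import Vale.Agent.P240.K.Detect

namespace Vale.Agent.P240.K

open Finsupp

variable {𝕜 : Type*} [Field 𝕜]

variable {α β γ : Type*}

/-- Chains in a union of cones bound in the ambient poset. -/
lemma rel_zero [SemilatticeSup α] {ι : Type*} [DecidableEq ι] (S : Set α) (T : ι → Set α)
    (F : ι → α) (hTS : ∀ i, T i ⊆ S) (hFS : ∀ i, F i ∈ S) (hφ : ∀ i, ∀ x ∈ T i, x ⊔ F i ∈ S)
    (hFT : ∀ i j, i ≠ j → F i ∈ T j) (hφT : ∀ i j, i ≠ j → ∀ x ∈ T i, x ∈ T j → x ⊔ F i ∈ T j)
    (s : Finset ι) : ∀ z : Ch 𝕜 α, z ∈ Sp 𝕜 (fun l => ∃ i ∈ s, wk (T i) l) → bd z = 0 →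
      ∃ c ∈ Sp 𝕜 (wk S), bd c = z := by
  induction s using Finset.induction_on with
  | empty =>
    intro z hz _
    refine ⟨0, Submodule.zero_mem _, ?_⟩
    rw [mem_Sp] at hz
    have : z.support = ∅ := by
      rw [Finset.eq_empty_iff_forall_notMem]
      intro l hl
      obtain ⟨i, hi, _⟩ := hz l hl
      simp at hi
    rw [Finsupp.support_eq_empty] at this
    rw [this, map_zero]
  | insert a s ha ih =>
    intro z hz hb
    -- split `z`
    have hsplit : z ∈ Sp 𝕜 (fun l => ∃ i ∈ s, wk (T i) l) ⊔ Sp 𝕜 (wk (T a)) := by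
      rw [Sp, Sp, ← Finsupp.supported_union]
      refine Finsupp.supported_mono ?_ hz
      rintro l ⟨i, hi, hl⟩
      rcases Finset.mem_insert.1 hi with h | h
      · right
        rw [h] at hl
        exact hl
      · left
        exact ⟨i, h, hl⟩
    obtain ⟨z1, hz1, z2, hz2, rfl⟩ := Submodule.mem_sup.1 hsplit
    have hb1 : bd z1 = - bd z2 := by
      rw [map_add] at hb
      exact eq_neg_of_add_eq_zero_left hb
    set h := hc (𝕜 := 𝕜) (fun x => x ⊔ F a) (F a) with hh
    have hm2 : h z2 ∈ Sp 𝕜 (wk S) :=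
      hc_mem (hTS a) (hFS a) (hφ a) (fun x _ => le_sup_right) (fun x _ => le_sup_left)
        (fun x _ y _ hxy => sup_le_sup_right hxy _) hz2
    have hmb : bd z1 ∈ Sp 𝕜 (fun l => (∃ i ∈ s, wk (T i) l) ∧ wk (T a) l) := by
      refine mem_Sp_inf (bd_mem ?_ hz1) ?_
      · rintro l l' hs ⟨i, hi, hl⟩
        exact ⟨i, hi, wk_sub l l' hs hl⟩
      · rw [hb1]
        exact Submodule.neg_mem _ (bd_wk hz2)
    have hmh : h (bd z1) ∈ Sp 𝕜 (fun l => ∃ i ∈ s, wk (T i) l) := by
      refine map_mem h ?_ hmb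
      rintro l ⟨⟨i, hi, hl⟩, hl'⟩
      have hia : a ≠ i := fun h => ha (h ▸ hi)
      have h1 : single l (1 : 𝕜) ∈ Sp 𝕜 (wk (T i ∩ T a)) :=
        single_mem_Sp ⟨hl.1, fun b hb => ⟨hl.2 b hb, hl'.2 b hb⟩⟩ _
      have h2 : h (single l (1 : 𝕜)) ∈ Sp 𝕜 (wk (T i)) :=
        hc_mem (Set.inter_subset_left) (hFT a i hia) (fun x hx => hφT a i hia x hx.2 hx.1)
          (fun x _ => le_sup_right) (fun x _ => le_sup_left)
          (fun x _ y _ hxy => sup_le_sup_right hxy _) h1
      exact Sp_mono (fun l hl => ⟨i, hi, hl⟩) h2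
    obtain ⟨c, hcS, hbc⟩ := ih (z1 - h (bd z1)) (Submodule.sub_mem _ hz1 hmh) (by
      have h3 := bd_hc (fun x => x ⊔ F a) (F a) (bd z1)
      rw [bd_bd, map_zero, add_zero] at h3
      rw [map_sub, hh, h3, sub_self])
    refine ⟨c + h z2, Submodule.add_mem _ hcS hm2, ?_⟩
    have h4 := bd_hc (fun x => x ⊔ F a) (F a) z2
    rw [← hh] at h4
    have h5 : bd (h z2) = z2 - h (bd z2) := eq_sub_of_add_eq h4
    have h6 : h (bd z2) = - h (bd z1) := by rw [hb1, map_neg, neg_neg]
    rw [map_add, hbc, h5, h6]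
    generalize h (bd z1) = w
    abel

/-! ### The exactness argument -/

open Classical in
/-- remove the head `X` -/
noncomputable def hdL (X : α) : List α → Ch 𝕜 α
  | [] => 0
  | y :: l => if y = X then single l (1 : 𝕜) else 0

/-- remove the head `X` -/
noncomputable def hd (X : α) : Ch 𝕜 α →ₗ[𝕜] Ch 𝕜 α := Finsupp.linearCombination 𝕜 (hdL X)

lemma hd_single (X : α) (l : List α) : hd X (single l (1 : 𝕜)) = hdL X l := by
  simp [hd, Finsupp.linearCombination_single]

lemma hd_cons_self (X : α) (c : Ch 𝕜 α) : hd X (cons X c) = c := by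
  have := lin_ext_apply (f := (hd X).comp (cons X)) (g := LinearMap.id)
    (fun l => by simp [hd_single, hdL]) c
  simpa using this

lemma hd_cons_ne {X y : α} (h : y ≠ X) (c : Ch 𝕜 α) : hd X (cons y c) = 0 := by
  have := lin_ext_apply (f := (hd X).comp (cons y)) (g := 0)
    (fun l => by simp [hd_single, hdL, h]) c
  simpa using this

open Classical in
/-- lists whose head is not in `P` -/
noncomputable def nh (P : Set α) : Ch 𝕜 α →ₗ[𝕜] Ch 𝕜 α :=
  Finsupp.linearCombination 𝕜 fun l : List α =>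
    if ∃ x ∈ l.head?, x ∈ P then 0 else single l (1 : 𝕜)

open Classical in
lemma nh_single (P : Set α) (l : List α) :
    nh P (single l (1 : 𝕜)) = if ∃ x ∈ l.head?, x ∈ P then 0 else single l (1 : 𝕜) := by
  simp [nh, Finsupp.linearCombination_single]

lemma exact_split [PartialOrder α] {S P : Set α} (hP : ∀ X ∈ P, ∀ Y ∈ S, Y ≤ X → Y = X)
    {c z : Ch 𝕜 α} (hc : c ∈ Sp 𝕜 (st S)) (hz : z ∈ Sp 𝕜 (st (S \ P))) (hcz : bd c = z) :
    ∃ c0 ∈ Sp 𝕜 (st (S \ P)), ∃ (s : Finset α) (e : α → Ch 𝕜 α), (∀ X ∈ s, X ∈ P ∧ X ∈ S) ∧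
      (∀ X ∈ s, e X ∈ Sp 𝕜 (st {Y | Y ∈ S ∧ X < Y}) ∧ bd (e X) = 0) ∧
      z = bd c0 + ∑ X ∈ s, e X := by
  classical
  let si : Set α → List α → Prop := fun S l => l.Pairwise (· < ·) ∧ ∀ a ∈ l, a ∈ S
  have hst_si : ∀ (S : Set α) (l : List α), st S l → si S l.reverse := by
    intro S l hl
    refine ⟨?_, fun a ha => hl.2 a (by simpa using ha)⟩
    rw [List.pairwise_reverse]
    exact hl.1
  have hsi_st : ∀ (S : Set α) (l : List α), si S l → st S l.reverse := by
    intro S l hl
    refine ⟨?_, fun a ha => hl.2 a (by simpa using ha)⟩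
    rw [List.pairwise_reverse]
    exact hl.1
  have hc' : rv c ∈ Sp 𝕜 (si S) := rv_mem (hst_si S) hc
  have hz' : rv z ∈ Sp 𝕜 (si (S \ P)) := rv_mem (hst_si _) hz
  have hbc : bd (rv c) = rv z := by rw [bd_rv, hcz]
  -- the heads
  let s : Finset α := ((rv c).support.biUnion fun l => l.toFinset).filter fun x => x ∈ P
  have hs : ∀ X ∈ s, X ∈ P ∧ X ∈ S := by
    intro X hX
    rw [Finset.mem_filter, Finset.mem_biUnion] at hX
    obtain ⟨⟨l, hl, hXl⟩, hXP⟩ := hX
    exact ⟨hXP, ((mem_Sp.1 hc') l hl).2 X (by simpa using hXl)⟩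
  have hc'' : rv c ∈ Sp 𝕜 (fun l => si S l ∧ ∀ x ∈ l, x ∈ P → x ∈ s) := by
    refine mem_Sp_inf hc' ?_
    rw [mem_Sp]
    intro l hl x hx hxP
    rw [Finset.mem_filter, Finset.mem_biUnion]
    exact ⟨⟨l, hl, by simpa using hx⟩, hxP⟩
  -- decomposition
  have hdec : rv c = nh P (rv c) + ∑ X ∈ s, cons X (hd X (rv c)) := by
    have := eq_of_Sp (F := (LinearMap.id : Ch 𝕜 α →ₗ[𝕜] Ch 𝕜 α))
      (G := nh P + ∑ X ∈ s, (cons X).comp (hd X))
      (fun l (hl : si S l ∧ ∀ x ∈ l, x ∈ P → x ∈ s) => ?_) hc''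
    · simpa using this
    simp only [LinearMap.id_apply, LinearMap.add_apply, LinearMap.sum_apply,
      LinearMap.comp_apply, nh_single]
    rcases l with _ | ⟨y, l⟩
    · simp [hd_single, hdL]
    · by_cases hy : y ∈ P
      · rw [if_pos ⟨y, by simp, hy⟩, zero_add, Finset.sum_eq_single y]
        · rw [← cons_single, hd_cons_self]
        · intro b _ hb
          rw [← cons_single, hd_cons_ne (Ne.symm hb), map_zero]
        · intro h
          exact absurd (hl.2 y (by simp) hy) h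
      · rw [if_neg (by simpa using hy), Finset.sum_eq_zero, add_zero]
        intro b hb
        rw [← cons_single, hd_cons_ne, map_zero]
        rintro rfl
        exact hy (hs _ hb).1
  -- `bd` and `hd`
  have hbh : ∀ X ∈ s, bd (hd X (rv c)) = 0 := by
    intro X hX
    have h1 : bd (hd X (rv c)) = - hd X (bd (rv c)) := by
      have := eq_of_Sp (F := (bd (𝕜 := 𝕜)).comp (hd X)) (G := - (hd (𝕜 := 𝕜) X).comp bd)
        (fun l (hl : si S l) => ?_) hc'
      · simpa using this
      simp only [LinearMap.comp_apply, LinearMap.neg_apply]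
      rcases l with _ | ⟨y, l⟩
      · simp [hd_single, hdL]
      · have hp := List.pairwise_cons.1 hl.1
        rw [← cons_single, bd_cons, map_sub]
        by_cases hy : y = X
        · subst hy
          rw [hd_cons_self, hd_cons_self]
          have : hd y (single l (1 : 𝕜)) = 0 := by
            rcases l with _ | ⟨w, l⟩
            · simp [hd_single, hdL]
            · rw [← cons_single, hd_cons_ne]
              exact (ne_of_lt (hp.1 w (by simp))).symm
          rw [this]; abel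
        · rw [hd_cons_ne hy, hd_cons_ne hy]
          have : hd X (single l (1 : 𝕜)) = 0 := by
            rcases l with _ | ⟨w, l⟩
            · simp [hd_single, hdL]
            · rw [← cons_single, hd_cons_ne]
              rintro rfl
              exact hy (hP w (hs _ hX).1 y (hl.2 y (by simp)) (le_of_lt (hp.1 w (by simp))))
          rw [this]; simp
    rw [h1, hbc]
    have h2 := eq_of_Sp (F := hd X) (G := 0) (fun l (hl : si (S \ P) l) => by
      rcases l with _ | ⟨w, l⟩
      · simp [hd_single, hdL]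
      · rw [← cons_single, hd_cons_ne]
        · rfl
        rintro rfl
        exact (hl.2 w (by simp)).2 (hs _ hX).1) hz'
    rw [h2]; simp
  have hmem : ∀ X ∈ s, hd X (rv c) ∈ Sp 𝕜 (si {Y | Y ∈ S ∧ X < Y}) := by
    intro X hX
    refine map_mem _ (fun l (hl : si S l) => ?_) hc'
    rcases l with _ | ⟨w, l⟩
    · simp [hd_single, hdL]
    · have hp := List.pairwise_cons.1 hl.1
      by_cases hw : w = X
      · subst hw
        rw [← cons_single, hd_cons_self]
        exact single_mem_Sp ⟨hp.2, fun a ha => ⟨hl.2 a (by simp [ha]), hp.1 a ha⟩⟩ _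
      · rw [← cons_single, hd_cons_ne hw]
        exact Submodule.zero_mem _
  have hnh : nh P (rv c) ∈ Sp 𝕜 (si (S \ P)) := by
    refine map_mem _ (fun l (hl : si S l) => ?_) hc'
    rw [nh_single]
    split_ifs with h
    · exact Submodule.zero_mem _
    · refine single_mem_Sp ⟨hl.1, fun a ha => ⟨hl.2 a ha, fun haP => ?_⟩⟩ _
      rcases l with _ | ⟨w, l⟩
      · simp at ha
      · have hp := List.pairwise_cons.1 hl.1
        apply h
        refine ⟨w, by simp, ?_⟩
        rcases List.mem_cons.1 ha with h' | h'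
        · rw [← h']; exact haP
        · rw [hP a haP w (hl.2 w (by simp)) (le_of_lt (hp.1 a h'))]
          exact haP
  refine ⟨rv (nh P (rv c)), rv_mem (hsi_st _) hnh, s, fun X => rv (hd X (rv c)), hs, ?_, ?_⟩
  · intro X hX
    refine ⟨rv_mem (hsi_st _) (hmem X hX), ?_⟩
    rw [bd_rv, hbh X hX, map_zero]
  · have h1 : rv z = bd (nh P (rv c)) + ∑ X ∈ s, hd X (rv c) := by
      rw [← hbc]
      conv_lhs => rw [hdec]
      rw [map_add, map_sum]
      congr 1
      refine Finset.sum_congr rfl fun X hX => ?_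
      rw [bd_cons, hbh X hX, map_zero, sub_zero]
    have h2 := congrArg rv h1
    rw [rv_rv, map_add, map_sum, ← bd_rv] at h2
    exact h2

end Vale.Agent.P240.K
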