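import Vale.Agent.P240.K.Transfer
import Vale.Agent.P240.K.SmithGroup

namespace Vale.Agent.P240.K

open Finsupp Subgroup

variable {𝕜 : Type*} [Field 𝕜]

universe u

section
variable {G : Type*} [Group G] {p : ℕ}

/-- the common centralizer of a family of subgroups -/
def Cen (F : Set (Subgroup G)) : Subgroup G := centralizer (⋃ L ∈ F, (L : Set G))

lemma mem_Cen {F : Set (Subgroup G)} {x : G} :
    x ∈ Cen F ↔ ∀ L ∈ F, x ∈ centralizer (L : Set G) := by
  rw [Cen, mem_centralizer_iff]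
  constructor
  · intro h L hL
    rw [mem_centralizer_iff]
    intro y hy
    exact h y (Set.mem_biUnion hL hy)
  · intro h y hy
    obtain ⟨L, hL, hyL⟩ := Set.mem_iUnion₂.1 hy
    exact (mem_centralizer_iff.1 (h L hL)) y hyL

lemma Cen_insert {F : Set (Subgroup G)} {L : Subgroup G} :
    Cen (insert L F) = Cen F ⊓ centralizer (L : Set G) := by
  ext x
  rw [mem_inf, mem_Cen, mem_Cen]
  constructor
  · intro h
    exact ⟨fun M hM => h M (Set.mem_insert_of_mem _ hM), h L (Set.mem_insert _ _)⟩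
  · rintro ⟨h1, h2⟩ M hM
    rcases Set.mem_insert_iff.1 hM with rfl | hM
    · exact h2
    · exact h1 M hM

lemma Cen_empty : Cen (∅ : Set (Subgroup G)) = ⊤ := by
  rw [eq_top_iff]
  intro x _
  rw [mem_Cen]
  simp

lemma Family.compLike {F : Set (Subgroup G)} (h : Family p F) {L : Subgroup G} (hL : L ∈ F) :
    CompLike p L := by
  refine ⟨h.centre L hL, ?_, h.dvd L hL⟩
  intro g hg x hx y hy
  have h1 : cj g L ∈ F := h.conj L hL g
  have h2 : L ≠ cj g L := by
    intro h3
    exact hg (cj_eq_iff.1 h3.symm)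
  refine h.comm L hL _ h1 h2 x hx _ ?_
  rw [mem_cj]
  have : g⁻¹ * (g * y * g⁻¹) * g = y := by group
  rwa [this]

lemma Family.le_Cen {F T : Set (Subgroup G)} (h : Family p F) (hT : T ⊆ F) {L : Subgroup G}
    (hL : L ∈ F) (hLT : L ∉ T) : L ≤ Cen T := by
  intro x hx
  rw [mem_Cen]
  intro M hM
  rw [mem_centralizer_iff]
  intro y hy
  refine h.comm M (hT hM) L hL ?_ y hy x hx
  rintro rfl
  exact hLT hM

lemma zpowers_mem_ApS {x : G} (hx : x ^ p = 1) (hx1 : x ≠ 1) : zpowers x ∈ ApS p G := by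
  refine ⟨?_, ?_, ?_⟩
  · intro h
    rw [Subgroup.zpowers_eq_bot] at h
    exact hx1 h
  · rintro _ ⟨i, rfl⟩ _ ⟨j, rfl⟩
    change x ^ i * x ^ j = x ^ j * x ^ i
    rw [← zpow_add, ← zpow_add, add_comm]
  · rintro _ ⟨i, rfl⟩
    change (x ^ i) ^ p = 1
    rw [← zpow_natCast, ← zpow_mul, mul_comm, zpow_mul, zpow_natCast, hx, one_zpow]

lemma free_spec [hp : Fact p.Prime] {r : ℕ} [hr : Fact r.Prime] (hrp : r ≠ p) [Finite G]
    {L : Subgroup G} (hL : CompLike p L) {U : Subgroup G} (hUL : U ≤ L) (hU : IsPGroup r U)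
    (hfree : ∀ E ∈ ApS p G, E ≤ normalizer (L : Set G) →
      U ≤ normalizer (E : Set G) → E ≤ centralizer (L : Set G)) :
    ∀ E ∈ ApS p G, U ≤ normalizer (E : Set G) → E ≤ centralizer (L : Set G) := by
  have hUne : U ≠ ⊥ := by
    rintro rfl
    obtain ⟨x, hx⟩ := exists_prime_orderOf_dvd_card' p hL.dvd
    have hxp : (x : G) ^ p = 1 := by
      have h1 : x ^ p = 1 := by rw [← hx]; exact pow_orderOf_eq_one x
      simpa using congrArg Subtype.val h1
    have hx1 : (x : G) ≠ 1 := by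
      intro h
      have : x = 1 := Subtype.ext h
      rw [this, orderOf_one] at hx
      exact hp.out.one_lt.ne hx
    have hle : zpowers (x : G) ≤ L := by rw [Subgroup.zpowers_le]; exact x.2
    have h2 := hfree _ (zpowers_mem_ApS hxp hx1) (hle.trans Subgroup.le_normalizer) bot_le
    have h3 : (x : G) ∈ L ⊓ centralizer (L : Set G) := ⟨x.2, h2 (mem_zpowers _)⟩
    rw [hL.centre, mem_bot] at h3
    exact hx1 h3
  intro E hE hUE
  refine hfree E hE ?_ hUE
  intro e he
  by_contra heN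
  obtain ⟨u, hu1⟩ := (Subgroup.ne_bot_iff_exists_ne_one).1 hUne
  have huL : (u : G) ∈ L := hUL u.2
  -- the commutator
  have h1 : (u : G) * e * (u : G)⁻¹ ∈ E := by
    have := hUE u.2
    rw [mem_normalizer_iff] at this
    exact (this e).1 he
  have hc : (u : G) * (e * (u : G)⁻¹ * e⁻¹) ∈ E := by
    have := E.mul_mem h1 (E.inv_mem he)
    have h2 : (u : G) * e * (u : G)⁻¹ * e⁻¹ = (u : G) * (e * (u : G)⁻¹ * e⁻¹) := by group
    rwa [h2] at this
  have hcomm : Commute (u : G) (e * (u : G)⁻¹ * e⁻¹) :=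
    hL.conj e heN u huL _ (L.inv_mem huL)
  have h3 := hE.2.2 _ hc
  rw [hcomm.mul_pow] at h3
  have h4 : (e * (u : G)⁻¹ * e⁻¹) ^ p = e * ((u : G) ^ p)⁻¹ * e⁻¹ := by
    rw [conj_pow, inv_pow]
  rw [h4] at h3
  have h5 : (u : G) ^ p = e * (u : G) ^ p * e⁻¹ := by
    calc (u : G) ^ p = (e * ((u : G) ^ p)⁻¹ * e⁻¹)⁻¹ := eq_inv_of_mul_eq_one_left h3
      _ = e * (u : G) ^ p * e⁻¹ := by group
  have h6 : (u : G) ^ p ∈ L ⊓ centralizer (L : Set G) := by
    refine ⟨L.pow_mem huL p, ?_⟩
    change (u : G) ^ p ∈ centralizer (L : Set G)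
    rw [mem_centralizer_iff]
    intro x hx
    have := hL.conj e heN x hx _ (L.pow_mem huL p)
    rwa [← h5] at this
  rw [hL.centre, mem_bot] at h6
  obtain ⟨k, hk⟩ := hU u
  have h7 : (u : G) ^ r ^ k = 1 := by simpa using congrArg Subtype.val hk
  have h8 : Nat.Coprime p (r ^ k) :=
    Nat.Coprime.pow_right k ((Nat.coprime_primes hp.out hr.out).2 hrp.symm)
  have h9 : (u : G) = 1 := by
    rw [← orderOf_eq_one_iff]
    exact Nat.eq_one_of_dvd_coprimes h8 (orderOf_dvd_of_pow_eq_one h6)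
      (orderOf_dvd_of_pow_eq_one h7)
  exact hu1 (Subtype.ext h9)

lemma cj_mem_Ain {H : Subgroup G} {u : G} (hu : u ∈ H) {E : Subgroup G} (hE : E ∈ Ain p H) :
    cj u E ∈ Ain p H := by
  refine ⟨(map_mem_ApS (f := (MulAut.conj u).toMonoidHom) (MulAut.conj u).injective).2 hE.1, ?_⟩
  intro x hx
  rw [mem_cj] at hx
  have h1 := hE.2 hx
  have h2 := H.mul_mem (H.mul_mem hu h1) (H.inv_mem hu)
  have h3 : u * (u⁻¹ * x * u) * u⁻¹ = x := by group
  rwa [h3] at h2

/-- One Smith step. -/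
theorem smith_step [Fact p.Prime] {q : ℕ} [hq : Fact q.Prime] (hqp : q ≠ p)
    (hchar : (q : 𝕜) = 0) [Finite G] (H L : Subgroup G) (hLH : L ≤ H) (hL : CompLike p L)
    (hfree : FreeSub p q L) (hC : NA 𝕜 (Ain p (H ⊓ centralizer (L : Set G)))) :
    NA 𝕜 (Ain p H) := by
  obtain ⟨U, hUL, hU, hf⟩ := hfree
  obtain ⟨n, hn⟩ := IsPGroup.iff_card.1 hU
  have hspec := free_spec hqp hL hUL hU hf
  by_contra hac
  have h1 := smith_group (𝕜 := 𝕜) hchar n U hn
    (fun u hu E hE => cj_mem_Ain (hLH (hUL hu)) hE) hac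
  apply h1
  have : {E | E ∈ Ain p H ∧ U ≤ normalizer (E : Set G)} =
      Ain p (H ⊓ centralizer (L : Set G)) := by
    ext E
    constructor
    · rintro ⟨h1, h2⟩
      exact ⟨h1.1, le_inf h1.2 (hspec E h1.1 h2)⟩
    · rintro ⟨h1, h2⟩
      refine ⟨⟨h1, h2.trans inf_le_left⟩, ?_⟩
      intro u hu
      rw [mem_normalizer_iff]
      have hu' : ∀ x ∈ E, u * x = x * u := fun x hx =>
        mem_centralizer_iff.1 ((h2.trans inf_le_right) hx) u (hUL hu)
      intro x
      constructor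
      · intro hx
        rw [hu' x hx, mul_assoc, mul_inv_cancel, mul_one]
        exact hx
      · intro hx
        have h3 := hu' _ hx
        have h4 : x = u * x * u⁻¹ := by
          have h5 : u * (u * x * u⁻¹) = u * x := by rw [h3]; group
          exact (mul_left_cancel h5).symm
        rw [h4]
        exact hx
  rw [this]
  exact hC

end

section
variable {G : Type u} [Group G] {p : ℕ}

theorem remove [Fact p.Prime] [Finite G] {F : Set (Subgroup G)} (hF : Family p F)
    {T : Set (Subgroup G)} (hTF : T ⊆ F) (hT : ∀ L ∈ T, Removable 𝕜 p L)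
    (hC : NA 𝕜 (Ain p (Cen T))) : NA 𝕜 (ApS p G) := by
  have key : ∀ T : Set (Subgroup G), T.Finite → T ⊆ F → (∀ L ∈ T, Removable 𝕜 p L) →
      NA 𝕜 (Ain p (Cen T)) → NA 𝕜 (Ain p (⊤ : Subgroup G)) := by
    intro T hfin
    induction T, hfin using Set.Finite.induction_on with
    | empty =>
      intro _ _ h
      rwa [Cen_empty] at h
    | @insert L T hLT _ ih =>
      intro hsub hrem h
      have hLF : L ∈ F := hsub (Set.mem_insert _ _)
      have hTF : T ⊆ F := fun M hM => hsub (Set.mem_insert_of_mem _ hM)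
      refine ih hTF (fun M hM => hrem M (Set.mem_insert_of_mem _ hM)) ?_
      rw [Cen_insert] at h
      have hle : L ≤ Cen T := hF.le_Cen hTF hLF hLT
      rcases hrem L (Set.mem_insert _ _) with ⟨h1, h2⟩ | ⟨q, hq, hqp, hchar, hfree⟩
      · exact elim_step (Cen T) L hle (hF.compLike hLF) h1 h2 h
      · have : Fact q.Prime := ⟨hq⟩
        exact smith_step hqp hchar (Cen T) L hle (hF.compLike hLF) hfree h
  have h1 := key T (Set.toFinite T) hTF hT hC
  have : Ain p (⊤ : Subgroup G) = ApS p G := by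
    ext E
    exact ⟨fun h => h.1, fun h => ⟨h, le_top⟩⟩
  rwa [this] at h1

/-- The minimal counterexample. -/
theorem min_few [Fact p.Prime] [Finite G] (hO : OpTrivial p G) (hG : ¬ HQ 𝕜 p G)
    (hmin : ∀ (H : Type u) [Group H] [Finite H], Nat.card H < Nat.card G →
      OpTrivial p H → HQ 𝕜 p H)
    (L : Subgroup G) (hL : CompLike p L) (hC : centralizer (L : Set G) ≠ ⊥) :
    ¬ FewOuter p L := by
  rintro ⟨hout, hconn⟩
  apply hG
  have hLo : OpTrivial p L := opTrivial_of_opIn (hL.opIn_L hO)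
  refine elimination_two L hL ?_ ?_ ?_ ?_ ?_
  · rcases hconn with h | h | h
    · exact Or.inl fun x hx y hy hxp hyp hxL hyL => h x y ⟨hx, hxp, hxL⟩ ⟨hy, hyp, hyL⟩
    · exact Or.inr (Or.inl h)
    · exact Or.inr (Or.inr h)
  · intro x hx y hy z hz hxp hyp hzp hxL hyL hzL
    exact hout x y z ⟨hx, hxp, hxL⟩ ⟨hy, hyp, hyL⟩ ⟨hz, hzp, hzL⟩
  · exact hmin _ (hL.card_L_lt hC) hLo
  · exact hmin _ hL.card_K_lt (opTrivial_of_opIn (hL.opIn_K hO))
  · intro A hA
    refine hmin _ (lt_of_le_of_lt (card_le_card_group A) (card_range_lt hC)) ?_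
    let i : L →* A :=
      { toFun := fun l => ⟨L.normalizerMonoidHom.rangeRestrict (inclusion le_normalizer l),
          hA _ l.2⟩
        map_one' := by
          apply Subtype.ext
          simp
        map_mul' := fun a b => by
          apply Subtype.ext
          simp }
    refine opTrivial_of_aut hLo ((L.normalizerMonoidHom.range.subtype).comp A.subtype) ?_ i ?_ ?_
    · exact (Subgroup.subtype_injective _).comp (Subgroup.subtype_injective _)
    · rw [injective_iff_map_eq_one]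
      intro l hl
      have h1 : (l : G) ∈ centralizer (L : Set G) := by
        rw [mem_centralizer_iff]
        intro x hx
        have h2 : (((i l : L.normalizerMonoidHom.range) : MulAut L) ⟨x, hx⟩ : G)
            = l * x * (l : G)⁻¹ := rfl
        rw [hl] at h2
        have h3 : (x : G) = l * x * (l : G)⁻¹ := h2
        calc x * (l : G) = (l * x * (l : G)⁻¹) * l := by rw [← h3]
          _ = l * x := by group
      have h4 : (l : G) ∈ L ⊓ centralizer (L : Set G) := ⟨l.2, h1⟩
      rw [hL.centre, mem_bot] at h4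
      exact Subtype.ext h4
    · intro l x
      rfl

end

end Vale.Agent.P240.K
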