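import Vale.Agent.P240.K.WFinal
import Vale.Agent.P240.K.Coupling

namespace Vale.Agent.P240.K

open Subgroup

universe u v

variable {𝕜 : Type v} [Field 𝕜] {p : ℕ} [Fact p.Prime] {G : Type u} [Group G] [Finite G]

theorem final1 (F D T : Set (Subgroup G)) (z : G) (φ : G → ℂ) (r : ℕ) (hF : Family p F)
    (hz : GoodElement p F D z) (hw : FreeWeight p (F \ D) T φ) (hrp : r ≠ p)
    (he : ¬ (r : ℤ) ∣ euler p (Cent F D z))
    (hT : ∀ L ∈ F, L ∈ D ∨ L ∈ T ∨ Removable 𝕜 p L ∨ (r.Prime ∧ FreeSub p r L)) :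
    HQ 𝕜 p G := by
  rw [euler_Ap] at he
  exact weight_main hF hz hw hrp he hT

theorem final2 (h : SolvableByCM p G) : euler p G ≠ 0 := by
  obtain ⟨W, hsol, hpW, hfaith, hW, hCM⟩ := h
  rw [euler_Ap]
  exact cm_ne_zero hsol hpW hfaith hCM

theorem final4 (F D : Set (Subgroup G)) (hF : Family p F)
    (hT : ∀ L ∈ F, L ∈ D ∨ Removable 𝕜 p L) (h : HQ 𝕜 p (Rest F D)) : HQ 𝕜 p G := by
  rw [HQ_iff]
  refine remove hF (T := F \ D) (fun L hL => hL.1) (fun L hL => (hT L hL.1).resolve_left hL.2) ?_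
  have : Cen (F \ D) = Rest F D := by
    ext x
    rw [mem_Cen, mem_Rest]
    exact ⟨fun h M hM hMD => h M ⟨hM, hMD⟩, fun h M hM => h M hM.1 hM.2⟩
  rw [this, ← HQ_sub_iff]
  exact h

theorem final5 (hchar : (p : 𝕜) = 0) (N : Subgroup G) (hN : N.Normal) (h : HQ 𝕜 p G) :
    HQ 𝕜 p N := HQ_normal hchar N hN h

theorem final6 (h : MinimalCounterexample 𝕜 p G) (L : Subgroup G) (hL : ComponentLike p L)
    (hC : centralizer (L : Set G) ≠ ⊥) : ¬ FewOuter p L := by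
  obtain ⟨hO, hG, hmin⟩ := h
  obtain ⟨hcentre, hconj, hdvd⟩ := hL
  exact min_few hO hG hmin L ⟨hcentre, hconj, hdvd⟩ hC

end Vale.Agent.P240.K
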