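import Vale.Agent.P240.K.Elements

namespace Vale.Agent.P240.K

open Finsupp Subgroup

section
variable {G : Type*} [Group G] {p : ℕ}

/-- an element of the product with prescribed actions -/
lemma exists_prod [Finite G] {F : Set (Subgroup G)} (hF : Family p F) {D : Set (Subgroup G)}
    (hDF : D ⊆ F) (l : Subgroup G → G) (hl : ∀ L ∈ D, l L ∈ L) :
    ∃ d ∈ sSup D, ∀ L ∈ D, ∃ c ∈ centralizer (L : Set G), d = l L * c := by
  have key : ∀ T : Set (Subgroup G), T.Finite → T ⊆ D → ∃ d ∈ sSup T,
      ∀ L ∈ T, ∃ c ∈ centralizer (L : Set G), d = l L * c := by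
    intro T hfin
    induction T, hfin using Set.Finite.induction_on with
    | empty =>
      intro _
      exact ⟨1, one_mem _, by simp⟩
    | @insert M T hMT _ ih =>
      intro hsub
      obtain ⟨d, hd, h1⟩ := ih fun L hL => hsub (Set.mem_insert_of_mem _ hL)
      have hMD : M ∈ D := hsub (Set.mem_insert _ _)
      have hdM : d ∈ centralizer (M : Set G) := by
        have : sSup T ≤ centralizer (M : Set G) := by
          refine sSup_le fun L hL => ?_
          intro x hx
          rw [mem_centralizer_iff]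
          intro y hy
          refine hF.comm M (hDF hMD) L (hDF (hsub (Set.mem_insert_of_mem _ hL))) ?_ y hy x hx
          rintro rfl
          exact hMT hL
        exact this hd
      have hs1 : M ≤ sSup (insert M T) := le_sSup (Set.mem_insert _ _)
      have hs2 : sSup T ≤ sSup (insert M T) := sSup_le_sSup (Set.subset_insert _ _)
      refine ⟨l M * d, mul_mem (hs1 (hl M hMD)) (hs2 hd), ?_⟩
      intro L hL
      rcases Set.mem_insert_iff.1 hL with h | hL2
      · subst h
        exact ⟨d, hdM, rfl⟩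
      · obtain ⟨c, hc, hdc⟩ := h1 L hL2
        have hLD : L ∈ D := hsub (Set.mem_insert_of_mem _ hL2)
        have hne : L ≠ M := by
          rintro rfl
          exact hMT hL2
        have hlM : l M ∈ centralizer (L : Set G) := by
          rw [mem_centralizer_iff]
          intro y hy
          exact hF.comm L (hDF hLD) M (hDF hMD) hne y hy _ (hl M hMD)
        refine ⟨l M * c, mul_mem hlM hc, ?_⟩
        have h3 : l L * l M = l M * l L := (mem_centralizer_iff.1 hlM) _ (hl L hLD)
        rw [hdc, ← mul_assoc, ← h3, mul_assoc]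
  exact key D (Set.toFinite _) (Set.Subset.refl _)

lemma Family.center_trivial [Finite G] {F : Set (Subgroup G)} (hF : Family p F)
    {T : Set (Subgroup G)} (hTF : T ⊆ F) {d : G} (hd : d ∈ sSup T)
    (hc : ∀ L ∈ T, d ∈ centralizer (L : Set G)) : d = 1 := by
  have key : ∀ T : Set (Subgroup G), T.Finite → T ⊆ F → ∀ d ∈ sSup T,
      (∀ L ∈ T, d ∈ centralizer (L : Set G)) → d = 1 := by
    intro T hfin
    induction T, hfin using Set.Finite.induction_on with
    | empty =>
      intro _ d hd _
      rw [sSup_empty, mem_bot] at hd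
      exact hd
    | @insert M T hMT _ ih =>
      intro hsub d hd hc
      have hMF : M ∈ F := hsub (Set.mem_insert _ _)
      have hTF : T ⊆ F := fun L hL => hsub (Set.mem_insert_of_mem _ hL)
      rw [sSup_insert] at hd
      have hMC : sSup T ≤ centralizer (M : Set G) := by
        refine sSup_le fun L hL => ?_
        intro x hx
        rw [mem_centralizer_iff]
        intro y hy
        refine hF.comm M hMF L (hTF hL) ?_ y hy x hx
        rintro rfl
        exact hMT hL
      obtain ⟨m, hm, d', hd', rfl⟩ := mem_sup_comm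
        (fun a ha b hb => (mem_centralizer_iff.1 (hMC hb)) a ha) hd
      have hm1 : m = 1 := by
        have : m ∈ M ⊓ centralizer (M : Set G) := by
          refine ⟨hm, ?_⟩
          have h1 := hc M (Set.mem_insert _ _)
          have h2 : m = m * d' * d'⁻¹ := by group
          rw [h2]
          exact (centralizer (M : Set G)).mul_mem h1 ((centralizer (M : Set G)).inv_mem (hMC hd'))
        rw [hF.centre M hMF, mem_bot] at this
        exact this
      subst hm1
      rw [one_mul] at hc ⊢
      exact ih hTF d' hd' fun L hL => hc L (Set.mem_insert_of_mem _ hL)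
  exact key T (Set.toFinite _) hTF d hd hc

lemma sSup_le_norm {F : Set (Subgroup G)} (hF : Family p F) {D : Set (Subgroup G)}
    (hDF : D ⊆ F) {L : Subgroup G} (hL : L ∈ F) : sSup D ≤ normalizer (L : Set G) := by
  refine sSup_le fun M hM => ?_
  by_cases h : M = L
  · rw [h]; exact Subgroup.le_normalizer
  · intro m hm
    refine mem_of_comm fun y hy => ?_
    exact hF.comm M (hDF hM) L hL h m hm y hy

lemma sSup_conj {D : Set (Subgroup G)} (hconj : ∀ L ∈ D, ∀ g : G, cj g L ∈ D) (g : G) {x : G}
    (hx : x ∈ sSup D) : g * x * g⁻¹ ∈ sSup D := by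
  have h1 : sSup D ≤ (sSup D).comap (MulAut.conj g).toMonoidHom := by
    refine sSup_le fun M hM => ?_
    intro y hy
    have h2 : cj g M ≤ sSup D := le_sSup (hconj M hM g)
    exact h2 (cj_mul_mem hy)
  exact h1 hx

lemma cj_centralizer {L : Subgroup G} {e x : G} (hx : x ∈ centralizer (L : Set G)) :
    e * x * e⁻¹ ∈ centralizer ((cj e L : Subgroup G) : Set G) := by
  rw [mem_centralizer_iff] at hx ⊢
  intro y hy
  have h4 := hx _ (mem_cj.1 hy)
  calc y * (e * x * e⁻¹) = e * ((e⁻¹ * y * e) * x) * e⁻¹ := by group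
    _ = e * (x * (e⁻¹ * y * e)) * e⁻¹ := by rw [h4]
    _ = e * x * e⁻¹ * y := by group

/-- an element commutes with the product iff it respects the components -/
lemma comm_iff_choice [Finite G] {F : Set (Subgroup G)} (hF : Family p F) {D : Set (Subgroup G)}
    (hDF : D ⊆ F) (hconj : ∀ L ∈ D, ∀ g : G, cj g L ∈ D) {c : Subgroup G → G}
    (hc : ∀ L ∈ D, c L ∈ L) {d : G} (hd : d ∈ sSup D)
    (hdc : ∀ L ∈ D, ∃ c' ∈ centralizer (L : Set G), d = c L * c') (e : G) :
    e * d * e⁻¹ = d ↔ ∀ L ∈ D, e * c L * e⁻¹ = c (cj e L) := by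
  constructor
  · intro hed L hL
    have hL' : cj e L ∈ D := hconj L hL e
    obtain ⟨c1, hc1, hdc1⟩ := hdc L hL
    obtain ⟨c2, hc2, hdc2⟩ := hdc (cj e L) hL'
    have h3 := cj_centralizer (e := e) hc1
    have h5 : (c (cj e L))⁻¹ * (e * c L * e⁻¹) = c2 * (e * c1 * e⁻¹)⁻¹ := by
      have h6 : e * c L * e⁻¹ * (e * c1 * e⁻¹) = c (cj e L) * c2 := by
        rw [← hdc2, ← hed]
        conv_rhs => rw [hdc1]
        group
      calc (c (cj e L))⁻¹ * (e * c L * e⁻¹)
          = (c (cj e L))⁻¹ * (e * c L * e⁻¹ * (e * c1 * e⁻¹)) * (e * c1 * e⁻¹)⁻¹ := by group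
        _ = (c (cj e L))⁻¹ * (c (cj e L) * c2) * (e * c1 * e⁻¹)⁻¹ := by rw [h6]
        _ = c2 * (e * c1 * e⁻¹)⁻¹ := by group
    have h7 : (c (cj e L))⁻¹ * (e * c L * e⁻¹) ∈
        cj e L ⊓ centralizer ((cj e L : Subgroup G) : Set G) := by
      refine Subgroup.mem_inf.2
        ⟨mul_mem (inv_mem (hc _ hL')) (cj_mul_mem (hc L hL)), ?_⟩
      rw [h5]
      exact (centralizer ((cj e L : Subgroup G) : Set G)).mul_mem hc2
        ((centralizer ((cj e L : Subgroup G) : Set G)).inv_mem h3)
    rw [hF.centre _ (hDF hL'), mem_bot] at h7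
    exact (inv_mul_eq_one.1 h7).symm
  · intro h
    have h1 : e * d * e⁻¹ * d⁻¹ ∈ sSup D := mul_mem (sSup_conj hconj e hd) (inv_mem hd)
    refine mul_inv_eq_one.1 (hF.center_trivial hDF h1 fun M hM => ?_)
    have hL : cj e⁻¹ M ∈ D := hconj M hM e⁻¹
    have hM' : cj e (cj e⁻¹ M) = M := by rw [← cj_mul, mul_inv_cancel, cj_one]
    obtain ⟨c1, hc1, hdc1⟩ := hdc _ hL
    obtain ⟨c2, hc2, hdc2⟩ := hdc M hM
    have h3 := cj_centralizer (e := e) hc1
    rw [hM'] at h3
    have h4 := h _ hL
    rw [hM'] at h4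
    have h5 : e * d * e⁻¹ * d⁻¹ = c M * ((e * c1 * e⁻¹) * c2⁻¹) * (c M)⁻¹ := by
      conv_lhs => rw [hdc2]
      have : e * (c M * c2) * e⁻¹ = e * d * e⁻¹ := by rw [hdc2]
      rw [this]
      conv_lhs => rw [hdc1]
      rw [← h4]
      group
    rw [h5]
    exact conj_centralizer (Subgroup.le_normalizer (hc M hM))
      ((centralizer (M : Set G)).mul_mem h3 ((centralizer (M : Set G)).inv_mem hc2))

end

end Vale.Agent.P240.K
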