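import Vale.Agent.P240.K.Elim

namespace Vale.Agent.P240.K

open Finsupp Subgroup

variable {𝕜 : Type*} [Field 𝕜]

variable {G Q R : Type*} [Group G] [Group Q] [Group R] {p : ℕ}

/-- Transfer of detection from `N` to `G`. -/
theorem detect_gen (N : Subgroup G) (ph : Ch 𝕜 (Subgroup G) →ₗ[𝕜] 𝕜)
    (hcoc : Coc (Ain p N) ph)
    (hnrm : ∀ l, wk (Ain p N) l → ¬ l.Pairwise (· > ·) → ph (single l (1 : 𝕜)) = 0)
    (hvan : ∀ g, g ∉ N → g ^ p = 1 → ∀ l, wk {E | E ∈ Ain p N ∧ ∀ x ∈ E, g * x = x * g} l →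
      ph (single l (1 : 𝕜)) = 0)
    (z : Ch 𝕜 (Subgroup G)) (hz : z ∈ Sp 𝕜 (wk (Ain p N))) (hbz : bd z = 0) (hne : ph z ≠ 0) :
    NA 𝕜 (ApS p G) := by
  classical
  set U : Set (Subgroup G) := {E | E ⊓ N ≠ ⊥} with hUdef
  set rho : Subgroup G → Subgroup G := fun E => E ⊓ N with hrho
  have hUup : ∀ x ∈ ApS p G, x ∈ U → ∀ y ∈ ApS p G, x ≤ y → y ∈ U := by
    intro E _ hE F _ hEF h
    apply hE
    rw [← le_bot_iff, ← h]
    exact inf_le_inf_right _ hEF
  have hrhoT : ∀ x ∈ ApS p G, x ∈ U → rho x ∈ Ain p N := fun E hE hEU =>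
    ⟨mem_ApS_of_le hE inf_le_left hEU, inf_le_right⟩
  have hext := ext_coc (S := ApS p G) (U := U) (T := Ain p N) (rho := rho) (psi := ph) hUup hrhoT
    (fun E _ _ F _ _ h => inf_le_inf_right _ h) hcoc (by
      intro l hl hlU e heS heU hel
      have hee : e ⊓ N = ⊥ := by
        by_contra h
        exact heU h
      obtain ⟨g, hg1⟩ := (Subgroup.ne_bot_iff_exists_ne_one).1 heS.1
      have hgN : (g : G) ∉ N := by
        intro h
        apply hg1
        have : (g : G) ∈ e ⊓ N := ⟨g.2, h⟩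
        rw [hee, Subgroup.mem_bot] at this
        exact Subtype.ext this
      refine hvan g hgN (heS.2.2 _ g.2) _ ⟨?_, ?_⟩
      · rw [List.pairwise_map]
        exact hl.1.imp fun h => inf_le_inf_right _ h
      · intro F hF
        obtain ⟨E, hE, rfl⟩ := List.mem_map.1 hF
        refine ⟨hrhoT E (hl.2 E hE) (hlU E hE), ?_⟩
        intro x hx
        exact (hl.2 E hE).2.1 _ (hel E hE g.2) _ hx.1)
  refine NA_of_functional ((ph.comp (mp rho)).comp (res U)) ?_ hext z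
    (Sp_mono (wk_mono fun E hE => hE.1) hz) hbz ?_
  · intro l hl hns
    simp only [LinearMap.comp_apply]
    rw [res_single]
    split_ifs with hU
    · rw [mp_single]
      refine hnrm _ ⟨?_, ?_⟩ ?_
      · rw [List.pairwise_map]
        exact hl.1.imp fun h => inf_le_inf_right _ h
      · intro F hF
        obtain ⟨E, hE, rfl⟩ := List.mem_map.1 hF
        exact hrhoT E (hl.2 E hE) (hU E hE)
      · intro h
        apply hns
        rw [List.pairwise_map] at h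
        refine (hl.1.and h).imp ?_
        rintro E F ⟨hEF, hEF'⟩
        refine lt_of_le_of_ne hEF ?_
        rintro rfl
        exact lt_irrefl _ hEF'
    · rw [map_zero, map_zero]
  · have hzU : z ∈ Sp 𝕜 (fun l : List (Subgroup G) => ∀ a ∈ l, a ∈ U) := by
      refine Sp_mono (fun l hl E hE => ?_) hz
      have := hl.2 E hE
      change E ⊓ N ≠ ⊥
      rw [inf_eq_left.2 this.2]
      exact this.1.1
    have hzr : mp rho z = z := by
      have := eq_of_Sp (F := mp rho) (G := LinearMap.id) (fun l (hl : wk (Ain p N) l) => by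
        rw [mp_single]
        have : l.map rho = l := by
          conv_rhs => rw [← List.map_id l]
          refine List.map_congr_left fun E hE => ?_
          exact inf_eq_left.2 (hl.2 E hE).2
        rw [this]; rfl) hz
      simpa using this
    simp only [LinearMap.comp_apply]
    rw [res_of_mem hzU, hzr]
    exact hne

/-- shuffle products of chains in commuting subgroups of `N` -/
lemma sh_mem_N {N H1 H2 : Subgroup G} (h1N : H1 ≤ N) (h2N : H2 ≤ N)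
    (h12 : ∀ x ∈ H1, ∀ y ∈ H2, x * y = y * x) {x y : Ch 𝕜 (Subgroup G)}
    (hx : x ∈ Sp 𝕜 (wk (Ain p H1))) (hy : y ∈ Sp 𝕜 (wk (Ain p H2))) :
    sh x y ∈ Sp 𝕜 (wk (Ain p N)) := by
  have hs1 : Ain p H1 ⊆ Ain p N := fun E hE => ⟨hE.1, hE.2.trans h1N⟩
  have hs2 : Ain p H2 ⊆ Ain p N := fun E hE => ⟨hE.1, hE.2.trans h2N⟩
  refine sh_mem hs1 hs2 ?_ hx hy
  intro E hE F hF
  exact ⟨sup_mem_ApS hE.1 hF.1 fun a ha b hb => h12 a (hE.2 ha) b (hF.2 hb),
    sup_le (hE.2.trans h1N) (hF.2.trans h2N)⟩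

section
variable (N M : Subgroup G) (π : N →* Q) (lW : Ch 𝕜 (Subgroup Q) →ₗ[𝕜] 𝕜)
  (lD : Ch 𝕜 (Subgroup G) →ₗ[𝕜] 𝕜)

/-- the basic detection functional -/
noncomputable def phN : Ch 𝕜 (Subgroup G) →ₗ[𝕜] 𝕜 := phi {E | E ≤ M} (fq N π) lW lD

variable {N M π lW lD}

lemma phN_coc (hπ : ∀ n : N, π n = 1 ↔ (n : G) ∈ M)
    (hW : Coc (ApS p Q) lW) (hD : Coc (Ain p M) lD) : Coc (Ain p N) (phN N M π lW lD) := by
  refine phi_coc (SW := ApS p Q) ?_ ?_ ?_ hW ?_
  · exact fun x _ y _ hxy hy => le_trans hxy hy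
  · exact fun E hE hED => fq_mem_ApS hπ hE.1 hE.2 hED
  · exact fun E _ _ F _ _ h => fq_mono h
  · intro c hc
    refine hD c (Sp_mono (wk_mono ?_) hc)
    exact fun E hE => ⟨hE.1.1, hE.2⟩

lemma phN_nrm (hnW : Nrm lW) (hnD : Nrm lD) (l : List (Subgroup G)) (hl : wk (Ain p N) l)
    (hs : ¬ l.Pairwise (· > ·)) : phN N M π lW lD (single l (1 : 𝕜)) = 0 := by
  rw [phN, phi_single]
  exact PhiL_nrm (S := Ain p N) hnW hnD _ hl hs _

lemma phN_van {P : Subgroup G → Prop}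
    (hvan : ∀ l, wk {E | E ∈ Ain p M ∧ P E} l → lD (single l (1 : 𝕜)) = 0)
    (l : List (Subgroup G)) (hl : wk {E | E ∈ Ain p N ∧ P E} l) :
    phN N M π lW lD (single l (1 : 𝕜)) = 0 := by
  rw [phN, phi_single]
  suffices h : PhiL {E | E ≤ M} (fq N π) lW lD l = 0 by rw [h, LinearMap.zero_apply]
  induction l with
  | nil => rw [PhiL, hvan [] ⟨by simp, by simp⟩, zero_smul]
  | cons E l ih =>
    have hp := List.pairwise_cons.1 hl.1
    by_cases hE : E ∈ {E : Subgroup G | E ≤ M}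
    · rw [PhiL_cons_mem hE, hvan (E :: l), zero_smul]
      refine ⟨hl.1, fun F hF => ?_⟩
      have hFE : F ≤ E := by
        rcases List.mem_cons.1 hF with h | h
        · rw [h]
        · exact hp.1 F h
      exact ⟨⟨(hl.2 F hF).1.1, le_trans hFE hE⟩, (hl.2 F hF).2⟩
    · rw [PhiL_cons_not hE, ih ⟨hp.2, fun F hF => hl.2 F (by simp [hF])⟩, LinearMap.zero_comp]

lemma phN_sh (hπ : ∀ n : N, π n = 1 ↔ (n : G) ∈ M) (hMN : M ≤ N) (hnW : Nrm lW)
    {H1 H2 : Subgroup G} (h1N : H1 ≤ N) (h2M : H2 ≤ M) (h1M : H1 ⊓ M = ⊥)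
    {x y : Ch 𝕜 (Subgroup G)} (hx : x ∈ Sp 𝕜 (wk (Ain p H1))) (hy : y ∈ Sp 𝕜 (wk (Ain p H2))) :
    phN N M π lW lD (sh x y) = lW (mp (fq N π) x) * lD y := by
  rw [phN, phi_shuffle (A := Ain p H1) (B := Ain p H2) ?_ ?_ ?_ hnW
        (Sp_mono (fun l hl => hl.2) hx) (Sp_mono (fun l hl => hl.2) hy)]
  · intro E hE hEM
    exact hE.1.1 (le_bot_iff.1 (h1M ▸ le_inf hE.2 hEM))
  · intro E hE
    exact hE.2.trans h2M
  · intro E hE F hF
    refine ⟨?_, fq_sup hπ (hE.2.trans h1N) ((hF.2.trans h2M).trans hMN) (hF.2.trans h2M)⟩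
    intro h
    exact hE.1.1 (le_bot_iff.1 (h1M ▸ le_inf hE.2 (le_sup_left.trans h)))

end

/-- homogeneous version of `exists_cocycle` -/
lemma exists_cocycle_len {α : Type*} [PartialOrder α] (S : Set α) (V : Submodule 𝕜 (Ch 𝕜 α))
    (z : Ch 𝕜 α) (n : ℕ) (hzn : z ∈ Sp 𝕜 (fun l : List α => l.length = n)) (hz : pi z ∉ Bst 𝕜 S ⊔ V) :
    ∃ lam : Ch 𝕜 α →ₗ[𝕜] 𝕜, Nrm lam ∧ Coc S lam ∧ lam z ≠ 0 ∧
      ∀ l : List α, l.length ≠ n → lam (single l (1 : 𝕜)) = 0 := by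
  obtain ⟨lam, h1, h2, -, h4⟩ := exists_cocycle S V z hz
  refine ⟨lam.comp (len n), ?_, ?_, ?_, ?_⟩
  · intro l hl
    rw [LinearMap.comp_apply, len_single]
    split_ifs
    · exact h1 l hl
    · rw [map_zero]
  · intro c hc
    rw [LinearMap.comp_apply, ← bd_len]
    exact h2 _ (Sp_mono (fun l hl => hl.2) (len_mem hc))
  · rw [LinearMap.comp_apply, len_of_mem hzn]
    exact h4
  · intro l hl
    rw [LinearMap.comp_apply, len_single, if_neg hl, map_zero]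

lemma lam_of_len {α : Type*} {lam : Ch 𝕜 α →ₗ[𝕜] 𝕜} {n m : ℕ}
    (h : ∀ l : List α, l.length ≠ n → lam (single l (1 : 𝕜)) = 0) (hmn : m ≠ n) {c : Ch 𝕜 α}
    (hc : c ∈ Sp 𝕜 (fun l : List α => l.length = m)) : lam c = 0 := by
  have := eq_of_Sp (F := lam) (G := 0) (fun l (hl : l.length = m) => by
    rw [h l (by rw [hl]; exact hmn)]; rfl) hc
  simpa using this

end Vale.Agent.P240.K
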