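import Vale.Agent.P240.K.Hybrid

namespace Vale.Agent.P240.K

open Finsupp Subgroup

variable {𝕜 : Type*} [Field 𝕜]

variable {G Q R : Type*} [Group G] [Group Q] [Group R] {p : ℕ}
variable {L N K N1 N2 : Subgroup G} {πK : N →* Q} {πL : N →* R}

/-- one family of terms of the glued cycle -/
lemma glue_term [Fact p.Prime] [Finite G] (h : Ctx p L N K πK πL) (hK1 : L ⊔ K ≤ N1)
    (hcyc : ∀ x ∈ N1, x ∉ L ⊔ K → ∀ y ∈ N1, y ∈ zpowers x ⊔ (L ⊔ K)) (hN1 : N1 ≤ N)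
    {lW : Ch 𝕜 (Subgroup Q) →ₗ[𝕜] 𝕜} {lD : Ch 𝕜 (Subgroup G) →ₗ[𝕜] 𝕜} (hnW : Nrm lW)
    {om : Ch 𝕜 (Subgroup Q)} (hom : om ∈ Sp 𝕜 (st (Ain p (Gam N πK N1))))
    {v : Ch 𝕜 (Subgroup Q)} (hv : bd om = v)
    (hvin : v ∈ Sp 𝕜 (fun l : List (Subgroup Q) => ∀ E ∈ l, ∀ n : N, πK n ∈ E → (n : G) ∈ L ⊔ K))
    {X : Subgroup R} (hX : X ∈ SRof L N πL (Ain p N1)) (hkX : kap N K πL X = ⊥)
    {e : Ch 𝕜 (Subgroup G)}
    (he : e ∈ Sp 𝕜 (wk (Ain p (K ⊓ centralizer ((pb N πL X : Subgroup G) : Set G)))))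
    (hbe : bd e = 0) :
    sh (mp (sig N πK πL X) om) e ∈ Sp 𝕜 (wk (Ain p N)) ∧
    bd (sh (mp (sig N πK πL X) om) e) = sh (mp (sig N πK πL ⊥) v) e ∧
    phN N K πK lW lD (sh (mp (sig N πK πL X) om) e) = lW om * lD e := by
  obtain ⟨E', hE', hE'L, hE'X⟩ := hX
  have hE'N : E' ∈ Ain p N := ⟨hE'.1, hE'.2.trans hN1⟩
  obtain ⟨x, hx, hxL⟩ := Set.not_subset.1 hE'L
  have hxLK : x ∉ L ⊔ K := fun hh => hxL (h.ELK hE'N (by rw [hE'X]; exact hkX) x hx hh)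
  have hxN1 : x ∈ N1 := hE'.2 hx
  set x' : N := ⟨x, hE'N.2 hx⟩ with hx'
  have hx'X : πL x' ∈ X := by
    rw [← hE'X]
    exact mem_fq.2 ⟨x', hx, rfl⟩
  have hl : ∀ E ∈ Ain p (Gam N πK N1), ∀ n : N, πK n ∈ E →
      (n : G) ∈ zpowers (x' : G) ⊔ (L ⊔ K) := fun E hE n hn =>
    hcyc x hxN1 hxLK n ((mem_Gam h (le_sup_right.trans hK1)).1 (hE.2 hn))
  have hsx : mp (sig N πK πL X) om ∈ Sp 𝕜 (wk (Ain p (pb N πL X))) :=
    mp_mem (wk_map (fun E hE => h.lift_mem hx'X hkX hE.1 (hl E hE))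
      fun E _ F _ hh => sig_mono hh) (Sp_mono st_wk hom)
  have hfx : mp (fq N πK) (mp (sig N πK πL X) om) = om := by
    rw [mp_mp]
    exact mp_eq_self (fun l hl' E hE => h.lift_fq hx'X (hl E (hl'.2 E hE))) hom
  have h12 : ∀ a ∈ pb N πL X, ∀ b ∈ K ⊓ centralizer ((pb N πL X : Subgroup G) : Set G),
      a * b = b * a := fun a ha b hb => (Subgroup.mem_centralizer_iff.1 hb.2) a ha
  refine ⟨sh_mem_N pb_le (inf_le_left.trans h.KN) h12 hsx he, ?_, ?_⟩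
  · rw [bd_sh, bd_mp, hv, hbe, map_zero, add_zero]
    congr 2
    exact mp_congr (fun l hl' E hE => sig_eq h hkX (hl' E hE)) hvin
  · rw [phN_sh h.hπK h.KN hnW pb_le inf_le_left hkX hsx he, hfx]

/-- Detection of a glued cycle. -/
lemma glue [Fact p.Prime] [Finite G] (h : Ctx p L N K πK πL) (t : Two p L N K N1 N2)
    {V : Submodule 𝕜 (Ch 𝕜 (Subgroup G))}
    (hV : ∀ g, g ∉ N → ∀ l, wk {E | E ∈ Ain p K ∧ ∀ x ∈ E, g * x = x * g} l →
        pi (single l (1 : 𝕜)) ∈ V)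
    {be : Ch 𝕜 (Subgroup G)} (hbe : be ∈ Sp 𝕜 (st (Ain p K)))
    (hbeV : be ∉ Bst 𝕜 (Ain p K) ⊔ V)
    (hY1 : mp (fq N πL) be ∈ Bst 𝕜 (SRof L N πL (Ain p N1)))
    (hY2 : mp (fq N πL) be ∈ Bst 𝕜 (SRof L N πL (Ain p N2)))
    (h3 : NA 𝕜 (ApS p Q)) : NA 𝕜 (ApS p G) := by
  classical
  have hK1 : K ≤ N1 := le_sup_right.trans t.LK1
  have hK2 : K ≤ N2 := le_sup_right.trans t.LK2
  -- homogeneous class of `Q`
  obtain ⟨n, om, homn, hom, hbom, hone⟩ : ∃ n, ∃ om : Ch 𝕜 (Subgroup Q),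
      om ∈ Sp 𝕜 (fun l : List (Subgroup Q) => l.length = n) ∧ om ∈ Sp 𝕜 (st (ApS p Q)) ∧ bd om = 0 ∧
      om ∉ Bst 𝕜 (ApS p Q) := by
    obtain ⟨z, hz, hbz, hzn⟩ := h3
    by_contra hcon
    push Not at hcon
    obtain ⟨M, hM⟩ := exists_len_bound z
    have h4 : z ∈ Bst 𝕜 (ApS p Q) := by
      rw [← sum_len M hM]
      refine Submodule.sum_mem _ fun n _ => ?_
      have h5 := len_mem (n := n) hz
      refine hcon n (len n z) (Sp_mono (fun l hl => hl.1) h5) (Sp_mono (fun l hl => hl.2) h5) ?_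
      rcases n with _ | n
      · exact bd_len_zero _
      · rw [bd_len, hbz, map_zero]
    obtain ⟨c, hc, hcz⟩ := h4
    exact hzn c hc hcz
  obtain ⟨om1, hom1, om2, hom2, hsum⟩ := Sp_or
    (P := fun l => l.length = n ∧ st (ApS p Q) l)
    (P1 := fun l => l.length = n ∧ st (Ain p (Gam N πK N1)) l)
    (P2 := fun l => l.length = n ∧ st (Ain p (Gam N πK N2)) l)
    (fun l hl => (t.st_or h l hl.2).imp (fun hh => ⟨hl.1, hh⟩) fun hh => ⟨hl.1, hh⟩)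
    (mem_Sp_inf homn hom)
  have ho1 : om1 ∈ Sp 𝕜 (st (Ain p (Gam N πK N1))) := Sp_mono (fun l hl => hl.2) hom1
  have ho2 : om2 ∈ Sp 𝕜 (st (Ain p (Gam N πK N2))) := Sp_mono (fun l hl => hl.2) hom2
  set v := bd om1 with hv
  have hv2 : bd om2 = -v := by
    have : bd om1 + bd om2 = 0 := by rw [← map_add, ← hsum, hbom]
    rw [hv]
    exact eq_neg_of_add_eq_zero_right this
  have hvb : v ∈ Sp 𝕜 (fun l => st (Ain p (Gam N πK N1)) l ∧ st (Ain p (Gam N πK N2)) l) := by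
    refine mem_Sp_inf (bd_st ho1) ?_
    have : v = - bd om2 := by rw [hv2, neg_neg]
    rw [this]
    exact Submodule.neg_mem _ (bd_st ho2)
  have hvlen : v ∈ Sp 𝕜 (fun l : List (Subgroup Q) => l.length + 1 = n) :=
    bd_len_mem (Sp_mono (fun l hl => hl.1) hom1)
  have hvin : v ∈ Sp 𝕜 (fun l : List (Subgroup Q) =>
      ∀ E ∈ l, ∀ n : N, πK n ∈ E → (n : G) ∈ L ⊔ K) :=
    Sp_mono (fun l hl E hE => inner_of h t (hl.1.2 E hE).2 (hl.2.2 E hE).2) hvb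
  -- functionals
  obtain ⟨lD, hnD, hD, hDV, hlD⟩ := exists_cocycle (Ain p K) V be (by
    rw [pi_of_st hbe]; exact hbeV)
  obtain ⟨lW, hnW, hW, hlW, hlWlen⟩ := exists_cocycle_len (ApS p Q) ⊥ om n homn (by
    rw [pi_of_st hom, sup_bot_eq]; exact hone)
  -- splittings of `be`
  obtain ⟨c1, hc1, s1, e1, hs1, he1, hb1⟩ := h.split t.hR1 (F := Ain p N1)
    (fun E hE => ⟨hE.1, hE.2.trans t.le1⟩) (fun E hE => ⟨hE.1, hE.2.trans hK1⟩) hbe hY1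
  obtain ⟨c2, hc2, s2, e2, hs2, he2, hb2⟩ := h.split t.hR1 (F := Ain p N2)
    (fun E hE => ⟨hE.1, hE.2.trans t.le2⟩) (fun E hE => ⟨hE.1, hE.2.trans hK2⟩) hbe hY2
  have hT1 : ∀ X ∈ s1, _ := fun X hX => glue_term (lD := lD) h t.LK1 t.cyc1 t.le1 hnW ho1
    hv.symm hvin (hs1 X hX).1 (hs1 X hX).2 (he1 X hX).1 (he1 X hX).2
  have hvin' : -v ∈ Sp 𝕜 (fun l : List (Subgroup Q) =>
      ∀ E ∈ l, ∀ n : N, πK n ∈ E → (n : G) ∈ L ⊔ K) := Submodule.neg_mem _ hvin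
  have hT2 : ∀ X ∈ s2, _ := fun X hX => glue_term (lD := lD) h t.LK2 t.cyc2 t.le2 hnW ho2
    hv2 hvin' (hs2 X hX).1 (hs2 X hX).2 (he2 X hX).1 (he2 X hX).2
  set v' := mp (sig N πK πL ⊥) v with hv'
  have hv'L : v' ∈ Sp 𝕜 (wk (Ain p L)) := by
    refine mp_mem ?_ hvb
    intro l hl
    refine ⟨?_, ?_⟩
    · rw [List.pairwise_map]
      exact hl.1.1.imp fun hEF => sig_mono hEF.le
    · intro E' hE'
      obtain ⟨E, hE, rfl⟩ := List.mem_map.1 hE'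
      exact (sig_bot_spec h (hl.1.2 E hE).1 (inner_of h t (hl.1.2 E hE).2 (hl.2.2 E hE).2)).2
  have hbv' : bd v' = 0 := by rw [hv', bd_mp, hv, bd_bd, map_zero]
  have hLKc : ∀ a ∈ L, ∀ b ∈ K, a * b = b * a := h.comm
  have hsgv : sg v' ∈ Sp 𝕜 (wk (Ain p L)) := sg_mem hv'L
  have hcc : c2 - c1 ∈ Sp 𝕜 (wk (Ain p K)) := Submodule.sub_mem _ hc2 hc1
  have hbcc : bd (c2 - c1) = ∑ X ∈ s1, e1 X - ∑ X ∈ s2, e2 X := by
    have h5 : bd c1 + ∑ X ∈ s1, e1 X = bd c2 + ∑ X ∈ s2, e2 X := by rw [← hb1, ← hb2]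
    rw [map_sub]
    have h6 : bd c2 = bd c1 + ∑ X ∈ s1, e1 X - ∑ X ∈ s2, e2 X := by rw [h5]; abel
    rw [h6]; abel
  -- the glued cycle
  set W : Ch 𝕜 (Subgroup G) := ∑ X ∈ s1, sh (mp (sig N πK πL X) om1) (e1 X) +
    ∑ X ∈ s2, sh (mp (sig N πK πL X) om2) (e2 X) - sh (sg v') (c2 - c1) with hW'
  have hWm : W ∈ Sp 𝕜 (wk (Ain p N)) := by
    refine Submodule.sub_mem _ (Submodule.add_mem _ (Submodule.sum_mem _ fun X hX => (hT1 X hX).1)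
      (Submodule.sum_mem _ fun X hX => (hT2 X hX).1)) ?_
    exact sh_mem_N h.LN h.KN hLKc hsgv hcc
  have hWb : bd W = 0 := by
    rw [hW', map_sub, map_add, map_sum, map_sum,
      Finset.sum_congr rfl fun X hX => (hT1 X hX).2.1,
      Finset.sum_congr rfl fun X hX => (hT2 X hX).2.1, bd_sh, bd_sg, hbv', sg_sg, hbcc]
    simp only [map_neg, map_zero, LinearMap.zero_apply, neg_zero, map_sub, map_sum,
      LinearMap.neg_apply, Finset.sum_neg_distrib, hv']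
    abel
  refine detect_gen N (phN N K πK lW lD) (phN_coc h.hπK hW hD) (phN_nrm hnW hnD) ?_ W hWm hWb ?_
  · intro g hg _ l hl'
    exact phN_van (P := fun E => ∀ x ∈ E, g * x = x * g)
      (fun l hl => hDV _ (hV g hg l hl)) l hl'
  · rw [hW', map_sub, map_add, map_sum, map_sum,
      Finset.sum_congr rfl fun X hX => (hT1 X hX).2.2,
      Finset.sum_congr rfl fun X hX => (hT2 X hX).2.2,
      phN_sh h.hπK h.KN hnW h.LN le_rfl h.LK hsgv hcc]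
    have h7 : lW (mp (fq N πK) (sg v')) = 0 := by
      refine lam_of_len' (P := fun l : List (Subgroup Q) => l.length + 1 = n) hlWlen
        (fun l hl hh => by omega) ?_
      refine mp_mem (P := fun l : List (Subgroup G) => l.length + 1 = n)
        (fun l hl => by simpa using hl) ?_
      exact sg_mem (mp_mem (fun l hl => by simpa using hl) hvlen)
    rw [h7, zero_mul, sub_zero, ← Finset.mul_sum, ← Finset.mul_sum, ← map_sum, ← map_sum]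
    have h8 : lD (∑ X ∈ s1, e1 X) = lD be := by
      rw [hb1, map_add, hD c1 hc1, zero_add]
    have h9 : lD (∑ X ∈ s2, e2 X) = lD be := by
      rw [hb2, map_add, hD c2 hc2, zero_add]
    rw [h8, h9, ← add_mul, ← map_add, ← hsum]
    exact mul_ne_zero hlW hlD

end Vale.Agent.P240.K
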