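import Vale.Agent.P240.K.Count2

namespace Vale.Agent.P240.K

open Finsupp Subgroup

variable {𝕜 : Type*} [Field 𝕜]

universe u

section
variable {G : Type u} [Group G] {p : ℕ}

lemma conj_centralizer {M : Subgroup G} {g x : G} (hg : g ∈ normalizer (M : Set G))
    (hx : x ∈ centralizer (M : Set G)) : g * x * g⁻¹ ∈ centralizer (M : Set G) := by
  rw [mem_centralizer_iff] at hx ⊢
  intro y hy
  have h3 : g⁻¹ * y * g ∈ M := by
    have := (mem_normalizer_iff.1 (inv_mem hg) y).1 hy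
    simpa using this
  have h4 := hx _ h3
  calc y * (g * x * g⁻¹) = g * ((g⁻¹ * y * g) * x) * g⁻¹ := by group
    _ = g * (x * (g⁻¹ * y * g)) * g⁻¹ := by rw [h4]
    _ = g * x * g⁻¹ * y := by group

/-- coprime action on an elementary abelian group: fixed points modulo a subgroup -/
lemma fixed_mod [Finite G] {E A : Subgroup G} {d : G}
    (hEc : ∀ x ∈ E, ∀ y ∈ E, x * y = y * x) (hEp : ∀ x ∈ E, x ^ p = 1)
    (hdE : ∀ x ∈ E, d * x * d⁻¹ ∈ E) (hdA : ∀ x ∈ E ⊓ A, d * x * d⁻¹ ∈ A)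
    (hd : Nat.Coprime (orderOf d) p) (hfix : ∀ x ∈ E, d * x = x * d → x = 1)
    {e : G} (he : e ∈ E) (heA : d * e * d⁻¹ * e⁻¹ ∈ A) : e ∈ A := by
  let inst : CommGroup E :=
    { (inferInstance : Group E) with
      mul_comm := fun a b => Subtype.ext (hEc a a.2 b b.2) }
  let β : Monoid.End E :=
    { toFun := fun x => ⟨d * x * d⁻¹, hdE x x.2⟩
      map_one' := by apply Subtype.ext; simp
      map_mul' := fun a b => by
        apply Subtype.ext
        push_cast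
        group }
  have hβpow : ∀ k : ℕ, ∀ x : E, ((β ^ k) x : G) = d ^ k * x * (d ^ k)⁻¹ := by
    intro k
    induction k with
    | zero => intro x; simp
    | succ k ih =>
      intro x
      rw [pow_succ']
      change d * ((β ^ k) x : G) * d⁻¹ = _
      rw [ih, pow_succ']
      group
  have hβ : β ^ orderOf d = 1 := by
    apply MonoidHom.ext
    intro x
    apply Subtype.ext
    refine (hβpow _ x).trans ?_
    rw [pow_orderOf_eq_one, one_mul, inv_one, mul_one]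
    rfl
  have hk : 0 < orderOf d := orderOf_pos d
  have h1 := norm_one hk β hβ (fun v hv => by
    apply Subtype.ext
    refine hfix v v.2 ?_
    have h2 : d * (v : G) * d⁻¹ = v := congrArg Subtype.val hv
    exact mul_inv_eq_iff_eq_mul.1 h2) ⟨e, he⟩
  -- congruence modulo `A`
  have h2 : ∀ k : ℕ, ((((β ^ k) ⟨e, he⟩ : E) : G) * e⁻¹) ∈ E ⊓ A := by
    intro k
    induction k with
    | zero => simp [one_mem]
    | succ k ih =>
      rw [pow_succ']
      change d * ((β ^ k) ⟨e, he⟩ : G) * d⁻¹ * e⁻¹ ∈ E ⊓ A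
      have h3 : d * ((β ^ k) ⟨e, he⟩ : G) * d⁻¹ * e⁻¹ =
          (d * (((β ^ k) ⟨e, he⟩ : G) * e⁻¹) * d⁻¹) * (d * e * d⁻¹ * e⁻¹) := by group
      rw [h3]
      exact mul_mem (Subgroup.mem_inf.2 ⟨hdE _ ih.1, hdA _ ih⟩)
        (Subgroup.mem_inf.2 ⟨mul_mem (hdE e he) (inv_mem he), heA⟩)
  have h3 : ∀ k : ℕ, (((∏ i ∈ Finset.range k, (β ^ i) ⟨e, he⟩ : E) : G) * (e ^ k)⁻¹) ∈ A := by
    intro k
    induction k with
    | zero => simp [one_mem]
    | succ k ih =>
      rw [Finset.prod_range_succ]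
      have h4 : ((((∏ i ∈ Finset.range k, (β ^ i) ⟨e, he⟩) * (β ^ k) ⟨e, he⟩ : E) : G) *
          (e ^ (k + 1))⁻¹) = (((∏ i ∈ Finset.range k, (β ^ i) ⟨e, he⟩ : E) : G) * (e ^ k)⁻¹) *
            (((β ^ k) ⟨e, he⟩ : G) * e⁻¹) := by
        have h5 : (((β ^ k) ⟨e, he⟩ : E) : G) * (e ^ k)⁻¹ = (e ^ k)⁻¹ * ((β ^ k) ⟨e, he⟩ : G) :=
          hEc _ (Subtype.mem _) _ (inv_mem (pow_mem he k))
        rw [Subgroup.coe_mul, pow_succ', mul_inv_rev]
        calc _ = ((∏ i ∈ Finset.range k, (β ^ i) ⟨e, he⟩ : E) : G) *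
              ((((β ^ k) ⟨e, he⟩ : E) : G) * (e ^ k)⁻¹) * e⁻¹ := by group
          _ = _ := by rw [h5]; group
      rw [h4]
      exact mul_mem ih (h2 k).2
  have h4 := h3 (orderOf d)
  rw [h1] at h4
  have h5 : e ^ orderOf d ∈ A := by
    have : ((1 : E) : G) * (e ^ orderOf d)⁻¹ = (e ^ orderOf d)⁻¹ := by simp
    rw [this] at h4
    exact inv_mem_iff.1 h4
  obtain ⟨m, hm⟩ := exists_pow_eq_self_of_coprime (x := e) (n := orderOf d)
    (hd.coprime_dvd_right (orderOf_dvd_of_pow_eq_one (hEp e he)))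
  rw [← hm]
  exact pow_mem h5 m

end

end Vale.Agent.P240.K
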