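import Vale.Agent.P240.K.Two

namespace Vale.Agent.P240.K

open Finsupp Subgroup

variable {𝕜 : Type*} [Field 𝕜]

variable {G Q R : Type*} [Group G] [Group Q] [Group R] {p : ℕ}
variable {L N K N1 N2 : Subgroup G} {πK : N →* Q} {πL : N →* R}

/-- lower set used for the mixed functional -/
def DH (L K N1 : Subgroup G) : Set (Subgroup G) := {E | E ≤ N1 ∧ E ⊓ (L ⊔ K) ≤ L}

open Classical in
/-- the map used for the mixed functional -/
noncomputable def fH (L N K N2 : Subgroup G) (πL : N →* R) (E : Subgroup G) : Subgroup R :=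
  if E ≤ N2 then fq N πL E else fq N πL (E ⊓ (L ⊔ K))

/-- Mixed detection: the first type is killed on the side of `L`, the second one on the
side of `K`. -/
lemma hybrid [Fact p.Prime] [Finite G] (h : Ctx p L N K πK πL) (t : Two p L N K N1 N2) {n : ℕ}
    (hm : (∀ g : G, g ^ p = 1 → g ∈ N) ∨ 2 ≤ n)
    {al : Ch 𝕜 (Subgroup G)} (hal : al ∈ Sp 𝕜 (st (Ain p L)))
    (haln : al ∈ Sp 𝕜 (fun l : List (Subgroup G) => l.length = n)) (hbal : bd al = 0)
    (hane : mp (fq N πK) al ∉ Bst 𝕜 (Ain p (Gam N πK N1)))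
    {be : Ch 𝕜 (Subgroup G)} (hbe : be ∈ Sp 𝕜 (st (Ain p K))) (hbbe : bd be = 0)
    (hben : mp (fq N πL) be ∉ Bst 𝕜 (SRof L N πL (Ain p N2))) : NA 𝕜 (ApS p G) := by
  classical
  have hK1 : K ≤ N1 := le_sup_right.trans t.LK1
  have hK2 : K ≤ N2 := le_sup_right.trans t.LK2
  have hL1 : L ≤ N1 := le_sup_left.trans t.LK1
  have hL2 : L ≤ N2 := le_sup_left.trans t.LK2
  -- functionals
  have hmst : mp (fq N πL) be ∈ Sp 𝕜 (st (SRof L N πL (Ain p N2))) :=
    mp_mem (st_map (h.KSR (F := Ain p N2) (fun E hE => ⟨hE.1, hE.2.trans hK2⟩)) h.fst) hbe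
  obtain ⟨lW, hnW, hW, -, hlW⟩ := exists_cocycle (SRof L N πL (Ain p N2)) ⊥ (mp (fq N πL) be) (by
    rw [pi_of_st hmst, sup_bot_eq]; exact hben)
  have hLQ : ∀ E ∈ Ain p L, fq N πK E ∈ Ain p (Gam N πK N1) := by
    intro E hE
    refine ⟨fq_mem_ApS h.hπK hE.1 (hE.2.trans h.LN) fun hh =>
      hE.1.1 (le_bot_iff.1 (h.LK ▸ le_inf hE.2 hh)), ?_⟩
    intro q hq
    obtain ⟨m, hm', rfl⟩ := mem_fq.1 hq
    exact (mem_Gam h hK1).2 (hL1 (hE.2 hm'))
  have hLst : ∀ B ∈ Ain p L, ∀ B' ∈ Ain p L, B < B' → fq N πK B < fq N πK B' := by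
    intro B hB B' hB' hh
    refine lt_of_le_of_ne (fq_mono hh.le) fun he => hh.ne ?_
    rw [← pb_fq h.hπK h.LN h.LK hB.2, ← pb_fq h.hπK h.LN h.LK hB'.2, he]
  have hast : mp (fq N πK) al ∈ Sp 𝕜 (st (Ain p (Gam N πK N1))) := mp_mem (st_map hLQ hLst) hal
  obtain ⟨lG, hnG, hG, hlG, hlen⟩ := exists_cocycle_len (Ain p (Gam N πK N1)) ⊥
    (mp (fq N πK) al) n (mp_len_mem haln) (by rw [pi_of_st hast, sup_bot_eq]; exact hane)
  set lD : Ch 𝕜 (Subgroup G) →ₗ[𝕜] 𝕜 := (lG.comp (mp (fq N πK))).comp pi with hlD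
  have hnD : Nrm lD := by
    intro l hl
    rw [hlD, LinearMap.comp_apply, pi_single, if_neg hl, map_zero]
  have hlDlen : ∀ l : List (Subgroup G), l.length ≠ n → lD (single l (1 : 𝕜)) = 0 := by
    intro l hl
    rw [hlD, LinearMap.comp_apply, pi_single]
    split_ifs
    · rw [LinearMap.comp_apply, mp_single]
      exact hlen _ (by simpa using hl)
    · rw [map_zero]
  have hDA : ∀ E ∈ Ain p N ∩ DH L K N1, fq N πK E ∈ Ain p (Gam N πK N1) := by
    rintro E ⟨hE, hE1, hE2⟩
    refine ⟨fq_mem_ApS h.hπK hE.1 hE.2 fun hh => hE.1.1 ?_, ?_⟩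
    · rw [eq_bot_iff, ← h.LK]
      refine le_inf ?_ hh
      rw [inf_eq_left.2 (hh.trans le_sup_right)] at hE2
      exact hE2
    · intro q hq
      obtain ⟨m, hm', rfl⟩ := mem_fq.1 hq
      exact (mem_Gam h hK1).2 (hE1 hm')
  have hD : Coc (Ain p N ∩ DH L K N1) lD := by
    intro c hc
    rw [hlD, LinearMap.comp_apply, ← bd_pi hc, LinearMap.comp_apply, ← bd_mp]
    exact hG _ (mp_mem (wk_map hDA fun E _ F _ hh => fq_mono hh) (Sp_mono st_wk (pi_mem hc)))
  have hlow : ∀ x ∈ Ain p N, ∀ y ∈ Ain p N, x ≤ y → y ∈ DH L K N1 → x ∈ DH L K N1 :=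
    fun x _ y _ hxy hy => ⟨hxy.trans hy.1, (inf_le_inf_right _ hxy).trans hy.2⟩
  -- members of type one
  have htype : ∀ E ∈ Ain p N, ¬ E ≤ N2 → E ≤ N1 := fun E hE hE2 =>
    (t.E_or hE).resolve_right hE2
  have hfSR : ∀ E ∈ Ain p N, E ∉ DH L K N1 → fH L N K N2 πL E ∈ SRof L N πL (Ain p N2) := by
    intro E hE hED
    rw [fH]
    split_ifs with h2
    · refine ⟨E, ⟨hE.1, h2⟩, fun hEL => hED ⟨hEL.trans hL1, inf_le_left.trans hEL⟩, rfl⟩
    · have h3 := htype E hE h2
      have h4 : ¬ E ⊓ (L ⊔ K) ≤ L := fun hh => hED ⟨h3, hh⟩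
      refine ⟨E ⊓ (L ⊔ K), ⟨mem_ApS_of_le hE.1 inf_le_left ?_, inf_le_right.trans t.LK2⟩, h4, rfl⟩
      intro hb
      apply h4
      rw [hb]
      exact bot_le
  have hfmono : ∀ x ∈ Ain p N, x ∉ DH L K N1 → ∀ y ∈ Ain p N, y ∉ DH L K N1 → x ≤ y →
      fH L N K N2 πL x ≤ fH L N K N2 πL y := by
    intro x hx _ y hy _ hxy
    rw [fH, fH]
    by_cases hy2 : y ≤ N2
    · rw [if_pos hy2, if_pos (hxy.trans hy2)]
      exact fq_mono hxy
    · rw [if_neg hy2]
      have hy1 := htype y hy hy2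
      split_ifs with hx2
      · refine fq_mono (le_inf hxy ?_)
        intro a ha
        exact t.inf a (hy1 (hxy ha)) (hx2 ha)
      · exact fq_mono (inf_le_inf_right _ hxy)
  have hcoc : Coc (Ain p N) (phi (DH L K N1) (fH L N K N2 πL) lW lD) :=
    phi_coc hlow hfSR hfmono hW hD
  -- vanishing on lists commuting with a mover
  have hvan : ∀ g, g ∉ N → 2 ≤ n → ∀ l, wk {E | E ∈ Ain p N ∧ ∀ x ∈ E, g * x = x * g} l →
      PhiL (DH L K N1) (fH L N K N2 πL) lW lD l = 0 := by
    intro g hg hn l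
    induction l with
    | nil =>
      intro _
      rw [PhiL, hlDlen [] (by simp; omega), zero_smul]
    | cons E l ih =>
      intro hl
      have hp := List.pairwise_cons.1 hl.1
      by_cases hE : E ∈ DH L K N1
      · rw [PhiL_cons_mem hE]
        -- inner parts are trivial
        have hbot : ∀ F ∈ Ain p N, F ∈ DH L K N1 → (∀ x ∈ F, g * x = x * g) →
            F ⊓ (L ⊔ K) = ⊥ := by
          intro F hF hFD hFg
          rw [eq_bot_iff, ← h.LK]
          intro x hx
          have hxL : x ∈ L := hFD.2 hx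
          refine Subgroup.mem_inf.2 ⟨hxL, ?_⟩
          rw [h.hK, Subgroup.mem_centralizer_iff]
          intro y hy
          rw [h.hN] at hg
          have h5 := h.comp.conj g hg y hy x hxL
          have h6 : g * x * g⁻¹ = x := by
            rw [hFg x (Subgroup.mem_inf.1 hx).1, mul_assoc, mul_inv_cancel, mul_one]
          rwa [h6] at h5
        have hEb := hbot E (hl.2 E (by simp)).1 hE (hl.2 E (by simp)).2
        have hsing : ∀ F ∈ l, F = E := by
          intro F hF
          have hFE : F ≤ E := hp.1 F hF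
          have hFA := (hl.2 F (by simp [hF])).1
          have hEA := (hl.2 E (by simp)).1
          refine le_antisymm hFE ?_
          obtain ⟨y, hy1⟩ := (Subgroup.ne_bot_iff_exists_ne_one).1 hFA.1.1
          have hyne : (y : G) ≠ 1 := fun hh => hy1 (Subtype.ext hh)
          have hnotLK : ∀ z ∈ E, z ≠ 1 → z ∉ L ⊔ K := by
            intro z hz hz1 hzLK
            apply hz1
            have : z ∈ E ⊓ (L ⊔ K) := ⟨hz, hzLK⟩
            rwa [hEb, Subgroup.mem_bot] at this
          intro x hx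
          by_cases hx1 : x = 1
          · rw [hx1]; exact one_mem _
          have h7 := t.hR1 E hEA y (hFE y.2) x hx (hnotLK _ (hFE y.2) hyne)
            (hnotLK x hx hx1)
          obtain ⟨i, l', hl', k, hk, hxe⟩ := h.dec (hEA.2 (hFE y.2)) (hEA.2 hx) h7
          have h8 : l' * k ∈ E ⊓ (L ⊔ K) := by
            refine Subgroup.mem_inf.2
              ⟨?_, mul_mem (Subgroup.mem_sup_left hl') (Subgroup.mem_sup_right hk)⟩
            have : l' * k = ((y : G) ^ i)⁻¹ * x := by rw [hxe]; group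
            rw [this]
            exact mul_mem (inv_mem (zpow_mem (hFE y.2) i)) hx
          rw [hEb, Subgroup.mem_bot] at h8
          rw [hxe, h8, mul_one]
          exact zpow_mem y.2 i
        rcases l with _ | ⟨F, l⟩
        · rw [hlDlen [E] (by simp; omega), zero_smul]
        · rw [hnD, zero_smul]
          intro hh
          have h9 := (List.pairwise_cons.1 hh).1 F (by simp)
          rw [hsing F (by simp)] at h9
          exact lt_irrefl _ h9
      · rw [PhiL_cons_not hE, ih ⟨hp.2, fun F hF => hl.2 F (by simp [hF])⟩, LinearMap.zero_comp]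
  refine detect_gen N (phi (DH L K N1) (fH L N K N2 πL) lW lD) hcoc ?_ ?_ (sh be al)
    (sh_mem_N (H1 := K) (H2 := L) h.KN h.LN (fun k hk l hl => (h.comm l hl k hk).symm)
      (Sp_mono st_wk hbe) (Sp_mono st_wk hal)) ?_ ?_
  · intro l hl hs
    rw [phi_single]
    exact PhiL_nrm (S := Ain p N) hnW hnD _ hl hs _
  · intro g hg hgp l hl
    rcases hm with hm | hm
    · exact absurd (hm g hgp) hg
    · rw [phi_single, hvan g hg hm l hl, LinearMap.zero_apply]
  · rw [bd_sh, hbbe, hbal, map_zero, LinearMap.zero_apply, map_zero, add_zero]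
  · have hfK : ∀ E ∈ Ain p K, fH L N K N2 πL E = fq N πL E := by
      intro E hE
      rw [fH, if_pos (hE.2.trans hK2)]
    rw [phi_shuffle (A := Ain p K) (B := Ain p L) ?_ ?_ ?_ hnW
        (Sp_mono (fun l hl => hl.2) hbe) (Sp_mono (fun l hl => hl.2) hal)]
    · refine mul_ne_zero ?_ ?_
      · rw [mp_congr (g := fq N πL) (fun l (hl : st (Ain p K) l) a ha => hfK a (hl.2 a ha)) hbe]
        exact hlW
      · rw [hlD, LinearMap.comp_apply, pi_of_st hal]
        exact hlG
    · intro E hE hED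
      apply hE.1.1
      rw [eq_bot_iff, ← h.LK]
      refine le_inf ?_ hE.2
      have := hED.2
      rwa [inf_eq_left.2 (hE.2.trans le_sup_right)] at this
    · intro E hE
      exact ⟨hE.2.trans hL1, inf_le_left.trans hE.2⟩
    · intro E hE F hF
      have h1 : E ⊔ F ≤ L ⊔ K := sup_le (hE.2.trans le_sup_right) (hF.2.trans le_sup_left)
      refine ⟨?_, ?_⟩
      · intro hh
        have h2 := hh.2
        rw [inf_eq_left.2 h1] at h2
        apply hE.1.1
        rw [eq_bot_iff, ← h.LK]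
        exact le_inf (le_sup_left.trans h2) hE.2
      · rw [hfK E hE, fH, if_pos (h1.trans t.LK2)]
        exact fq_sup h.hπL (hE.2.trans h.KN) (hF.2.trans h.LN) hF.2

end Vale.Agent.P240.K
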