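import Vale.Agent.P240.K.SmithGroup

namespace Vale.Agent.P240.K

open Finsupp Subgroup

section
variable {K V W U : Type*} [Field K] [AddCommGroup V] [Module K V] [AddCommGroup W] [Module K W]
  [AddCommGroup U] [Module K U] [FiniteDimensional K V] [FiniteDimensional K W]
  [FiniteDimensional K U]

/-- additivity of the trace -/
lemma trace_exact (d : V →ₗ[K] W) (hd : Function.Surjective d) (ι : U →ₗ[K] V)
    (hι : Function.Injective ι) (hr : LinearMap.range ι = LinearMap.ker d)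
    (T : V →ₗ[K] V) (TW : W →ₗ[K] W) (TU : U →ₗ[K] U) (h1 : ∀ v, d (T v) = TW (d v))
    (h2 : ∀ u, T (ι u) = ι (TU u)) :
    LinearMap.trace K V T = LinearMap.trace K U TU + LinearMap.trace K W TW := by
  obtain ⟨s, hs⟩ := d.exists_rightInverse_of_surjective (LinearMap.range_eq_top.2 hd)
  have hs' : ∀ w, d (s w) = w := fun w => LinearMap.congr_fun hs w
  have hmem : ∀ v, ((LinearMap.id : V →ₗ[K] V) - s.comp d) v ∈ LinearMap.range ι := by
    intro v
    rw [hr, LinearMap.mem_ker]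
    simp [hs']
  let P : V →ₗ[K] U := (LinearEquiv.ofInjective ι hι).symm.toLinearMap.comp
    (LinearMap.codRestrict (LinearMap.range ι) ((LinearMap.id : V →ₗ[K] V) - s.comp d) hmem)
  have hP : ∀ v, ι (P v) = v - s (d v) := by
    intro v
    have h3 : LinearEquiv.ofInjective ι hι (P v) =
        LinearMap.codRestrict (LinearMap.range ι) ((LinearMap.id : V →ₗ[K] V) - s.comp d) hmem v :=
      LinearEquiv.apply_symm_apply _ _
    have h4 := congrArg Subtype.val h3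
    simpa using h4
  have hPι : ∀ u, P (ι u) = u := by
    intro u
    apply hι
    rw [hP]
    have : d (ι u) = 0 := by
      rw [← LinearMap.mem_ker, ← hr]
      exact ⟨u, rfl⟩
    rw [this, map_zero, sub_zero]
  have hT : T = (T.comp ι).comp P + (T.comp s).comp d := by
    ext v
    simp only [LinearMap.add_apply, LinearMap.comp_apply]
    rw [hP, map_sub]
    abel
  have e1 : LinearMap.trace K V ((T.comp ι).comp P) = LinearMap.trace K U TU := by
    rw [LinearMap.trace_comp_comm']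
    congr 1
    ext u
    simp only [LinearMap.comp_apply]
    rw [h2, hPι]
  have e2 : LinearMap.trace K V ((T.comp s).comp d) = LinearMap.trace K W TW := by
    rw [LinearMap.trace_comp_comm']
    congr 1
    ext w
    simp only [LinearMap.comp_apply]
    rw [h1, hs']
  rw [← e1, ← e2, ← map_add, ← hT]

end

section
variable {𝕜 : Type*} [Field 𝕜] {α : Type*} [PartialOrder α] {S : Set α}

lemma stn_finite (hS : S.Finite) (n : ℕ) : (stn S n).Finite := by
  classical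
  have hF : Finite S := hS
  have h1 : Set.Finite (List.map (Subtype.val : S → α) '' {l : List S | l.length = n}) :=
    (List.finite_length_eq S n).image _
  refine h1.subset ?_
  rintro l ⟨hl, hl2⟩
  refine ⟨l.attachWith (· ∈ S) hl2.2, by simpa using hl, ?_⟩
  simp

/-- cycles with `n` terms -/
noncomputable def Zs (𝕜 : Type*) [Field 𝕜] (S : Set α) (n : ℕ) : Submodule 𝕜 (Ch 𝕜 α) :=
  Finsupp.supported 𝕜 𝕜 (stn S n) ⊓ LinearMap.ker bd

lemma Zs_le (n : ℕ) : Zs 𝕜 S n ≤ Finsupp.supported 𝕜 𝕜 (stn S n) := inf_le_left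

lemma fd_supported (hS : S.Finite) (n : ℕ) :
    FiniteDimensional 𝕜 (Finsupp.supported 𝕜 𝕜 (stn S n)) := by
  have : Finite (stn S n) := stn_finite hS n
  exact Module.Finite.equiv (Finsupp.supportedEquivFinsupp (M := 𝕜) (R := 𝕜) (stn S n)).symm

lemma fd_Zs (hS : S.Finite) (n : ℕ) : FiniteDimensional 𝕜 (Zs 𝕜 S n) := by
  have := fd_supported (𝕜 := 𝕜) hS n
  exact Submodule.finiteDimensional_of_le (Zs_le n)

lemma card_zero : Nat.card (stn S 0) = 1 := by
  have : stn S 0 = {[]} := by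
    ext l
    constructor
    · rintro ⟨h, _⟩
      exact List.length_eq_zero_iff.1 h
    · intro h
      rw [Set.mem_singleton_iff] at h
      subst h
      exact ⟨rfl, List.Pairwise.nil, by simp⟩
  rw [this]
  simp

variable {σ : α → α} (hσ : ∀ x ∈ S, σ x ∈ S) (hlt : ∀ x ∈ S, ∀ y ∈ S, x < y → σ x < σ y)

include hσ hlt in
lemma map_stn (n : ℕ) {l : List α} (hl : l ∈ stn S n) : l.map σ ∈ stn S n :=
  ⟨by rw [List.length_map]; exact hl.1, st_map hσ hlt l hl.2⟩

include hσ hlt in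
lemma mp_stn (n : ℕ) {c : Ch 𝕜 α} (hc : c ∈ Finsupp.supported 𝕜 𝕜 (stn S n)) :
    mp σ c ∈ Finsupp.supported 𝕜 𝕜 (stn S n) :=
  mp_mem (P := fun l => l ∈ stn S n) (Q := fun l => l ∈ stn S n)
    (fun _ hl => map_stn hσ hlt n hl) hc

include hσ hlt in
lemma mp_Zs (n : ℕ) {c : Ch 𝕜 α} (hc : c ∈ Zs 𝕜 S n) : mp σ c ∈ Zs 𝕜 S n := by
  refine ⟨mp_stn hσ hlt n hc.1, ?_⟩
  have h : bd c = 0 := hc.2
  change bd (mp σ c) = 0
  rw [bd_mp, h, map_zero]

lemma trace_congr {V : Type*} [AddCommGroup V] [Module 𝕜 V] {P Q : Submodule 𝕜 V} (h : P = Q)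
    (T : V →ₗ[𝕜] V) (hP : ∀ x ∈ P, T x ∈ P) (hQ : ∀ x ∈ Q, T x ∈ Q) :
    LinearMap.trace 𝕜 P (T.restrict hP) = LinearMap.trace 𝕜 Q (T.restrict hQ) := by
  subst h
  rfl

/-- trace on chains -/
lemma trace_chains (hS : S.Finite) (n : ℕ) :
    LinearMap.trace 𝕜 _ ((mp σ : Ch 𝕜 α →ₗ[𝕜] Ch 𝕜 α).restrict
      (p := Finsupp.supported 𝕜 𝕜 (stn S n)) (q := Finsupp.supported 𝕜 𝕜 (stn S n))
      (fun _ hc => mp_stn hσ hlt n hc)) = (Nat.card (stn {x | x ∈ S ∧ σ x = x} n) : 𝕜) := by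
  classical
  have hfin := stn_finite hS n
  have : Fintype (stn S n) := hfin.fintype
  let b : Module.Basis (stn S n) 𝕜 (Finsupp.supported 𝕜 𝕜 (stn S n)) :=
    .ofRepr (Finsupp.supportedEquivFinsupp (stn S n))
  have hb : ∀ i : stn S n, ((b i : Finsupp.supported 𝕜 𝕜 (stn S n)) : Ch 𝕜 α) = single i.1 1 := by
    intro i
    have h1 : b.repr (b i) = single i 1 := b.repr_self i
    ext l
    by_cases hl : l ∈ stn S n
    · have h2 : b.repr (b i) ⟨l, hl⟩ = ((b i : Finsupp.supported 𝕜 𝕜 (stn S n)) : Ch 𝕜 α) l := rfl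
      rw [← h2, h1, Finsupp.single_apply, Finsupp.single_apply]
      exact if_congr (by rw [Subtype.ext_iff]) rfl rfl
    · have h3 := (b i).2
      rw [Finsupp.mem_supported'] at h3
      rw [h3 l hl, Finsupp.single_apply, if_neg]
      rintro rfl
      exact hl i.2
  rw [LinearMap.trace_eq_matrix_trace 𝕜 b, Matrix.trace]
  have hdiag : ∀ i : stn S n, Matrix.diag (LinearMap.toMatrix b b
      ((mp σ : Ch 𝕜 α →ₗ[𝕜] Ch 𝕜 α).restrict
      (p := Finsupp.supported 𝕜 𝕜 (stn S n)) (q := Finsupp.supported 𝕜 𝕜 (stn S n))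
      (fun _ hc => mp_stn hσ hlt n hc))) i = if i.1.map σ = i.1 then (1 : 𝕜) else 0 := by
    intro i
    rw [Matrix.diag_apply, LinearMap.toMatrix_apply]
    change ((mp σ : Ch 𝕜 α →ₗ[𝕜] Ch 𝕜 α) (b i : Ch 𝕜 α)) i.1 = _
    rw [hb, mp_single, Finsupp.single_apply]
  rw [Finset.sum_congr rfl fun i _ => hdiag i, Finset.sum_boole]
  congr 1
  rw [← Fintype.card_subtype, ← Nat.card_eq_fintype_card]
  refine Nat.card_congr ⟨fun i => ⟨i.1.1, i.1.2.1, i.1.2.2.1, fun a ha => ⟨i.1.2.2.2 a ha, ?_⟩⟩,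
    fun l => ⟨⟨l.1, l.2.1, l.2.2.1, fun a ha => (l.2.2.2 a ha).1⟩, ?_⟩, fun _ => rfl,
    fun _ => rfl⟩
  · have h := i.2
    have h2 : i.1.1.map σ = i.1.1.map id := by rw [h, List.map_id]
    exact List.map_inj_left.1 h2 a ha
  · change l.1.map σ = l.1
    conv_rhs => rw [← List.map_id l.1]
    exact List.map_congr_left fun a ha => (l.2.2.2 a ha).2

include hσ hlt in
/-- **Lefschetz** -/
theorem lefschetz_aux (hS : S.Finite) (hac : ¬ NA 𝕜 S) (N : ℕ) :
    ∑ n ∈ Finset.range (N + 1), (-1 : 𝕜) ^ n * (Nat.card (stn {x | x ∈ S ∧ σ x = x} n) : 𝕜) =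
      (-1 : 𝕜) ^ N * LinearMap.trace 𝕜 _ ((mp σ : Ch 𝕜 α →ₗ[𝕜] Ch 𝕜 α).restrict
      (p := Zs 𝕜 S N) (q := Zs 𝕜 S N) (fun _ hc => mp_Zs hσ hlt N hc)) := by
  induction N with
  | zero =>
    have h : Zs 𝕜 S 0 = Finsupp.supported 𝕜 𝕜 (stn S 0) := by
      rw [Zs, inf_eq_left]
      intro c hc
      have h1 : c = len 0 c :=
        (len_of_mem (Sp_mono (fun l (hl : l ∈ stn S 0) => hl.1) hc)).symm
      rw [LinearMap.mem_ker, h1, bd_len_zero]
    rw [zero_add, Finset.sum_range_one, pow_zero, one_mul, one_mul, ← trace_chains hσ hlt hS 0]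
    exact trace_congr h.symm _ _ _
  | succ N ih =>
    have := fd_supported (𝕜 := 𝕜) hS (N + 1)
    have := fd_Zs (𝕜 := 𝕜) hS (N + 1)
    have := fd_Zs (𝕜 := 𝕜) hS N
    let d : Finsupp.supported 𝕜 𝕜 (stn S (N + 1)) →ₗ[𝕜] Zs 𝕜 S N :=
      (bd : Ch 𝕜 α →ₗ[𝕜] Ch 𝕜 α).restrict (fun c hc => ⟨bd_stn hc, bd_bd c⟩)
    have hex := trace_exact (K := 𝕜) (V := Finsupp.supported 𝕜 𝕜 (stn S (N + 1)))
      (W := Zs 𝕜 S N) (U := Zs 𝕜 S (N + 1)) d ?_ (Submodule.inclusion (Zs_le (N + 1)))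
      (Submodule.inclusion_injective _) ?_
      ((mp σ : Ch 𝕜 α →ₗ[𝕜] Ch 𝕜 α).restrict
        (p := Finsupp.supported 𝕜 𝕜 (stn S (N + 1))) (q := Finsupp.supported 𝕜 𝕜 (stn S (N + 1)))
        (fun _ hc => mp_stn hσ hlt (N + 1) hc))
      ((mp σ : Ch 𝕜 α →ₗ[𝕜] Ch 𝕜 α).restrict
        (p := Zs 𝕜 S N) (q := Zs 𝕜 S N) (fun _ hc => mp_Zs hσ hlt N hc))
      ((mp σ : Ch 𝕜 α →ₗ[𝕜] Ch 𝕜 α).restrict
        (p := Zs 𝕜 S (N + 1)) (q := Zs 𝕜 S (N + 1)) (fun _ hc => mp_Zs hσ hlt (N + 1) hc))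
      ?_ ?_
    · rw [trace_chains hσ hlt hS] at hex
      rw [Finset.sum_range_succ, ih, hex, pow_succ]
      ring
    · rintro ⟨z, hz1, hz2⟩
      obtain ⟨c, hc, hcz⟩ := not_NA_hom hac N hz1 (LinearMap.mem_ker.1 hz2)
      exact ⟨⟨c, hc⟩, Subtype.ext hcz⟩
    · apply le_antisymm
      · rintro _ ⟨⟨u, hu⟩, rfl⟩
        exact Subtype.ext hu.2
      · rintro ⟨c, hc⟩ h
        exact ⟨⟨c, hc, congrArg Subtype.val h⟩, rfl⟩
    · rintro ⟨v, hv⟩
      apply Subtype.ext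
      exact bd_mp σ v
    · rintro ⟨u, hu⟩
      rfl

include hσ hlt in
/-- **Lefschetz**: the reduced Euler characteristic of the fixed points of an automorphism of a
finite `ℚ`-acyclic poset vanishes. -/
theorem lefschetz (hS : S.Finite) (hac : ¬ NA ℚ S) {N : ℕ} (hN : hS.toFinset.card < N) :
    ∑ n ∈ Finset.range (N + 1),
      (-1 : ℤ) ^ n * (Nat.card (stn {x | x ∈ S ∧ σ x = x} n) : ℤ) = 0 := by
  have h := lefschetz_aux hσ hlt hS hac N
  have hZ : ∀ x : Zs ℚ S N, x = 0 := by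
    rintro ⟨z, hz⟩
    have h1 := supported_stn_zero hS hN hz.1
    exact Subtype.ext h1
  have h0 : (mp σ : Ch ℚ α →ₗ[ℚ] Ch ℚ α).restrict
      (p := Zs ℚ S N) (q := Zs ℚ S N) (fun _ hc => mp_Zs hσ hlt N hc) = 0 := by
    ext1 x
    exact hZ _
  rw [h0, map_zero, mul_zero] at h
  exact_mod_cast h

end

section
variable {𝕜 : Type*} [Field 𝕜] {G : Type*} [Group G]

/-- counting chains modulo `r` -/
lemma euler_mod {r : ℕ} [hr : Fact r.Prime] [Finite G] {S : Set (Subgroup G)}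
    (U : Subgroup G) (hU : IsPGroup r U) (hstab : ∀ u ∈ U, ∀ E ∈ S, cj u E ∈ S)
    (hno : ∀ E ∈ S, ¬ U ≤ normalizer (E : Set G)) (N : ℕ) :
    ∑ n ∈ Finset.range (N + 1), (-1 : ℤ) ^ n * (Nat.card (stn S n) : ℤ) ≠ 0 := by
  intro h0
  have hS : S.Finite := Set.toFinite S
  have hdiv : ∀ n, (r : ℤ) ∣ (Nat.card (stn S (n + 1)) : ℤ) := by
    intro n
    have hfin : Finite (stn S (n + 1)) := stn_finite hS (n + 1)
    have hmap : ∀ u : U, ∀ l ∈ stn S (n + 1), l.map (cj (u : G)) ∈ stn S (n + 1) := by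
      rintro u l ⟨h1, h2, h3⟩
      refine ⟨by rw [List.length_map, h1], ?_, ?_⟩
      · rw [List.pairwise_map]
        exact h2.imp fun h => cj_lt.2 h
      · intro a ha
        obtain ⟨b, hb, rfl⟩ := List.mem_map.1 ha
        exact hstab u u.2 b (h3 b hb)
    let act : MulAction U (stn S (n + 1)) :=
      { smul := fun u l => ⟨l.1.map (cj (u : G)), hmap u l.1 l.2⟩
        one_smul := fun l => by
          apply Subtype.ext
          change l.1.map (cj ((1 : U) : G)) = l.1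
          conv_rhs => rw [← List.map_id l.1]
          exact List.map_congr_left fun a _ => by simp [cj_one]
        mul_smul := fun u v l => by
          apply Subtype.ext
          change l.1.map (cj ((u * v : U) : G)) = (l.1.map (cj (v : G))).map (cj (u : G))
          rw [List.map_map]
          exact List.map_congr_left fun a _ => by simp [cj_mul] }
    have h1 := hU.card_modEq_card_fixedPoints (stn S (n + 1))
    have h2 : MulAction.fixedPoints U (stn S (n + 1)) = ∅ := by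
      rw [Set.eq_empty_iff_forall_notMem]
      rintro ⟨l, hl1, hl2⟩ hfix
      obtain ⟨E, l', rfl⟩ : ∃ E l', l = E :: l' := by
        rcases l with _ | ⟨E, l'⟩
        · simp at hl1
        · exact ⟨E, l', rfl⟩
      refine hno E (hl2.2 E (by simp)) fun u hu => ?_
      rw [← cj_eq_iff]
      have h3 := congrArg Subtype.val (hfix ⟨u, hu⟩)
      have h4 : (E :: l').map (cj u) = E :: l' := h3
      rw [List.map_cons, List.cons_eq_cons] at h4
      exact h4.1
    rw [h2] at h1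
    have h5 : Nat.card (stn S (n + 1)) ≡ 0 [MOD r] := by simpa using h1
    exact_mod_cast (Nat.modEq_zero_iff_dvd.1 h5)
  rw [Finset.sum_range_succ'] at h0
  rw [card_zero] at h0
  have h1 : (r : ℤ) ∣ ∑ k ∈ Finset.range N,
      (-1 : ℤ) ^ (k + 1) * (Nat.card (stn S (k + 1)) : ℤ) :=
    Finset.dvd_sum fun k _ => Dvd.dvd.mul_left (hdiv k) _
  have h2 : (r : ℤ) ∣ 1 := by
    have h3 : (1 : ℤ) = - ∑ k ∈ Finset.range N,
        (-1 : ℤ) ^ (k + 1) * (Nat.card (stn S (k + 1)) : ℤ) := by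
      have : ((1 : ℕ) : ℤ) = 1 := rfl
      rw [pow_zero, one_mul] at h0
      push_cast at h0
      linarith
    rw [h3]
    exact (dvd_neg.2 h1)
  have h3 : r ∣ 1 := by exact_mod_cast h2
  exact hr.out.one_lt.ne' (Nat.dvd_one.1 h3)

/-- A finite set of subgroups with no member normalized by both `c` and the `r`-group `U`
centralizing `c` is not rationally acyclic. -/
theorem lefschetz_group {r : ℕ} [hr : Fact r.Prime] [Finite G] {S : Set (Subgroup G)} (c : G)
    (U : Subgroup G) (hU : IsPGroup r U) (hcU : ∀ u ∈ U, u * c = c * u)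
    (hc : ∀ E ∈ S, cj c E ∈ S) (hstab : ∀ u ∈ U, ∀ E ∈ S, cj u E ∈ S)
    (hno : ∀ E ∈ S, c ∈ normalizer (E : Set G) → ¬ U ≤ normalizer (E : Set G)) : NA ℚ S := by
  by_contra hac
  have hS : S.Finite := Set.toFinite S
  refine euler_mod (r := r) (S := {E | E ∈ S ∧ cj c E = E}) U hU ?_ ?_ (hS.toFinset.card + 1)
    (lefschetz hc (fun x _ y _ h => cj_lt.2 h) hS hac (Nat.lt_succ_self _))
  · rintro u hu E ⟨h1, h2⟩
    refine ⟨hstab u hu E h1, ?_⟩
    rw [← cj_mul, ← hcU u hu, cj_mul, h2]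
  · rintro E ⟨h1, h2⟩
    exact hno E h1 (cj_eq_iff.1 h2)

end

end Vale.Agent.P240.K
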