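import Vale.Agent.P240.K.ElimStatement

namespace Vale.Agent.P240.K

open Subgroup

variable {𝕜 : Type*} [Field 𝕜]

universe u

/-- `Oₚ(H) = 1` for a subgroup `H` of `G`, phrased with subgroups of `G`. -/
def OpIn {G : Type*} [Group G] (p : ℕ) (H : Subgroup G) : Prop :=
  ∀ Y : Subgroup G, Y ≤ H → (∀ h ∈ H, ∀ y ∈ Y, h * y * h⁻¹ ∈ Y) → IsPGroup p Y → Y = ⊥

section
variable {p : ℕ} {G : Type*} [Group G]

lemma opTrivial_of_opIn {H : Subgroup G} (h : OpIn p H) : OpTrivial p H := by
  intro N hN hp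
  have h1 : N.map H.subtype = ⊥ := by
    apply h _ (map_subtype_le N)
    · rintro a ha _ ⟨y, hy, rfl⟩
      exact ⟨⟨a, ha⟩ * y * ⟨a, ha⟩⁻¹, hN.conj_mem y hy ⟨a, ha⟩, by simp⟩
    · exact hp.map _
  exact (map_eq_bot_iff_of_injective _ H.subtype_injective).1 h1

lemma opIn_top (h : OpTrivial p G) : OpIn p (⊤ : Subgroup G) := by
  intro Y _ hn hp
  exact h Y ⟨fun y hy g => hn g (mem_top g) y hy⟩ hp

lemma le_normalizer_of_conj {Y H : Subgroup G} (hn : ∀ h ∈ H, ∀ y ∈ Y, h * y * h⁻¹ ∈ Y) :
    H ≤ normalizer (Y : Set G) := by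
  intro h hh n
  constructor
  · exact fun hy => hn h hh n hy
  · intro hy
    have := hn h⁻¹ (inv_mem hh) _ hy
    simpa [mul_assoc] using this

lemma OpIn.descend [Finite G] [Fact p.Prime] {M H : Subgroup G} (hHM : H ≤ M)
    (hn : ∀ m ∈ M, ∀ h ∈ H, m * h * m⁻¹ ∈ H) (hM : OpIn p M) : OpIn p H := by
  intro Y hYH hYn hYp
  let S : Set (Subgroup G) :=
    {Z | Z ≤ H ∧ (∀ h ∈ H, ∀ y ∈ Z, h * y * h⁻¹ ∈ Z) ∧ IsPGroup p Z}
  have hfin : S.Finite := Set.toFinite S
  obtain ⟨Z, hYZ, hZ⟩ := hfin.exists_le_maximal (a := Y) ⟨hYH, hYn, hYp⟩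
  have hsup : ∀ W ∈ S, W ≤ Z := by
    intro W hW
    have hmem : Z ⊔ W ∈ S := by
      refine ⟨sup_le hZ.prop.1 hW.1, ?_, ?_⟩
      · intro h hh y hy
        have h1 : H ≤ normalizer (Z : Set G) := le_normalizer_of_conj hZ.prop.2.1
        have h2 : H ≤ normalizer (W : Set G) := le_normalizer_of_conj hW.2.1
        have key : ((Z ⊔ W).map (MulAut.conj h).toMonoidHom) ≤ Z ⊔ W := by
          rw [Subgroup.map_sup]
          apply sup_le_sup
          · rintro _ ⟨z, hz, rfl⟩
            exact hZ.prop.2.1 h hh z hz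
          · rintro _ ⟨z, hz, rfl⟩
            exact hW.2.1 h hh z hz
        exact key ⟨y, hy, rfl⟩
      · exact hZ.prop.2.2.to_sup_of_normal_right' hW.2.2
          (hZ.prop.1.trans (le_normalizer_of_conj hW.2.1))
    exact le_trans le_sup_right (hZ.le_of_ge hmem le_sup_left)
  have hZbot : Z = ⊥ := by
    apply hM Z (hZ.prop.1.trans hHM) _ hZ.prop.2.2
    intro m hm y hy
    have hmem : Z.map (MulAut.conj m).toMonoidHom ∈ S := by
      refine ⟨?_, ?_, hZ.prop.2.2.map _⟩
      · rintro _ ⟨z, hz, rfl⟩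
        exact hn m hm z (hZ.prop.1 hz)
      · rintro h hh _ ⟨z, hz, rfl⟩
        refine ⟨(m⁻¹ * h * m) * z * (m⁻¹ * h * m)⁻¹, ?_, ?_⟩
        · apply hZ.prop.2.1 _ _ z hz
          have := hn m⁻¹ (inv_mem hm) h hh
          simpa using this
        · simp [mul_assoc]
    exact hsup _ hmem ⟨y, hy, rfl⟩
  rw [eq_bot_iff, ← hZbot]
  exact hYZ

end

section
variable {p : ℕ} [hp : Fact p.Prime] {G : Type u} [Group G] [Finite G] {L : Subgroup G}

omit hp [Finite G] in
/-- the other conjugates of `L` lie in the centralizer -/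
lemma CompLike.conj_le (hL : CompLike p L) {g : G} (hg : g ∉ normalizer (L : Set G)) {y : G}
    (hy : y ∈ L) : g * y * g⁻¹ ∈ centralizer (L : Set G) := by
  rw [mem_centralizer_iff]
  intro x hx
  exact hL.conj g hg x hx y hy

omit hp [Finite G] in
lemma CompLike.normalClosure_le (hL : CompLike p L) :
    normalClosure (L : Set G) ≤ L ⊔ (centralizer (L : Set G) ⊓ normalClosure (L : Set G)) := by
  rw [normalClosure, closure_le]
  intro z hz
  rw [Group.mem_conjugatesOfSet_iff] at hz
  obtain ⟨y, hy, g, rfl⟩ := by simpa [isConj_iff] using hz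
  have hM : g * y * g⁻¹ ∈ normalClosure (L : Set G) :=
    normalClosure_normal.conj_mem _ (subset_normalClosure hy) g
  by_cases hg : g ∈ normalizer (L : Set G)
  · exact mem_sup_left ((hg y).1 hy)
  · exact mem_sup_right ⟨hL.conj_le hg hy, hM⟩

omit hp [Finite G] in
lemma CompLike.conjM_mem (hL : CompLike p L) {m : G} (hm : m ∈ normalClosure (L : Set G)) :
    m ∈ normalizer (L : Set G) := by
  have h := hL.normalClosure_le hm
  exact (sup_le le_normalizer (inf_le_left.trans (centralizer_le_normalizer _))) h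

omit hp [Finite G] in
lemma conj_mem_centralizer {m k : G} (hm : m ∈ normalizer (L : Set G))
    (hk : k ∈ centralizer (L : Set G)) : m * k * m⁻¹ ∈ centralizer (L : Set G) := by
  rw [mem_centralizer_iff] at hk ⊢
  intro x hx
  have h1 : m⁻¹ * x * m ∈ (L : Set G) := ((mem_normalizer_iff''.1 hm) x).1 hx
  have h2 := hk _ h1
  calc x * (m * k * m⁻¹) = m * ((m⁻¹ * x * m) * k) * m⁻¹ := by group
    _ = m * (k * (m⁻¹ * x * m)) * m⁻¹ := by rw [h2]
    _ = m * k * m⁻¹ * x := by group

omit hp [Finite G] in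
lemma CompLike.L_ne_bot (hp1 : p ≠ 1) (hL : CompLike p L) : L ≠ ⊥ := by
  rintro rfl
  have := hL.dvd
  simp at this
  exact hp1 this

lemma CompLike.opIn_L (hO : OpTrivial p G) (hL : CompLike p L) : OpIn p L := by
  have hM : OpIn p (normalClosure (L : Set G)) :=
    OpIn.descend le_top (fun m _ h hh => normalClosure_normal.conj_mem _ hh m) (opIn_top hO)
  apply OpIn.descend (M := normalClosure (L : Set G)) subset_normalClosure _ hM
  intro m hm h hh
  exact ((hL.conjM_mem hm) h).1 hh

lemma CompLike.opIn_K (hO : OpTrivial p G) (hL : CompLike p L) :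
    OpIn p (centralizer (L : Set G)) := by
  set M := normalClosure (L : Set G) with hMdef
  set K := centralizer (L : Set G) with hKdef
  have hMn : M.Normal := normalClosure_normal
  have hM : OpIn p M :=
    OpIn.descend le_top (fun m _ h hh => hMn.conj_mem _ hh m) (opIn_top hO)
  have hLM : (L : Set G) ⊆ M := subset_normalClosure
  have hKM : OpIn p (K ⊓ M) := by
    apply OpIn.descend (M := M) inf_le_right _ hM
    intro m hm h hh
    exact ⟨conj_mem_centralizer (hL.conjM_mem hm) hh.1, hMn.conj_mem _ hh.2 m⟩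
  intro Y hYK hYn hYp
  -- `Y ⊓ M = ⊥`
  have hYM : Y ⊓ M = ⊥ := by
    apply hKM (Y ⊓ M) (inf_le_inf_right M hYK)
    · intro h hh y hy
      exact ⟨hYn h hh.1 y hy.1, hMn.conj_mem _ hy.2 h⟩
    · exact hYp.to_le inf_le_left
  have hYC : Y ≤ centralizer (M : Set G) := by
    rw [← le_centralizer_iff]
    have h1 : M ≤ L ⊔ (K ⊓ M) := hL.normalClosure_le
    refine h1.trans (sup_le ?_ ?_)
    · rw [le_centralizer_iff]
      exact hYK
    · intro k hk
      rw [mem_centralizer_iff]
      intro y hy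
      have h2 : y * k * y⁻¹ * k⁻¹ ∈ Y ⊓ M := by
        refine ⟨?_, ?_⟩
        · have := hYn k hk.1 y⁻¹ (inv_mem hy)
          have h3 := mul_mem hy this
          simpa [mul_assoc] using h3
        · exact M.mul_mem (hMn.conj_mem _ hk.2 y) (M.inv_mem hk.2)
      rw [hYM, mem_bot] at h2
      have h3 : y * k * y⁻¹ = k := by
        have := mul_inv_eq_one.1 h2
        exact this
      calc y * k = (y * k * y⁻¹) * y := by group
        _ = k * y := by rw [h3]
  have hCn : (centralizer (M : Set G)).Normal := inferInstance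
  have hCK : centralizer (M : Set G) ≤ K := centralizer_le hLM
  have hC : OpIn p (centralizer (M : Set G)) :=
    OpIn.descend le_top (fun m _ h hh => hCn.conj_mem _ hh m) (opIn_top hO)
  exact hC Y hYC (fun h hh y hy => hYn h (hCK hh) y hy) hYp

omit hp in
lemma CompLike.card_L_lt (hL : CompLike p L) (hC : centralizer (L : Set G) ≠ ⊥) :
    Nat.card L < Nat.card G := by
  refine lt_of_le_of_ne (card_le_card_group L) ?_
  intro h
  have h1 : L = ⊤ := (card_eq_iff_eq_top L).1 h
  apply hC
  have h2 := hL.centre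
  rw [h1] at h2 ⊢
  simpa using h2

lemma CompLike.card_K_lt (hL : CompLike p L) :
    Nat.card (centralizer (L : Set G)) < Nat.card G := by
  refine lt_of_le_of_ne (card_le_card_group _) ?_
  intro h
  have h1 : centralizer (L : Set G) = ⊤ := (card_eq_iff_eq_top _).1 h
  have h2 := hL.centre
  rw [h1] at h2
  exact hL.L_ne_bot hp.out.ne_one (by simpa using h2)

omit hp in
lemma card_range_lt (hC : centralizer (L : Set G) ≠ ⊥) :
    Nat.card L.normalizerMonoidHom.range < Nat.card G := by
  have h1 : Nat.card L.normalizerMonoidHom.range * Nat.card (centralizer (L : Set G))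
      = Nat.card (normalizer (L : Set G)) := by
    have h2 := Subgroup.card_eq_card_quotient_mul_card_subgroup L.normalizerMonoidHom.ker
    have h3 : Nat.card L.normalizerMonoidHom.ker = Nat.card (centralizer (L : Set G)) := by
      rw [normalizerMonoidHom_ker]
      exact Nat.card_congr (subgroupOfEquivOfLe (centralizer_le_normalizer _)).toEquiv
    have h4 : Nat.card (normalizer (L : Set G) ⧸ L.normalizerMonoidHom.ker)
        = Nat.card L.normalizerMonoidHom.range :=
      Nat.card_congr (QuotientGroup.quotientKerEquivRange _).toEquiv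
    rw [h2, h3, h4]
  have h5 : Nat.card (normalizer (L : Set G)) ≤ Nat.card G := card_le_card_group _
  have h6 : 1 < Nat.card (centralizer (L : Set G)) := (one_lt_card_iff_ne_bot _).2 hC
  have h7 : 0 < Nat.card L.normalizerMonoidHom.range := Nat.card_pos
  nlinarith

lemma CompLike.opTrivial_range (hO : OpTrivial p G) (hL : CompLike p L) :
    OpTrivial p L.normalizerMonoidHom.range := by
  have hLo : OpTrivial p L := opTrivial_of_opIn (hL.opIn_L hO)
  intro N hN hNp
  -- `ι : L → Γ`
  let ι : L →* L.normalizerMonoidHom.range :=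
    (L.normalizerMonoidHom.rangeRestrict).comp (inclusion le_normalizer)
  have hι : ∀ (l x : L), (((ι l : L.normalizerMonoidHom.range) : MulAut L) x : G)
      = l * x * (l : G)⁻¹ := by
    intro l x
    rfl
  have hιinj : Function.Injective ι := by
    rw [injective_iff_map_eq_one]
    intro l hl
    have h1 : (l : G) ∈ centralizer (L : Set G) := by
      rw [mem_centralizer_iff]
      intro x hx
      have h2 := hι l ⟨x, hx⟩
      rw [hl] at h2
      have h3 : (x : G) = l * x * (l : G)⁻¹ := h2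
      calc x * (l : G) = (l * x * (l : G)⁻¹) * l := by rw [← h3]
        _ = l * x := by group
    have h4 : (l : G) ∈ L ⊓ centralizer (L : Set G) := ⟨l.2, h1⟩
    rw [hL.centre, mem_bot] at h4
    exact Subtype.ext h4
  have hconj : ∀ (φ : L.normalizerMonoidHom.range) (l : L),
      φ * ι l * φ⁻¹ = ι ((φ : MulAut L) l) := by
    intro φ l
    apply Subtype.ext
    apply MulEquiv.ext
    intro x
    apply Subtype.ext
    rw [hι]
    have h1 : ((φ * ι l * φ⁻¹ : L.normalizerMonoidHom.range) : MulAut L) x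
        = (φ : MulAut L) (((ι l : L.normalizerMonoidHom.range) : MulAut L)
          ((φ : MulAut L)⁻¹ x)) := rfl
    rw [h1]
    have h2 : ((ι l : L.normalizerMonoidHom.range) : MulAut L) ((φ : MulAut L)⁻¹ x)
        = l * ((φ : MulAut L)⁻¹ x) * l⁻¹ := by
      apply Subtype.ext
      rw [hι]
      simp
    rw [h2, map_mul, map_mul, map_inv]
    simp
  have hcomap : N.comap ι = ⊥ := by
    apply hLo _ (hN.comap ι)
    exact hNp.comap_of_injective ι hιinj
  rw [eq_bot_iff]
  intro φ hφ
  rw [mem_bot]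
  apply Subtype.ext
  apply MulEquiv.ext
  intro l
  have h1 : φ * ι l * φ⁻¹ * (ι l)⁻¹ ∈ N := by
    have := N.mul_mem hφ (hN.conj_mem _ (N.inv_mem hφ) (ι l))
    simpa [mul_assoc] using this
  rw [hconj, ← map_inv, ← map_mul] at h1
  have h2 : (φ : MulAut L) l * l⁻¹ ∈ N.comap ι := h1
  rw [hcomap, mem_bot, mul_inv_eq_one] at h2
  simpa using h2

/-- In a minimal counterexample to the homological form of Quillen's conjecture, every
component-like subgroup with nontrivial centralizer has at least two distinct outer subgroups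
of order `p`. -/
theorem minimal (hO : OpTrivial p G) (hG : ¬ HQ 𝕜 p G)
    (hmin : ∀ (H : Type u) [Group H] [Finite H], Nat.card H < Nat.card G →
      OpTrivial p H → HQ 𝕜 p H)
    (L : Subgroup G) (hL : CompLike p L) (hC : centralizer (L : Set G) ≠ ⊥) :
    ∃ x ∈ normalizer (L : Set G), ∃ y ∈ normalizer (L : Set G),
      x ^ p ∈ centralizer (L : Set G) ∧ y ^ p ∈ centralizer (L : Set G) ∧
      x ∉ L ⊔ centralizer (L : Set G) ∧ y ∉ L ⊔ centralizer (L : Set G) ∧
      y ∉ zpowers x ⊔ (L ⊔ centralizer (L : Set G)) := by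
  by_contra hcon
  apply hG
  apply elimination L hL
  · intro x hx y hy hxp hyp hxL hyL
    by_contra hxy
    exact hcon ⟨x, hx, y, hy, hxp, hyp, hxL, hyL, hxy⟩
  · exact hmin _ (hL.card_L_lt hC) (opTrivial_of_opIn (hL.opIn_L hO))
  · exact hmin _ hL.card_K_lt (opTrivial_of_opIn (hL.opIn_K hO))
  · exact hmin _ (card_range_lt hC) (hL.opTrivial_range hO)

end

end Vale.Agent.P240.K
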