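import Vale.Agent.P240.K.TwoCore
import Vale.Agent.P240.K.Minimal

namespace Vale.Agent.P240.K

open Finsupp Subgroup

variable {𝕜 : Type*} [Field 𝕜]

universe u

/-! ### From a third-type-free configuration to `Two` -/

section
variable {G : Type*} [Group G] {p : ℕ}

lemma cyc_of_pow [Fact p.Prime] {N W : Subgroup G} (hW : W ≤ N) [hn : (W.subgroupOf N).Normal]
    {x1 : G} (hx1 : x1 ∈ N) (hp : x1 ^ p ∈ W) :
    ∀ x ∈ zpowers x1 ⊔ W, x ∉ W → ∀ y ∈ zpowers x1 ⊔ W, y ∈ zpowers x ⊔ W := by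
  intro x hx hxW y hy
  have key : ∃ i : ℤ, ∃ w ∈ W, x = x1 ^ i * w := by
    have hxN : x ∈ N := (sup_le (by rw [Subgroup.zpowers_le]; exact hx1) hW) hx
    have h1 : (⟨x, hxN⟩ : N) ∈ (zpowers x1 ⊔ W).subgroupOf N := by
      rw [Subgroup.mem_subgroupOf]; exact hx
    rw [Subgroup.subgroupOf_sup (by rw [Subgroup.zpowers_le]; exact hx1) hW,
      Subgroup.mem_sup_of_normal_right] at h1
    obtain ⟨a, ha, b, hb, hab⟩ := h1
    rw [Subgroup.mem_subgroupOf] at ha hb
    obtain ⟨i, hi⟩ := ha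
    refine ⟨i, b, hb, ?_⟩
    have := congrArg Subtype.val hab
    simp only [Subgroup.coe_mul] at this
    rw [← this, ← hi]
  obtain ⟨i, w, hw, hxe⟩ := key
  have hpp : Prime (p : ℤ) := Nat.prime_iff_prime_int.1 (Fact.out : p.Prime)
  have hi : ¬ (p : ℤ) ∣ i := by
    rintro ⟨j, rfl⟩
    apply hxW
    rw [hxe, zpow_mul, zpow_natCast]
    exact mul_mem (zpow_mem hp j) hw
  have hco : IsCoprime i (p : ℤ) := ((Prime.coprime_iff_not_dvd hpp).2 hi).symm
  obtain ⟨a, b, hab⟩ := hco
  have h2 : x1 ^ i ∈ zpowers x ⊔ W := by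
    have : x1 ^ i = x * w⁻¹ := by rw [hxe]; group
    rw [this]
    exact mul_mem (Subgroup.mem_sup_left (mem_zpowers x)) (Subgroup.mem_sup_right (inv_mem hw))
  have h3 : x1 ∈ zpowers x ⊔ W := by
    have : x1 = (x1 ^ i) ^ a * (x1 ^ p) ^ b := by
      rw [← zpow_mul, ← zpow_natCast x1 p, ← zpow_mul, ← zpow_add, mul_comm i a, mul_comm (p : ℤ) b,
        hab, zpow_one]
    rw [this]
    exact mul_mem (zpow_mem h2 a) (Subgroup.mem_sup_right (zpow_mem hp b))
  have hle : zpowers x1 ⊔ W ≤ zpowers x ⊔ W :=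
    sup_le (by rw [Subgroup.zpowers_le]; exact h3) le_sup_right
  exact hle hy

lemma two_of [Fact p.Prime] {L N K : Subgroup G} (hLN : L ≤ N) (hKN : K ≤ N)
    [hLn : (L.subgroupOf N).Normal] [hKn : (K.subgroupOf N).Normal] {x1 x2 : G}
    (hx1 : x1 ∈ N) (hx2 : x2 ∈ N) (hp1 : x1 ^ p ∈ K) (hp2 : x2 ^ p ∈ K)
    (h21 : x2 ∉ zpowers x1 ⊔ (L ⊔ K))
    (hcov : ∀ x ∈ N, x ^ p ∈ K → x ∉ L ⊔ K → x ∈ zpowers x1 ⊔ (L ⊔ K) ∨
      x ∈ zpowers x2 ⊔ (L ⊔ K)) :
    Two p L N K (zpowers x1 ⊔ (L ⊔ K)) (zpowers x2 ⊔ (L ⊔ K)) := by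
  have hn : ((L ⊔ K).subgroupOf N).Normal := by
    rw [Subgroup.subgroupOf_sup hLN hKN]
    exact Subgroup.sup_normal _ _
  have hW : L ⊔ K ≤ N := sup_le hLN hKN
  have c1 := cyc_of_pow hW hx1 (Subgroup.mem_sup_right (S := L) hp1)
  have c2 := cyc_of_pow hW hx2 (Subgroup.mem_sup_right (S := L) hp2)
  refine ⟨sup_le (by rw [Subgroup.zpowers_le]; exact hx1) hW,
    sup_le (by rw [Subgroup.zpowers_le]; exact hx2) hW, le_sup_right, le_sup_right, ?_, c1, c2, ?_⟩
  · intro x h1 h2
    by_contra hx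
    apply h21
    have h3 : x2 ∈ zpowers x ⊔ (L ⊔ K) := c2 x h2 hx x2 (Subgroup.mem_sup_left (mem_zpowers x2))
    have hle : zpowers x ⊔ (L ⊔ K) ≤ zpowers x1 ⊔ (L ⊔ K) :=
      sup_le (by rw [Subgroup.zpowers_le]; exact h1) le_sup_right
    exact hle h3
  · intro x hx hxp
    by_cases hxLK : x ∈ L ⊔ K
    · exact Or.inl (Subgroup.mem_sup_right hxLK)
    · exact hcov x hx hxp hxLK

end

/-! ### Groups of automorphisms -/

lemma opTrivial_of_aut {A L : Type*} [Group A] [Group L] {p : ℕ} (hL : OpTrivial p L)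
    (j : A →* MulAut L) (hj : Function.Injective j) (i : L →* A)
    (hi : Function.Injective i) (hij : ∀ l x : L, j (i l) x = l * x * l⁻¹) : OpTrivial p A := by
  intro N hN hNp
  have hconj : ∀ (φ : A) (l : L), φ * i l * φ⁻¹ = i (j φ l) := by
    intro φ l
    apply hj
    apply MulEquiv.ext
    intro x
    rw [map_mul, map_mul, map_inv, hij]
    change j φ (j (i l) ((j φ)⁻¹ x)) = _
    rw [hij, map_mul, map_mul, map_inv]
    have : j φ ((j φ)⁻¹ x) = x := by
      change ((j φ) * (j φ)⁻¹) x = x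
      rw [mul_inv_cancel]; rfl
    rw [this]
  have hcomap : N.comap i = ⊥ := hL _ (hN.comap i) (hNp.comap_of_injective i hi)
  rw [eq_bot_iff]
  intro φ hφ
  rw [Subgroup.mem_bot]
  apply hj
  rw [map_one]
  apply MulEquiv.ext
  intro l
  have h1 : φ * i l * φ⁻¹ * (i l)⁻¹ ∈ N := by
    have := N.mul_mem hφ (hN.conj_mem _ (N.inv_mem hφ) (i l))
    simpa [mul_assoc] using this
  rw [hconj, ← map_inv, ← map_mul] at h1
  have h2 : j φ l * l⁻¹ ∈ N.comap i := h1
  rw [hcomap, Subgroup.mem_bot, mul_inv_eq_one] at h2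
  simpa using h2

/-! ### Connectedness -/

lemma conn_h0 {G : Type*} [Group G] [Finite G] {p : ℕ} [Fact p.Prime] {L : Subgroup G}
    (hc : ∀ A B : Ap p L, Relation.ReflTransGen (fun X Y => X ≤ Y ∨ Y ≤ X) A B) :
    ∀ z ∈ Sp 𝕜 (fun l : List (Subgroup G) => l.length = 1 ∧ st (Ain p L) l), bd z = 0 →
        z ∈ Bst 𝕜 (Ain p L) := by
  classical
  intro z hz hbz
  by_cases hne : ∃ F : Subgroup G, F ∈ Ain p L
  · obtain ⟨F, hF⟩ := hne
    have hsub : ∀ A : Ap p L, A.1.map L.subtype ∈ Ain p L := by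
      rintro ⟨A, h1, h2, h3⟩
      refine ⟨⟨?_, ?_, ?_⟩, Subgroup.map_subtype_le A⟩
      · intro h
        exact h1 ((Subgroup.map_eq_bot_iff_of_injective _ L.subtype_injective).1 h)
      · rintro _ ⟨x, hx, rfl⟩ _ ⟨y, hy, rfl⟩
        rw [← map_mul, ← map_mul, h2 x hx y hy]
      · rintro _ ⟨x, hx, rfl⟩
        rw [← map_pow, h3 x hx, map_one]
    have hlift : ∀ E ∈ Ain p L, ∃ A : Ap p L, A.1.map L.subtype = E := by
      rintro E ⟨⟨h1, h2, h3⟩, h4⟩
      refine ⟨⟨E.subgroupOf L, ?_, ?_, ?_⟩, Subgroup.map_subgroupOf_eq_of_le h4⟩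
      · intro h
        apply h1
        rw [Subgroup.subgroupOf_eq_bot] at h
        exact disjoint_self.1 (h.mono_right h4)
      · intro x hx y hy
        rw [Subgroup.mem_subgroupOf] at hx hy
        exact Subtype.ext (h2 _ hx _ hy)
      · intro x hx
        rw [Subgroup.mem_subgroupOf] at hx
        exact Subtype.ext (h3 _ hx)
    have hadj : ∀ A B : Ap p L, A ≤ B →
        single [B.1.map L.subtype] (1 : 𝕜) - single [A.1.map L.subtype] 1 ∈ Bst 𝕜 (Ain p L) := by
      intro A B hAB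
      have hle : A.1.map L.subtype ≤ B.1.map L.subtype := Subgroup.map_mono hAB
      rcases eq_or_lt_of_le hle with h | h
      · rw [h, sub_self]
        exact Submodule.zero_mem _
      · refine ⟨- single [B.1.map L.subtype, A.1.map L.subtype] 1, ?_, ?_⟩
        · refine Submodule.neg_mem _ (single_mem_Sp ⟨by simpa using h, ?_⟩ _)
          intro a ha
          simp only [List.mem_cons, List.not_mem_nil, or_false] at ha
          rcases ha with h' | h'
          · rw [h']; exact hsub B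
          · rw [h']; exact hsub A
        · rw [map_neg, bd_single_cons, bd_single_cons, bd_single_nil]
          simp
    have hall : ∀ A B : Ap p L, Relation.ReflTransGen (fun X Y => X ≤ Y ∨ Y ≤ X) A B →
        single [B.1.map L.subtype] (1 : 𝕜) - single [A.1.map L.subtype] 1 ∈ Bst 𝕜 (Ain p L) := by
      intro A B hAB
      induction hAB with
      | refl => rw [sub_self]; exact Submodule.zero_mem _
      | @tail B C _ hBC ih =>
        have h1 : single [C.1.map L.subtype] (1 : 𝕜) - single [B.1.map L.subtype] 1 ∈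
            Bst 𝕜 (Ain p L) := by
          rcases hBC with h | h
          · exact hadj B C h
          · rw [← neg_sub]
            exact Submodule.neg_mem _ (hadj C B h)
        have h2 := Submodule.add_mem _ h1 ih
        simpa using h2
    obtain ⟨F0, hF0⟩ := hlift F hF
    -- augmentation
    let ep : Ch 𝕜 (Subgroup G) →ₗ[𝕜] 𝕜 := Finsupp.linearCombination 𝕜 (fun _ => (1 : 𝕜))
    have hep : ep z = 0 := by
      have h1 : (bd z : Ch 𝕜 (Subgroup G)) = ep z • single [] (1 : 𝕜) := by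
        have := eq_of_Sp (F := bd) (G := ep.smulRight (single ([] : List (Subgroup G)) (1 : 𝕜)))
          (fun l (hl : l.length = 1 ∧ st (Ain p L) l) => by
            obtain ⟨E, rfl⟩ := List.length_eq_one_iff.1 hl.1
            simp [bd_single_cons, ep, Finsupp.linearCombination_single]) hz
        simpa using this
      rw [hbz] at h1
      have h2 := congrArg (fun c : Ch 𝕜 (Subgroup G) => c []) h1.symm
      simpa using h2
    have h3 : ((LinearMap.id : Ch 𝕜 (Subgroup G) →ₗ[𝕜] Ch 𝕜 (Subgroup G)) -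
        ep.smulRight (single [F] (1 : 𝕜))) z ∈ Bst 𝕜 (Ain p L) := by
      refine map_mem _ ?_ hz
      intro l hl
      obtain ⟨E, rfl⟩ := List.length_eq_one_iff.1 hl.1
      obtain ⟨E0, hE0⟩ := hlift E (hl.2.2 E (by simp))
      have h4 := hall F0 E0 (hc F0 E0)
      rw [hF0, hE0] at h4
      have h5 : ep (single [E] (1 : 𝕜)) = 1 := by simp [ep, Finsupp.linearCombination_single]
      rw [LinearMap.sub_apply, LinearMap.id_apply, LinearMap.smulRight_apply, h5, one_smul]
      exact h4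
    rw [LinearMap.sub_apply, LinearMap.id_apply, LinearMap.smulRight_apply, hep, zero_smul,
      sub_zero] at h3
    exact h3
  · have : z = 0 := by
      have := eq_of_Sp (F := (LinearMap.id : Ch 𝕜 (Subgroup G) →ₗ[𝕜] Ch 𝕜 (Subgroup G))) (G := 0)
        (fun l (hl : l.length = 1 ∧ st (Ain p L) l) => by
          obtain ⟨E, rfl⟩ := List.length_eq_one_iff.1 hl.1
          exact absurd ⟨E, hl.2.2 E (by simp)⟩ hne) hz
      simpa using this
    rw [this]
    exact Submodule.zero_mem _

/-! ### The elimination theorem with at most two types -/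

/-- Elimination theorem, at most two types of outer subgroups of order `p`. -/
theorem elimination_two {p : ℕ} [Fact p.Prime] {G : Type u} [Group G] [Finite G]
    (L : Subgroup G) (hL : CompLike p L)
    (hconn : (∀ x ∈ normalizer (L : Set G), ∀ y ∈ normalizer (L : Set G),
      x ^ p ∈ centralizer (L : Set G) → y ^ p ∈ centralizer (L : Set G) →
      x ∉ L ⊔ centralizer (L : Set G) → y ∉ L ⊔ centralizer (L : Set G) →
      y ∈ zpowers x ⊔ (L ⊔ centralizer (L : Set G))) ∨
      (∀ g : G, g ^ p = 1 → g ∈ normalizer (L : Set G)) ∨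
      ∀ A B : Ap p L, Relation.ReflTransGen (fun X Y => X ≤ Y ∨ Y ≤ X) A B)
    (hout : ∀ x ∈ normalizer (L : Set G), ∀ y ∈ normalizer (L : Set G),
      ∀ z ∈ normalizer (L : Set G), x ^ p ∈ centralizer (L : Set G) →
      y ^ p ∈ centralizer (L : Set G) → z ^ p ∈ centralizer (L : Set G) →
      x ∉ L ⊔ centralizer (L : Set G) → y ∉ L ⊔ centralizer (L : Set G) →
      z ∉ L ⊔ centralizer (L : Set G) →
      y ∈ zpowers x ⊔ (L ⊔ centralizer (L : Set G)) ∨
      z ∈ zpowers x ⊔ (L ⊔ centralizer (L : Set G)) ∨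
      z ∈ zpowers y ⊔ (L ⊔ centralizer (L : Set G)))
    (h1 : HQ 𝕜 p L) (h2 : HQ 𝕜 p (centralizer (L : Set G)))
    (h3 : ∀ A : Subgroup L.normalizerMonoidHom.range,
      (∀ l : normalizer (L : Set G), (l : G) ∈ L → L.normalizerMonoidHom.rangeRestrict l ∈ A) →
      HQ 𝕜 p A) : HQ 𝕜 p G := by
  classical
  set N : Subgroup G := normalizer (L : Set G) with hN
  set K : Subgroup G := centralizer (L : Set G) with hK
  have hLN : L ≤ N := Subgroup.le_normalizer
  have hLn : (L.subgroupOf N).Normal := Subgroup.normal_in_normalizer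
  have hker : ∀ n : N, L.normalizerMonoidHom.rangeRestrict n = 1 ↔ (n : G) ∈ K := by
    intro n
    rw [← MonoidHom.mem_ker, MonoidHom.ker_rangeRestrict, normalizerMonoidHom_ker,
      Subgroup.mem_subgroupOf]
  have hctx : Ctx p L N K L.normalizerMonoidHom.rangeRestrict
      (QuotientGroup.mk' (L.subgroupOf N)) :=
    { comp := hL
      hN := rfl
      hK := rfl
      hπK := hker
      hsurj := L.normalizerMonoidHom.rangeRestrict_surjective
      hπL := fun n => by
        rw [← Subgroup.mem_subgroupOf]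
        exact QuotientGroup.eq_one_iff n }
  have hKN : K ≤ N := hctx.KN
  have hKn := hctx.Kn
  by_cases hone : ∀ x ∈ N, ∀ y ∈ N, x ^ p ∈ K → y ^ p ∈ K → x ∉ L ⊔ K → y ∉ L ⊔ K →
      y ∈ zpowers x ⊔ (L ⊔ K)
  · refine elimination L hL hone h1 h2 ?_
    have := h3 ⊤ (fun _ _ => Subgroup.mem_top _)
    rw [HQ_sub_iff] at this
    rw [HQ_iff]
    have h4 : Ain p (⊤ : Subgroup L.normalizerMonoidHom.range) =
        ApS p L.normalizerMonoidHom.range := by
      ext E
      exact ⟨fun h => h.1, fun h => ⟨h, le_top⟩⟩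
    rwa [h4] at this
  · push Not at hone
    obtain ⟨x1, hx1, x2, hx2, hp1, hp2, hx1L, hx2L, h21⟩ := hone
    have t : Two p L N K (zpowers x1 ⊔ (L ⊔ K)) (zpowers x2 ⊔ (L ⊔ K)) := by
      refine two_of hLN hKN hx1 hx2 hp1 hp2 h21 ?_
      intro x hx hxp hxLK
      rcases hout x1 hx1 x2 hx2 x hx hp1 hp2 hxp hx1L hx2L hxLK with h | h | h
      · exact absurd h h21
      · exact Or.inl h
      · exact Or.inr h
    have hQ : NA 𝕜 (ApS p L.normalizerMonoidHom.range) := by
      have := h3 ⊤ (fun _ _ => Subgroup.mem_top _)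
      rw [HQ_sub_iff] at this
      have h4 : Ain p (⊤ : Subgroup L.normalizerMonoidHom.range) =
          ApS p L.normalizerMonoidHom.range := by
        ext E
        exact ⟨fun h => h.1, fun h => ⟨h, le_top⟩⟩
      rwa [h4] at this
    rw [HQ_iff]
    refine two_core hctx t ((HQ_sub_iff L).1 h1) ((HQ_sub_iff _).1 h2) hQ ?_ ?_ ?_
    · rw [← HQ_sub_iff]
      refine h3 _ fun l hl => ?_
      exact (mem_Gam hctx (le_sup_right.trans t.LK1)).2 (t.LK1 (Subgroup.mem_sup_left hl))
    · rw [← HQ_sub_iff]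
      refine h3 _ fun l hl => ?_
      exact (mem_Gam hctx (le_sup_right.trans t.LK2)).2 (t.LK2 (Subgroup.mem_sup_left hl))
    · rcases hconn with h | h | h
      · exact absurd (h x1 hx1 x2 hx2 hp1 hp2 hx1L hx2L) h21
      · exact Or.inl h
      · exact Or.inr (conn_h0 h)

/-- In a minimal counterexample to the homological form of Quillen's conjecture, a component-like
subgroup whose poset is connected, or which is normalized by all elements of order `p`, has at
least three distinct outer subgroups of order `p`. -/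
theorem minimal_three {p : ℕ} [Fact p.Prime] {G : Type u} [Group G] [Finite G]
    (hO : OpTrivial p G) (hG : ¬ HQ 𝕜 p G)
    (hmin : ∀ (H : Type u) [Group H] [Finite H], Nat.card H < Nat.card G →
      OpTrivial p H → HQ 𝕜 p H)
    (L : Subgroup G) (hL : CompLike p L) (hC : centralizer (L : Set G) ≠ ⊥)
    (hconn : (∀ g : G, g ^ p = 1 → g ∈ normalizer (L : Set G)) ∨
      ∀ A B : Ap p L, Relation.ReflTransGen (fun X Y => X ≤ Y ∨ Y ≤ X) A B) :
    ∃ x ∈ normalizer (L : Set G), ∃ y ∈ normalizer (L : Set G), ∃ z ∈ normalizer (L : Set G),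
      x ^ p ∈ centralizer (L : Set G) ∧ y ^ p ∈ centralizer (L : Set G) ∧
      z ^ p ∈ centralizer (L : Set G) ∧
      x ∉ L ⊔ centralizer (L : Set G) ∧ y ∉ L ⊔ centralizer (L : Set G) ∧
      z ∉ L ⊔ centralizer (L : Set G) ∧
      y ∉ zpowers x ⊔ (L ⊔ centralizer (L : Set G)) ∧
      z ∉ zpowers x ⊔ (L ⊔ centralizer (L : Set G)) ∧
      z ∉ zpowers y ⊔ (L ⊔ centralizer (L : Set G)) := by
  by_contra hcon
  apply hG
  have hLo : OpTrivial p L := opTrivial_of_opIn (hL.opIn_L hO)
  apply elimination_two L hL (Or.inr hconn)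
  · intro x hx y hy z hz hxp hyp hzp hxL hyL hzL
    by_contra h
    push Not at h
    exact hcon ⟨x, hx, y, hy, z, hz, hxp, hyp, hzp, hxL, hyL, hzL, h.1, h.2.1, h.2.2⟩
  · exact hmin _ (hL.card_L_lt hC) hLo
  · exact hmin _ hL.card_K_lt (opTrivial_of_opIn (hL.opIn_K hO))
  · intro A hA
    refine hmin _ (lt_of_le_of_lt (card_le_card_group A) (card_range_lt hC)) ?_
    let i : L →* A :=
      { toFun := fun l => ⟨L.normalizerMonoidHom.rangeRestrict (inclusion le_normalizer l),
          hA _ l.2⟩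
        map_one' := by
          apply Subtype.ext
          simp
        map_mul' := fun a b => by
          apply Subtype.ext
          simp }
    refine opTrivial_of_aut hLo ((L.normalizerMonoidHom.range.subtype).comp A.subtype) ?_ i ?_ ?_
    · exact (Subgroup.subtype_injective _).comp (Subgroup.subtype_injective _)
    · rw [injective_iff_map_eq_one]
      intro l hl
      have h1 : (l : G) ∈ centralizer (L : Set G) := by
        rw [mem_centralizer_iff]
        intro x hx
        have h2 : (((i l : L.normalizerMonoidHom.range) : MulAut L) ⟨x, hx⟩ : G)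
            = l * x * (l : G)⁻¹ := rfl
        rw [hl] at h2
        have h3 : (x : G) = l * x * (l : G)⁻¹ := h2
        calc x * (l : G) = (l * x * (l : G)⁻¹) * l := by rw [← h3]
          _ = l * x := by group
      have h4 : (l : G) ∈ L ⊓ centralizer (L : Set G) := ⟨l.2, h1⟩
      rw [hL.centre, mem_bot] at h4
      exact Subtype.ext h4
    · intro l x
      rfl

end Vale.Agent.P240.K
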