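import Vale.Agent.P240.K.Lefschetz

namespace Vale.Agent.P240.K

open Finsupp Subgroup

section
variable {α : Type*} [PartialOrder α] {S : Set α}

/-- minus the reduced Euler characteristic -/
noncomputable def eu (S : Set α) : ℤ :=
  ∑ n ∈ Finset.range (Nat.card S + 1), (-1 : ℤ) ^ n * (Nat.card (stn S n) : ℤ)

lemma stn_empty (hS : S.Finite) {n : ℕ} (hn : Nat.card S < n) : stn S n = ∅ := by
  rw [Set.eq_empty_iff_forall_notMem]
  rintro l ⟨h1, h2⟩
  have h3 := st_length_le hS h2
  rw [← Nat.card_eq_card_finite_toFinset hS] at h3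
  omega

lemma eu_eq (hS : S.Finite) {N : ℕ} (hN : Nat.card S ≤ N) :
    ∑ n ∈ Finset.range (N + 1), (-1 : ℤ) ^ n * (Nat.card (stn S n) : ℤ) = eu S := by
  symm
  refine Finset.sum_subset ?_ ?_
  · intro n hn
    rw [Finset.mem_range] at hn ⊢
    omega
  · intro n _ hn
    rw [Finset.mem_range, not_lt] at hn
    rw [stn_empty hS (by omega)]
    simp

lemma card_stn_succ (hS : S.Finite) (n : ℕ) :
    (Nat.card (stn S (n + 1)) : ℤ) =
      ∑ x ∈ hS.toFinset, (Nat.card (stn {y | y ∈ S ∧ y < x} n) : ℤ) := by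
  classical
  have : Fintype S := hS.fintype
  have hf : ∀ x : S, Finite (stn {y | y ∈ S ∧ y < x.1} n) := fun x =>
    stn_finite (hS.subset fun y hy => hy.1) n
  let e : stn S (n + 1) ≃ Σ x : S, stn {y | y ∈ S ∧ y < x.1} n :=
    { toFun := fun l => match l with
        | ⟨[], h⟩ => absurd h.1 (by simp)
        | ⟨x :: l, h⟩ => ⟨⟨x, h.2.2 x (by simp)⟩, l, by simpa using h.1,
            (List.pairwise_cons.1 h.2.1).2,
            fun a ha => ⟨h.2.2 a (by simp [ha]), (List.pairwise_cons.1 h.2.1).1 a ha⟩⟩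
      invFun := fun z => ⟨z.1.1 :: z.2.1, by
        obtain ⟨⟨x, hx⟩, l, h1, h2, h3⟩ := z
        refine ⟨by simpa using h1, List.pairwise_cons.2 ⟨fun a ha => (h3 a ha).2, h2⟩, ?_⟩
        intro a ha
        rcases List.mem_cons.1 ha with rfl | ha
        · exact hx
        · exact (h3 a ha).1⟩
      left_inv := by
        rintro ⟨l, h⟩
        rcases l with _ | ⟨x, l⟩
        · exact absurd h.1 (by simp)
        · rfl
      right_inv := by
        rintro ⟨⟨x, hx⟩, l, h1, h2, h3⟩
        rfl }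
  rw [Nat.card_congr e, Nat.card_sigma]
  push_cast
  exact Finset.sum_bij (fun (x : S) _ => x.1) (fun x _ => by simp)
    (fun x _ y _ h => Subtype.ext h) (fun y hy => ⟨⟨y, by simpa using hy⟩, by simp, rfl⟩)
    (fun x _ => rfl)

lemma eu_rec (hS : S.Finite) : eu S = 1 - ∑ x ∈ hS.toFinset, eu {y | y ∈ S ∧ y < x} := by
  have h1 : ∀ x ∈ hS.toFinset, Nat.card {y | y ∈ S ∧ y < x} ≤ Nat.card S := fun x _ =>
    Nat.card_mono hS fun y hy => hy.1
  rw [← eu_eq hS (Nat.le_succ _), Finset.sum_range_succ', card_zero]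
  have h2 : ∀ k ∈ Finset.range (Nat.card S + 1),
      (-1 : ℤ) ^ (k + 1) * (Nat.card (stn S (k + 1)) : ℤ) =
        - ∑ x ∈ hS.toFinset, (-1 : ℤ) ^ k * (Nat.card (stn {y | y ∈ S ∧ y < x} k) : ℤ) := by
    intro k _
    rw [card_stn_succ hS, pow_succ, ← Finset.mul_sum]
    ring
  rw [Finset.sum_congr rfl h2, Finset.sum_neg_distrib, Finset.sum_comm]
  rw [Finset.sum_congr rfl fun x hx => eu_eq (hS.subset fun y hy => hy.1) (h1 x hx)]
  push_cast
  ring

/-- a set with a largest element -/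
lemma eu_top (hS : S.Finite) {m : α} (hm : m ∈ S) (hmax : ∀ x ∈ S, x ≤ m) : eu S = 0 := by
  classical
  have hS' : {y | y ∈ S ∧ y < m}.Finite := hS.subset fun y hy => hy.1
  have h1 : hS.toFinset = insert m hS'.toFinset := by
    ext x
    rw [Finset.mem_insert, Set.Finite.mem_toFinset, Set.Finite.mem_toFinset]
    constructor
    · intro hx
      rcases (hmax x hx).eq_or_lt with h | h
      · exact Or.inl h
      · exact Or.inr ⟨hx, h⟩
    · rintro (rfl | h)
      · exact hm
      · exact h.1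
  rw [eu_rec hS, h1, Finset.sum_insert (by simp), eu_rec hS']
  have h2 : ∀ x ∈ hS'.toFinset,
      eu {y | y ∈ {y | y ∈ S ∧ y < m} ∧ y < x} = eu {y | y ∈ S ∧ y < x} := by
    intro x hx
    rw [Set.Finite.mem_toFinset] at hx
    congr 1
    ext y
    exact ⟨fun h => ⟨h.1.1, h.2⟩, fun h => ⟨⟨h.1, h.2.trans hx.2⟩, h.2⟩⟩
  rw [Finset.sum_congr rfl h2]
  ring

/-- a coreflective subset has the same Euler characteristic -/
lemma eu_coreflect (ρ : α → α) : ∀ (n : ℕ) (S F : Set α), S.Finite → Nat.card S = n → F ⊆ S →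
    (∀ x ∈ S, ρ x ∈ F) → (∀ x ∈ S, ρ x ≤ x) → (∀ x ∈ S, ∀ y ∈ F, y ≤ x → y ≤ ρ x) →
    eu S = eu F := by
  classical
  intro n
  induction n using Nat.strong_induction_on with
  | _ n ih =>
    intro S F hS hn hFS hρ hle hun
    have hF : F.Finite := hS.subset hFS
    have hlt : ∀ x ∈ S, Nat.card {y | y ∈ S ∧ y < x} < n := by
      intro x hx
      rw [← hn]
      refine Set.Finite.card_lt_card hS ⟨fun y hy => hy.1, fun h => ?_⟩
      exact lt_irrefl x (h hx).2
    have h1 : ∀ x ∈ S, eu {y | y ∈ S ∧ y < x} = eu {y | y ∈ F ∧ y < x} := by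
      intro x hx
      refine ih _ (hlt x hx) _ _ (hS.subset fun y hy => hy.1) rfl
        (fun y hy => ⟨hFS hy.1, hy.2⟩) (fun y hy => ⟨hρ y hy.1, (hle y hy.1).trans_lt hy.2⟩)
        (fun y hy => hle y hy.1) (fun y hy z hz => hun y hy.1 z hz.1)
    rw [eu_rec hS, eu_rec hF]
    congr 1
    rw [Finset.sum_congr rfl fun x hx => h1 x (by simpa using hx)]
    symm
    refine Finset.sum_subset (fun x hx => by simpa using hFS (by simpa using hx)) ?_
    intro x hx hxF
    rw [Set.Finite.mem_toFinset] at hx hxF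
    have hρx : ρ x < x := by
      refine (hle x hx).lt_of_ne fun h => hxF ?_
      rw [← h]
      exact hρ x hx
    refine eu_top (hF.subset fun y hy => hy.1) (m := ρ x) ⟨hρ x hx, hρx⟩ ?_
    rintro y ⟨hy, hyx⟩
    exact hun x hx y hy hyx.le

lemma eu_image {β : Type*} [PartialOrder β] (e : α ≃o β) (S : Set α) : eu (e '' S) = eu S := by
  have h1 : Nat.card (e '' S) = Nat.card S := Nat.card_image_of_injective e.injective S
  have h2 : ∀ n, Nat.card (stn (e '' S) n) = Nat.card (stn S n) := by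
    intro n
    have : stn (e '' S) n = (List.map e) '' stn S n := by
      ext l
      constructor
      · rintro ⟨hl1, hl2, hl3⟩
        refine ⟨l.map e.symm, ⟨by simpa using hl1, ?_, ?_⟩, ?_⟩
        · rw [List.pairwise_map]
          exact hl2.imp fun h => e.symm.lt_iff_lt.2 h
        · intro a ha
          obtain ⟨b, hb, rfl⟩ := List.mem_map.1 ha
          obtain ⟨c, hc, rfl⟩ := hl3 b hb
          simpa using hc
        · rw [List.map_map]
          conv_rhs => rw [← List.map_id l]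
          exact List.map_congr_left fun a _ => by simp
      · rintro ⟨l, ⟨hl1, hl2, hl3⟩, rfl⟩
        refine ⟨by simpa using hl1, ?_, ?_⟩
        · rw [List.pairwise_map]
          exact hl2.imp fun h => e.lt_iff_lt.2 h
        · intro a ha
          obtain ⟨b, hb, rfl⟩ := List.mem_map.1 ha
          exact ⟨b, hl3 b hb, rfl⟩
    rw [this]
    exact Nat.card_image_of_injective (List.map_injective_iff.2 e.injective) _
  rw [eu, eu, h1]
  exact Finset.sum_congr rfl fun n _ => by rw [h2]

end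

end Vale.Agent.P240.K
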