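import Vale.Agent.P240.MathlibUsed

namespace Vale.Agent.P240.K

open Finsupp

section Perm

variable {𝕜 : Type*} [Field 𝕜] {ι : Type*}

/-- linear extension of a map -/
noncomputable def TT (F : ι → ι) : (ι →₀ 𝕜) →ₗ[𝕜] (ι →₀ 𝕜) := Finsupp.lmapDomain 𝕜 𝕜 F

/-- `1 - F` -/
noncomputable def sg1 (F : ι → ι) : (ι →₀ 𝕜) →ₗ[𝕜] (ι →₀ 𝕜) := LinearMap.id - TT F

/-- `1 + F + ⋯ + F^(r-1)` -/
noncomputable def tau (F : ι → ι) (r : ℕ) : (ι →₀ 𝕜) →ₗ[𝕜] (ι →₀ 𝕜) :=
  ∑ i ∈ Finset.range r, TT (F^[i])

lemma TT_single (F : ι → ι) (l : ι) (a : 𝕜) : TT F (single l a) = single (F l) a := by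
  simp [TT, Finsupp.lmapDomain_apply, Finsupp.mapDomain_single]

lemma TT_comp (F G : ι → ι) (c : ι →₀ 𝕜) : TT F (TT G c) = TT (F ∘ G) c := by
  simp [TT, Finsupp.lmapDomain_apply, Finsupp.mapDomain_comp]

variable {r : ℕ} {F : ι → ι} {P : Set ι} (hF : ∀ l ∈ P, F l ∈ P) (hr : ∀ l ∈ P, F^[r] l = l)

include hF in
lemma iter_mem (i : ℕ) : ∀ l ∈ P, F^[i] l ∈ P := by
  induction i with
  | zero => exact fun l hl => hl
  | succ i ih =>
    intro l hl
    rw [Function.iterate_succ_apply']
    exact hF _ (ih l hl)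

include hF hr in
lemma F_injOn (hr0 : 0 < r) : Set.InjOn F P := by
  intro l hl m hm h
  rw [← hr l hl, ← hr m hm]
  obtain ⟨s, rfl⟩ := Nat.exists_eq_succ_of_ne_zero hr0.ne'
  rw [Function.iterate_succ_apply, Function.iterate_succ_apply, h]

include hF hr in
lemma iter_injOn (hr0 : 0 < r) (i : ℕ) : Set.InjOn (F^[i]) P := by
  induction i with
  | zero => exact fun l _ m _ h => h
  | succ i ih =>
    intro l hl m hm h
    rw [Function.iterate_succ_apply', Function.iterate_succ_apply'] at h
    exact ih hl hm (F_injOn hF hr hr0 (iter_mem hF i l hl) (iter_mem hF i m hm) h)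

include hF hr in
lemma TT_apply (hr0 : 0 < r) (i : ℕ) {c : ι →₀ 𝕜} (hc : c ∈ Finsupp.supported 𝕜 𝕜 P) {l : ι}
    (hl : l ∈ P) : TT (F^[i]) c (F^[i] l) = c l := by
  rw [TT, Finsupp.lmapDomain_apply]
  exact Finsupp.mapDomain_apply' P c hc (iter_injOn hF hr hr0 i) hl

include hF in
lemma TT_mem (i : ℕ) {c : ι →₀ 𝕜} (hc : c ∈ Finsupp.supported 𝕜 𝕜 P) :
    TT (F^[i]) c ∈ Finsupp.supported 𝕜 𝕜 P := by
  have : Finsupp.supported 𝕜 𝕜 P ≤ (Finsupp.supported 𝕜 𝕜 P).comap (TT (F^[i])) := by
    rw [Finsupp.supported_eq_span_single, Submodule.span_le]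
    rintro _ ⟨l, hl, rfl⟩
    have h1 : TT (F^[i]) (single l (1 : 𝕜)) ∈ Finsupp.supported 𝕜 𝕜 P := by
      rw [TT_single]
      exact Finsupp.single_mem_supported 𝕜 _ (iter_mem hF i l hl)
    rw [Finsupp.supported_eq_span_single] at h1
    exact h1
  exact this hc

include hF in
lemma sg1_mem {c : ι →₀ 𝕜} (hc : c ∈ Finsupp.supported 𝕜 𝕜 P) :
    sg1 F c ∈ Finsupp.supported 𝕜 𝕜 P := by
  rw [sg1, LinearMap.sub_apply]
  exact Submodule.sub_mem _ hc (by simpa using TT_mem hF 1 hc)

include hF in
lemma tau_mem {c : ι →₀ 𝕜} (hc : c ∈ Finsupp.supported 𝕜 𝕜 P) :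
    tau F r c ∈ Finsupp.supported 𝕜 𝕜 P := by
  rw [tau, LinearMap.sum_apply]
  exact Submodule.sum_mem _ fun i _ => TT_mem hF i hc

include hr in
lemma TT_r {c : ι →₀ 𝕜} (hc : c ∈ Finsupp.supported 𝕜 𝕜 P) : TT (F^[r]) c = c := by
  have : Finsupp.supported 𝕜 𝕜 P ≤ LinearMap.ker (TT (𝕜 := 𝕜) (F^[r]) - LinearMap.id) := by
    rw [Finsupp.supported_eq_span_single, Submodule.span_le]
    rintro _ ⟨l, hl, rfl⟩
    simp [TT_single, hr l hl]
  have h := this hc
  rwa [LinearMap.mem_ker, LinearMap.sub_apply, LinearMap.id_apply, sub_eq_zero] at h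

lemma TT_tau (c : ι →₀ 𝕜) : TT F (tau F r c) + c = tau F r c + TT (F^[r]) c := by
  induction r with
  | zero => simp [tau, TT, Finsupp.lmapDomain_apply]
  | succ r ih =>
    have h1 : tau F (r + 1) c = tau F r c + TT (F^[r]) c := by
      rw [tau, Finset.sum_range_succ]; rfl
    have h2 : TT F (TT (F^[r]) c) = TT (F^[r + 1]) c := by
      rw [TT_comp]
      congr 2
      funext x
      rw [Function.comp_apply, Function.iterate_succ_apply']
    rw [h1, map_add, h2]
    calc TT F (tau F r c) + TT F^[r + 1] c + c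
        = (TT F (tau F r c) + c) + TT F^[r + 1] c := by abel
      _ = _ := by rw [ih]

lemma TT_comm_tau (c : ι →₀ 𝕜) : tau F r (TT F c) = TT F (tau F r c) := by
  simp only [tau, LinearMap.sum_apply, map_sum]
  refine Finset.sum_congr rfl fun i _ => ?_
  rw [TT_comp, TT_comp]
  congr 2
  funext x
  rw [Function.comp_apply, Function.comp_apply, ← Function.iterate_succ_apply,
    Function.iterate_succ_apply']

include hF hr in
lemma sg1_tau {c : ι →₀ 𝕜} (hc : c ∈ Finsupp.supported 𝕜 𝕜 P) : sg1 F (tau F r c) = 0 := by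
  have h := TT_tau (r := r) (F := F) c
  rw [TT_r hr hc] at h
  rw [sg1, LinearMap.sub_apply, LinearMap.id_apply, add_right_cancel h, sub_self]

include hF hr in
lemma tau_sg1 {c : ι →₀ 𝕜} (hc : c ∈ Finsupp.supported 𝕜 𝕜 P) : tau F r (sg1 F c) = 0 := by
  rw [sg1, LinearMap.sub_apply, map_sub, TT_comm_tau, LinearMap.id_apply]
  have h := sg1_tau hF hr hc
  rwa [sg1, LinearMap.sub_apply, LinearMap.id_apply] at h

/-- the orbit part of a chain -/
lemma orbit_part [hp : Fact r.Prime] (c : ι →₀ 𝕜) (l : ι)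
    (hper : F^[r] l = l) (hnf : F l ≠ l) :
    ∃ c' : ι →₀ 𝕜, c = c' + ∑ i ∈ Finset.range r, single (F^[i] l) (c (F^[i] l)) ∧
      c'.support ⊆ c.support ∧ c' l = 0 := by
  classical
  have hpp : Function.IsPeriodicPt F r l := hper
  have hmin : Function.minimalPeriod F l = r := by
    rcases (Nat.dvd_prime hp.out).1 hpp.minimalPeriod_dvd with h | h
    · exact absurd (Function.minimalPeriod_eq_one_iff_isFixedPt.1 h) hnf
    · exact h
  have hinj : Set.InjOn (fun i => F^[i] l) (Finset.range r : Set ℕ) := by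
    intro i hi j hj hij
    have hi' : i < r := by simpa using hi
    have hj' : j < r := by simpa using hj
    exact Function.iterate_injOn_Iio_minimalPeriod (by simpa [hmin] using hi')
      (by simpa [hmin] using hj') hij
  set O : Finset ι := (Finset.range r).image fun i => F^[i] l with hO
  refine ⟨c.filter (fun m => m ∉ O), ?_, ?_, ?_⟩
  · have h1 : ∑ i ∈ Finset.range r, single (F^[i] l) (c (F^[i] l)) = ∑ m ∈ O, single m (c m) := by
      rw [hO, Finset.sum_image hinj]
    rw [h1]
    ext m
    rw [Finsupp.add_apply, Finsupp.finsetSum_apply, Finsupp.filter_apply]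
    by_cases hm : m ∈ O
    · rw [if_neg (by simpa using hm), zero_add, Finset.sum_eq_single m]
      · simp
      · intro b _ hb
        simp [hb]
      · intro h; exact absurd hm h
    · rw [if_pos hm, Finset.sum_eq_zero, add_zero]
      intro b hb
      rw [Finsupp.single_apply, if_neg]
      rintro rfl
      exact hm hb
  · rw [Finsupp.support_filter]
    exact Finset.filter_subset _ _
  · rw [Finsupp.filter_apply, if_neg]
    simp only [not_not]
    rw [hO, Finset.mem_image]
    exact ⟨0, Finset.mem_range.2 hp.out.pos, rfl⟩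

include hF hr in
/-- kernel of `1 - F` -/
lemma ker_sg1 [hp : Fact r.Prime] (n : ℕ) : ∀ c : ι →₀ 𝕜, c.support.card ≤ n →
    c ∈ Finsupp.supported 𝕜 𝕜 P → sg1 F c = 0 →
    ∃ a ∈ Finsupp.supported 𝕜 𝕜 P, ∃ d ∈ Finsupp.supported 𝕜 𝕜 {l | l ∈ P ∧ F l = l},
      c = tau F r a + d := by
  induction n with
  | zero =>
    intro c hcard _ _
    have : c = 0 := by
      rw [← Finsupp.support_eq_empty, ← Finset.card_eq_zero]
      omega
    exact ⟨0, Submodule.zero_mem _, 0, Submodule.zero_mem _, by simp [this]⟩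
  | succ n ih =>
    intro c hcard hc hsc
    by_cases hfix : ∀ l ∈ c.support, F l = l
    · refine ⟨0, Submodule.zero_mem _, c, ?_, by simp⟩
      intro l hl
      exact ⟨hc hl, hfix l hl⟩
    · push Not at hfix
      obtain ⟨l, hl, hnf⟩ := hfix
      have hlP : l ∈ P := hc hl
      obtain ⟨c', hcc', hsub, hl0⟩ := orbit_part c l (hr l hlP) hnf
      have hinv : TT F c = c := by
        rw [sg1, LinearMap.sub_apply, LinearMap.id_apply, sub_eq_zero] at hsc
        exact hsc.symm
      have hval : ∀ i, c (F^[i] l) = c l := by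
        intro i
        induction i with
        | zero => rfl
        | succ i ih =>
          rw [← ih]
          have h1 := TT_apply hF hr hp.out.pos 1 hc (iter_mem hF i l hlP)
          rw [Function.iterate_one, hinv, ← Function.iterate_succ_apply' F i l] at h1
          exact h1
      have hsum : ∑ i ∈ Finset.range r, single (F^[i] l) (c (F^[i] l)) =
          c l • tau F r (single l (1 : 𝕜)) := by
        rw [tau, LinearMap.sum_apply, Finset.smul_sum]
        refine Finset.sum_congr rfl fun i _ => ?_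
        rw [hval, TT_single, Finsupp.smul_single, smul_eq_mul, mul_one]
      have hs1 : single l (1 : 𝕜) ∈ Finsupp.supported 𝕜 𝕜 P :=
        Finsupp.single_mem_supported 𝕜 _ hlP
      have hc'P : c' ∈ Finsupp.supported 𝕜 𝕜 P := fun m hm => hc (hsub hm)
      have hc'0 : sg1 F c' = 0 := by
        have h2 : c' = c - c l • tau F r (single l (1 : 𝕜)) := by
          rw [← hsum]; exact eq_sub_of_add_eq hcc'.symm
        rw [h2, map_sub, hsc, map_smul, sg1_tau hF hr hs1, smul_zero, sub_zero]
      have hcard' : c'.support.card ≤ n := by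
        have : c'.support ⊂ c.support := by
          refine Finset.ssubset_iff_subset_ne.2 ⟨hsub, ?_⟩
          intro h
          rw [← h, Finsupp.mem_support_iff] at hl
          exact hl hl0
        have := Finset.card_lt_card this
        omega
      obtain ⟨a, ha, d, hd, had⟩ := ih c' hcard' hc'P hc'0
      refine ⟨a + c l • single l 1, Submodule.add_mem _ ha (Submodule.smul_mem _ _ hs1), d, hd, ?_⟩
      have e1 : c = c' + c l • tau F r (single l (1 : 𝕜)) := by
        rw [← hsum]; exact hcc'
      have e2 : c' + c l • tau F r (single l (1 : 𝕜)) =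
          tau F r (a + c l • single l 1) + d := by
        rw [had, map_add, map_smul]
        abel
      exact e1.trans e2

include hF hr in
/-- kernel of the norm -/
lemma ker_tau [hp : Fact r.Prime] (n : ℕ) : ∀ c : ι →₀ 𝕜, c.support.card ≤ n →
    c ∈ Finsupp.supported 𝕜 𝕜 P → tau F r c = 0 →
    ∃ a ∈ Finsupp.supported 𝕜 𝕜 P, ∃ d ∈ Finsupp.supported 𝕜 𝕜 {l | l ∈ P ∧ F l = l},
      c = sg1 F a + d := by
  induction n with
  | zero =>
    intro c hcard _ _
    have : c = 0 := by
      rw [← Finsupp.support_eq_empty, ← Finset.card_eq_zero]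
      omega
    exact ⟨0, Submodule.zero_mem _, 0, Submodule.zero_mem _, by simp [this]⟩
  | succ n ih =>
    intro c hcard hc hsc
    by_cases hfix : ∀ l ∈ c.support, F l = l
    · refine ⟨0, Submodule.zero_mem _, c, ?_, by simp⟩
      intro l hl
      exact ⟨hc hl, hfix l hl⟩
    · push Not at hfix
      obtain ⟨l, hl, hnf⟩ := hfix
      have hlP : l ∈ P := hc hl
      obtain ⟨c', hcc', hsub, hl0⟩ := orbit_part c l (hr l hlP) hnf
      -- the sum of the coefficients on the orbit
      have hsum0 : ∑ i ∈ Finset.range r, c (F^[i] l) = 0 := by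
        have h1 : (tau F r c) (F^[r] l) = 0 := by rw [hsc]; rfl
        rw [tau, LinearMap.sum_apply, Finsupp.finsetSum_apply] at h1
        rw [← Finset.sum_range_reflect, Finset.sum_congr rfl] at h1
        rotate_left
        · exact fun i _ => rfl
        have h2 : ∀ j ∈ Finset.range r, (TT (F^[r - 1 - j]) c) (F^[r] l) = c (F^[j + 1] l) := by
          intro j hj
          have hj' : j < r := Finset.mem_range.1 hj
          have h3 : F^[r] l = F^[r - 1 - j] (F^[j + 1] l) := by
            rw [← Function.iterate_add_apply]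
            congr 1
            omega
          rw [h3]
          exact TT_apply hF hr hp.out.pos _ hc (iter_mem hF _ l hlP)
        rw [Finset.sum_congr rfl h2] at h1
        have h4 := Finset.sum_range_succ (fun i => c (F^[i] l)) r
        have h5 := Finset.sum_range_succ' (fun i => c (F^[i] l)) r
        rw [h4] at h5
        rw [h1, zero_add, Function.iterate_zero_apply, hr l hlP] at h5
        exact add_right_cancel (h5.trans (zero_add _).symm)
      have hs1 : ∀ i, single (F^[i] l) (1 : 𝕜) ∈ Finsupp.supported 𝕜 𝕜 P := fun i =>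
        Finsupp.single_mem_supported 𝕜 _ (iter_mem hF i l hlP)
      have htel : ∀ i, single (F^[i] l) (1 : 𝕜) =
          single l 1 - sg1 F (∑ j ∈ Finset.range i, single (F^[j] l) 1) := by
        intro i
        induction i with
        | zero => simp
        | succ i ih =>
          rw [Finset.sum_range_succ, map_add]
          have h6 : sg1 F (single (F^[i] l) (1 : 𝕜)) =
              single (F^[i] l) 1 - single (F^[i + 1] l) 1 := by
            rw [sg1, LinearMap.sub_apply, LinearMap.id_apply, TT_single,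
              Function.iterate_succ_apply']
          have h7 : sg1 F (∑ j ∈ Finset.range i, single (F^[j] l) (1 : 𝕜)) =
              single l 1 - single (F^[i] l) 1 := by
            rw [ih]; abel
          rw [h6, h7]; abel
      set b : ι →₀ 𝕜 := - ∑ i ∈ Finset.range r, c (F^[i] l) •
        ∑ j ∈ Finset.range i, single (F^[j] l) (1 : 𝕜) with hb
      have hbP : b ∈ Finsupp.supported 𝕜 𝕜 P := by
        refine Submodule.neg_mem _ (Submodule.sum_mem _ fun i _ => Submodule.smul_mem _ _ ?_)
        exact Submodule.sum_mem _ fun j _ => hs1 j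
      have horb : ∑ i ∈ Finset.range r, single (F^[i] l) (c (F^[i] l)) = sg1 F b := by
        have h8 : ∀ i ∈ Finset.range r, single (F^[i] l) (c (F^[i] l)) =
            c (F^[i] l) • single l (1 : 𝕜) -
              sg1 F (c (F^[i] l) • ∑ j ∈ Finset.range i, single (F^[j] l) 1) := by
          intro i _
          rw [map_smul, ← smul_sub, ← htel, Finsupp.smul_single, smul_eq_mul, mul_one]
        rw [Finset.sum_congr rfl h8, Finset.sum_sub_distrib, ← Finset.sum_smul, hsum0, zero_smul,
          zero_sub, ← map_sum, hb, map_neg]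
      have hc'P : c' ∈ Finsupp.supported 𝕜 𝕜 P := fun m hm => hc (hsub hm)
      have hc'0 : tau F r c' = 0 := by
        have h2 : c' = c - sg1 F b := by
          rw [← horb]; exact eq_sub_of_add_eq hcc'.symm
        rw [h2, map_sub, hsc, tau_sg1 hF hr hbP, sub_zero]
      have hcard' : c'.support.card ≤ n := by
        have : c'.support ⊂ c.support := by
          refine Finset.ssubset_iff_subset_ne.2 ⟨hsub, ?_⟩
          intro h
          rw [← h, Finsupp.mem_support_iff] at hl
          exact hl hl0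
        have := Finset.card_lt_card this
        omega
      obtain ⟨a, ha, d, hd, had⟩ := ih c' hcard' hc'P hc'0
      refine ⟨a + b, Submodule.add_mem _ ha hbP, d, hd, ?_⟩
      have e1 : c = c' + sg1 F b := by
        rw [← horb]; exact hcc'
      have e2 : c' + sg1 F b = sg1 F (a + b) + d := by
        rw [had, map_add]
        abel
      exact e1.trans e2

include hF hr in
lemma fix_sg1 [hp : Fact r.Prime] {a d : ι →₀ 𝕜} (ha : a ∈ Finsupp.supported 𝕜 𝕜 P)
    (hd : d ∈ Finsupp.supported 𝕜 𝕜 {l | l ∈ P ∧ F l = l}) (h : d = sg1 F a) : d = 0 := by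
  rw [← Finsupp.support_eq_empty, Finset.eq_empty_iff_forall_notMem]
  intro l hl
  have hl' := hd hl
  rw [Finsupp.mem_support_iff] at hl
  apply hl
  rw [h, sg1, LinearMap.sub_apply, LinearMap.id_apply, Finsupp.sub_apply]
  have h1 := TT_apply hF hr hp.out.pos 1 ha hl'.1
  rw [Function.iterate_one, hl'.2] at h1
  rw [h1, sub_self]

include hF hr in
lemma fix_tau [hp : Fact r.Prime] (hchar : (r : 𝕜) = 0) {a d : ι →₀ 𝕜}
    (ha : a ∈ Finsupp.supported 𝕜 𝕜 P)
    (hd : d ∈ Finsupp.supported 𝕜 𝕜 {l | l ∈ P ∧ F l = l}) (h : d = tau F r a) : d = 0 := by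
  rw [← Finsupp.support_eq_empty, Finset.eq_empty_iff_forall_notMem]
  intro l hl
  have hl' := hd hl
  rw [Finsupp.mem_support_iff] at hl
  apply hl
  rw [h, tau, LinearMap.sum_apply, Finsupp.finsetSum_apply]
  have h1 : ∀ i ∈ Finset.range r, (TT (F^[i]) a) l = a l := by
    intro i _
    have h2 := TT_apply hF hr hp.out.pos i ha hl'.1
    rwa [Function.iterate_fixed hl'.2 i] at h2
  rw [Finset.sum_congr rfl h1, Finset.sum_const, Finset.card_range, nsmul_eq_mul, hchar, zero_mul]

end Perm

end Vale.Agent.P240.K
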