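import Vale.Agent.P240.K.Chains2

namespace Vale.Agent.P240.K

open Finsupp

variable {𝕜 : Type*} [Field 𝕜]

variable {α β γ : Type*}

/-! ### Shuffle product -/

/-- shuffle product of two lists in a join semilattice -/
noncomputable def shL [Max α] : List α → List α → Ch 𝕜 α
  | [], t => single t (1 : 𝕜)
  | a :: s, [] => single (a :: s) (1 : 𝕜)
  | a :: s, b :: t =>
      cons (a ⊔ b) (shL s (b :: t) + (-1 : 𝕜) ^ (s.length + 1) • shL (a :: s) t)
termination_by s t => s.length + t.length

/-- bilinear shuffle product -/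
noncomputable def sh [Max α] : Ch 𝕜 α →ₗ[𝕜] Ch 𝕜 α →ₗ[𝕜] Ch 𝕜 α :=
  Finsupp.linearCombination 𝕜 fun s => Finsupp.linearCombination 𝕜 fun t => shL s t

/-- bilinear extensionality -/
lemma bilin_ext {M : Type*} [AddCommGroup M] [Module 𝕜 M] {f g : Ch 𝕜 α →ₗ[𝕜] Ch 𝕜 α →ₗ[𝕜] M}
    (h : ∀ s t, f (single s (1 : 𝕜)) (single t (1 : 𝕜)) = g (single s (1 : 𝕜)) (single t (1 : 𝕜))) : f = g :=
  lin_ext fun s => lin_ext fun t => h s t

variable [Max α]

lemma sh_single (s t : List α) : sh (single s (1 : 𝕜)) (single t (1 : 𝕜)) = shL s t := by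
  simp [sh, Finsupp.linearCombination_single]

lemma sh_nil_left (y : Ch 𝕜 α) : sh (single [] (1 : 𝕜)) y = y := by
  have := lin_ext_apply (f := sh (single ([] : List α) (1 : 𝕜))) (g := LinearMap.id)
    (fun l => by rw [sh_single, shL]; rfl) y
  simpa using this

lemma sh_nil_right (x : Ch 𝕜 α) : sh x (single [] (1 : 𝕜)) = x := by
  have := lin_ext_apply (f := (sh (𝕜 := 𝕜) (α := α)).flip (single ([] : List α) (1 : 𝕜))) (g := LinearMap.id)
    (fun l => by
      rw [LinearMap.flip_apply, sh_single]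
      cases l with
      | nil => rw [shL]; rfl
      | cons a l => rw [shL]; rfl) x
  simpa using this

lemma sh_cons_cons (a b : α) (c d : Ch 𝕜 α) :
    sh (cons a c) (cons b d) =
      cons (a ⊔ b) (sh c (cons b d) + sh (sg (cons a c)) d) := by
  have := bilin_ext
    (f := (sh (𝕜 := 𝕜) (α := α)).compl₁₂ (cons a) (cons b))
    (g := ((sh (𝕜 := 𝕜) (α := α)).compl₁₂ LinearMap.id (cons b) +
      (sh (𝕜 := 𝕜) (α := α)).compl₁₂ (sg.comp (cons a)) LinearMap.id).compr₂ (cons (a ⊔ b)))
    (fun s t => by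
      simp only [LinearMap.compl₁₂_apply, LinearMap.compr₂_apply, LinearMap.add_apply,
        LinearMap.id_apply, LinearMap.comp_apply, cons_single, sg_single, map_smul,
        LinearMap.smul_apply, sh_single, List.length_cons]
      rw [shL])
  have h := congrArg (fun F => F c d) this
  simpa only [LinearMap.compl₁₂_apply, LinearMap.compr₂_apply, LinearMap.add_apply,
        LinearMap.id_apply, LinearMap.comp_apply] using h

/-- `bd` is a graded derivation for the shuffle product, on lists. -/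
lemma bd_sh_list (n : ℕ) : ∀ s t : List α, s.length + t.length = n →
    bd (sh (single s (1 : 𝕜)) (single t (1 : 𝕜))) =
      sh (bd (single s (1 : 𝕜))) (single t (1 : 𝕜)) + sh (sg (single s (1 : 𝕜))) (bd (single t (1 : 𝕜))) := by
  induction n with
  | zero =>
    intro s t h
    have hs : s = [] := List.length_eq_zero_iff.1 (by omega)
    have ht : t = [] := List.length_eq_zero_iff.1 (by omega)
    subst hs ht
    simp [sh_nil_left]
  | succ n ih =>
    intro s t h
    rcases s with _ | ⟨a, s⟩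
    · simp [sh_nil_left]
    rcases t with _ | ⟨b, t⟩
    · simp [sh_nil_right]
    have h1 := ih s (b :: t) (by simp only [List.length_cons] at h ⊢; omega)
    have h2 := ih (a :: s) t (by simp only [List.length_cons] at h ⊢; omega)
    -- write everything with cons
    obtain ⟨c, hcdef⟩ : ∃ c : Ch 𝕜 α, c = single s (1 : 𝕜) := ⟨_, rfl⟩
    obtain ⟨d, hddef⟩ : ∃ d : Ch 𝕜 α, d = single t (1 : 𝕜) := ⟨_, rfl⟩
    have ea : single (a :: s) (1 : 𝕜) = cons a c := by simp [hcdef]
    have eb : single (b :: t) (1 : 𝕜) = cons b d := by simp [hddef]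
    have e : sg (cons a c) = ((-1 : 𝕜) ^ (s.length + 1)) • cons a c := by
      simp [hcdef, pow_succ]
    rw [← hcdef, eb] at h1
    rw [← hddef, ea] at h2
    rw [ea, eb]
    have h2' : bd (sh (sg (cons a c)) d) = sh (bd (sg (cons a c))) d + sh (cons a c) (bd d) := by
      have e2 : sh (cons a c) (bd d) = ((-1 : 𝕜) ^ (s.length + 1)) •
          sh (sg (cons a c)) (bd d) := by
        rw [e, map_smul, LinearMap.smul_apply, smul_smul, ← pow_add, ← two_mul]
        simp
      rw [e2]
      rw [e] at h2 ⊢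
      simp only [map_smul, LinearMap.smul_apply] at h2 ⊢
      rw [h2, smul_add]
    have s1 := sh_cons_cons a b (bd c) d
    have s2 := sh_cons_cons a b (-(sg c)) (bd d)
    have e3 : cons a (-(sg c)) = sg (cons a c) := by rw [map_neg, sg_cons]
    have e4 : sg (cons a (-(sg c))) = cons a c := by rw [e3, sg_sg]
    rw [e3, sg_sg, map_neg (sh (𝕜 := 𝕜)), LinearMap.neg_apply] at s2
    have e5 : bd (sg (cons a c)) = sg (cons a (bd c)) - sg c := by
      rw [bd_sg, bd_cons, map_sub]; abel
    rw [e5, map_sub (sh (𝕜 := 𝕜)), LinearMap.sub_apply] at h2'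
    rw [bd_cons, map_sub (sh (sg c))] at h1
    rw [sh_cons_cons, bd_cons, map_add (bd (𝕜 := 𝕜)), h1, h2', bd_cons, bd_cons, map_sub (sh (𝕜 := 𝕜)),
      LinearMap.sub_apply, map_sub (sh (sg (cons a c))), s1, s2]
    generalize sh (bd c) (cons b d) = X1
    generalize sh (sg c) d = X2
    generalize sh (sg c) (cons b (bd d)) = X3
    generalize sh (sg (cons a (bd c))) d = X4
    generalize sh (cons a c) (bd d) = X5
    generalize sh c (cons b d) = X6
    generalize sh (sg (cons a c)) d = X7
    have e6 : X1 + (X2 - X3) + (X4 - X2 + X5) = (X1 + X4) + (-X3 + X5) := by abel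
    rw [e6, map_add (cons (a ⊔ b)) (X1 + X4)]
    generalize cons (a ⊔ b) (X1 + X4) = Y1
    generalize cons (a ⊔ b) (-X3 + X5) = Y2
    abel

lemma bd_sh (x y : Ch 𝕜 α) : bd (sh x y) = sh (bd x) y + sh (sg x) (bd y) := by
  have := bilin_ext
    (f := (sh (𝕜 := 𝕜) (α := α)).compr₂ bd)
    (g := (sh (𝕜 := 𝕜) (α := α)).compl₁₂ bd LinearMap.id + (sh (𝕜 := 𝕜) (α := α)).compl₁₂ sg bd)
    (fun s t => by
      simp only [LinearMap.compl₁₂_apply, LinearMap.compr₂_apply, LinearMap.add_apply,
        LinearMap.id_apply]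
      exact bd_sh_list _ s t rfl)
  have h := congrArg (fun F => F x y) this
  simpa only [LinearMap.compl₁₂_apply, LinearMap.compr₂_apply, LinearMap.add_apply,
        LinearMap.id_apply] using h

end Vale.Agent.P240.K
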