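import Vale.Agent.P240.K.NonAcyclic
import Vale.Agent.P240.K.Perm

namespace Vale.Agent.P240.K

open Finsupp

variable {𝕜 : Type*} [Field 𝕜] {α : Type*}

/-- lists of length `n` -/
def stn [LT α] (S : Set α) (n : ℕ) : Set (List α) := {l | l.length = n ∧ st S l}

lemma not_NA_iff [PartialOrder α] {S : Set α} :
    ¬ NA 𝕜 S ↔ ∀ z ∈ Sp 𝕜 (st S), bd z = 0 → ∃ c ∈ Sp 𝕜 (st S), bd c = z := by
  unfold NA
  push Not
  rfl

lemma not_NA_hom [PartialOrder α] {S : Set α} (h : ¬ NA 𝕜 S) (n : ℕ) {z : Ch 𝕜 α}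
    (hz : z ∈ Finsupp.supported 𝕜 𝕜 (stn S n)) (hb : bd z = 0) :
    ∃ c ∈ Finsupp.supported 𝕜 𝕜 (stn S (n + 1)), bd c = z := by
  rw [not_NA_iff] at h
  obtain ⟨c, hc, hcz⟩ := h z (Sp_mono (fun l (hl : l ∈ stn S n) => hl.2) hz) hb
  refine ⟨len (n + 1) c, len_mem hc, ?_⟩
  rw [bd_len, hcz]
  exact len_of_mem (Sp_mono (fun l (hl : l ∈ stn S n) => hl.1) hz)

lemma not_NA_of_hom [PartialOrder α] {S : Set α}
    (h : ∀ n, ∀ z ∈ Finsupp.supported 𝕜 𝕜 (stn S n), bd z = 0 → ∃ c ∈ Sp 𝕜 (st S), bd c = z) :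
    ¬ NA 𝕜 S := by
  rw [not_NA_iff]
  intro z hz hb
  have key : ∀ n, ∃ c ∈ Sp 𝕜 (st S), bd c = len n z := by
    intro n
    refine h n _ (len_mem hz) ?_
    rcases n with _ | n
    · exact bd_len_zero _
    · rw [bd_len, hb, map_zero]
  choose c hc hbc using key
  obtain ⟨N, hN⟩ := exists_len_bound z
  refine ⟨∑ n ∈ Finset.range N, c n, Submodule.sum_mem _ fun n _ => hc n, ?_⟩
  rw [map_sum]
  simp only [hbc]
  exact sum_len N hN

lemma map_iter (f : α → α) (n : ℕ) : (List.map f)^[n] = List.map (f^[n]) := by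
  induction n with
  | zero => funext l; simp
  | succ n ih =>
    funext l
    rw [Function.iterate_succ_apply, ih, List.map_map, Function.iterate_succ]

lemma bd_TT (f : α → α) (i : ℕ) (c : Ch 𝕜 α) :
    bd (TT ((List.map f)^[i]) c) = TT ((List.map f)^[i]) (bd c) := by
  rw [map_iter]
  exact bd_mp _ c

lemma bd_sg1 (f : α → α) (c : Ch 𝕜 α) : bd (sg1 (List.map f) c) = sg1 (List.map f) (bd c) := by
  have := bd_TT f 1 c
  rw [Function.iterate_one] at this
  simp only [sg1, LinearMap.sub_apply, LinearMap.id_apply, map_sub, this]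

lemma bd_tau (f : α → α) (r : ℕ) (c : Ch 𝕜 α) :
    bd (tau (List.map f) r c) = tau (List.map f) r (bd c) := by
  simp only [tau, LinearMap.sum_apply, map_sum, bd_TT]

lemma st_length_le [PartialOrder α] {S : Set α} (hS : S.Finite) {l : List α} (hl : st S l) :
    l.length ≤ hS.toFinset.card := by
  classical
  have hnd : l.Nodup := hl.1.imp fun h => (ne_of_lt h).symm
  rw [← List.toFinset_card_of_nodup hnd]
  refine Finset.card_le_card ?_
  intro a ha
  rw [Set.Finite.mem_toFinset]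
  exact hl.2 a (by simpa using ha)

lemma supported_stn_zero [PartialOrder α] {S : Set α} (hS : S.Finite) {n : ℕ}
    (hn : hS.toFinset.card < n) {z : Ch 𝕜 α} (hz : z ∈ Finsupp.supported 𝕜 𝕜 (stn S n)) :
    z = 0 := by
  rw [← Finsupp.support_eq_empty, Finset.eq_empty_iff_forall_notMem]
  intro l hl
  have h1 := hz hl
  have h2 := st_length_le hS h1.2
  rw [h1.1] at h2
  omega

lemma bd_stn [PartialOrder α] {S : Set α} {n : ℕ} {z : Ch 𝕜 α}
    (hz : z ∈ Finsupp.supported 𝕜 𝕜 (stn S (n + 1))) :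
    bd z ∈ Finsupp.supported 𝕜 𝕜 (stn S n) := by
  have h1 : z = len (n + 1) z :=
    (len_of_mem (Sp_mono (fun l (hl : l ∈ stn S (n + 1)) => hl.1) hz)).symm
  rw [h1, bd_len]
  exact len_mem (bd_st (Sp_mono (fun l (hl : l ∈ stn S (n + 1)) => hl.2) hz))

/-- **Smith's theorem** for an order automorphism of prime order `r` of a finite poset `S` that is
acyclic over a field of characteristic `r`: the fixed points are acyclic as well. -/
theorem smith [PartialOrder α] {r : ℕ} [hp : Fact r.Prime] (hchar : (r : 𝕜) = 0) {S : Set α}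
    (hS : S.Finite) (f : α → α) (hf : ∀ x ∈ S, f x ∈ S) (hr : ∀ x ∈ S, f^[r] x = x)
    (hlt : ∀ x ∈ S, ∀ y ∈ S, x < y → f x < f y) (hac : ¬ NA 𝕜 S) :
    ¬ NA 𝕜 {x | x ∈ S ∧ f x = x} := by
  set F : List α → List α := List.map f with hFdef
  have hFn : ∀ n, ∀ l ∈ stn S n, F l ∈ stn S n := by
    rintro n l ⟨h1, h2⟩
    refine ⟨by rw [hFdef, List.length_map, h1], ?_, ?_⟩
    · rw [hFdef, List.pairwise_map]
      exact h2.1.imp_of_mem fun {a b} ha hb hab => hlt _ (h2.2 b hb) _ (h2.2 a ha) hab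
    · intro a ha
      obtain ⟨b, hb, rfl⟩ := List.mem_map.1 ha
      exact hf _ (h2.2 b hb)
  have hFr : ∀ n, ∀ l ∈ stn S n, F^[r] l = l := by
    rintro n l ⟨h1, h2⟩
    rw [hFdef, map_iter]
    conv_rhs => rw [← List.map_id l]
    exact List.map_congr_left fun a ha => hr a (h2.2 a ha)
  -- fixed lists
  have hfixbd : ∀ n, ∀ d ∈ Finsupp.supported 𝕜 𝕜 {l | l ∈ stn S (n + 1) ∧ F l = l},
      bd d ∈ Finsupp.supported 𝕜 𝕜 {l | l ∈ stn S n ∧ F l = l} := by
    intro n d hd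
    have h1 : bd d ∈ Sp 𝕜 (fun l => l ∈ stn S n) :=
      bd_stn (Sp_mono (fun l (hl : l ∈ stn S (n + 1) ∧ F l = l) => hl.1) hd)
    have h2 : bd d ∈ Sp 𝕜 (fun l => ∀ a ∈ l, f a = a) := by
      refine bd_mem (fun l l' hs hl a ha => hl a (hs.subset ha)) (Sp_mono ?_ hd)
      rintro l ⟨_, hl⟩ a ha
      have := List.map_eq_map_iff.1 ((hl : l.map f = l).trans (List.map_id l).symm) a ha
      exact this
    refine Sp_mono ?_ (mem_Sp_inf h1 h2)
    rintro l ⟨hl, hl'⟩
    refine ⟨hl, ?_⟩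
    rw [hFdef]
    conv_rhs => rw [← List.map_id l]
    exact List.map_congr_left fun a ha => hl' a ha
  have key : ∀ m n : ℕ, hS.toFinset.card + 1 ≤ n + m →
      (∀ a ∈ Finsupp.supported 𝕜 𝕜 (stn S n), bd (sg1 F a) = 0 →
        ∃ b ∈ Finsupp.supported 𝕜 𝕜 (stn S (n + 1)), sg1 F a = bd (sg1 F b)) ∧
      (∀ a ∈ Finsupp.supported 𝕜 𝕜 (stn S n), bd (tau F r a) = 0 →
        ∃ b ∈ Finsupp.supported 𝕜 𝕜 (stn S (n + 1)), tau F r a = bd (tau F r b)) := by
    intro m
    induction m with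
    | zero =>
      intro n hn
      constructor
      · intro a ha _
        have : a = 0 := supported_stn_zero hS (by omega) ha
        exact ⟨0, Submodule.zero_mem _, by simp [this]⟩
      · intro a ha _
        have : a = 0 := supported_stn_zero hS (by omega) ha
        exact ⟨0, Submodule.zero_mem _, by simp [this]⟩
    | succ m ih =>
      intro n hn
      obtain ⟨ih1, ih2⟩ := ih (n + 1) (by omega)
      constructor
      · intro a ha hb
        obtain ⟨c, hc, hcz⟩ := not_NA_hom hac n (sg1_mem (hFn n) ha) hb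
        obtain ⟨b, hb', hbe⟩ := ih2 c hc (by
          rw [bd_tau, hcz]
          exact tau_sg1 (hFn n) (hFr n) ha)
        have hcb : c - bd b ∈ Finsupp.supported 𝕜 𝕜 (stn S (n + 1)) :=
          Submodule.sub_mem _ hc (bd_stn hb')
        obtain ⟨a', ha', d, hd, hcd⟩ := ker_tau (hFn (n + 1)) (hFr (n + 1)) _ (c - bd b) le_rfl hcb
          (by rw [map_sub, hbe, bd_tau, sub_self])
        have hz : bd (sg1 F a') + bd d = sg1 F a := by
          rw [← map_add, ← hcd, map_sub, bd_bd, sub_zero, hcz]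
        have hd0 : bd d = 0 := by
          refine fix_sg1 (hFn n) (hFr n) (a := a - bd a') (Submodule.sub_mem _ ha (bd_stn ha'))
            (hfixbd n d hd) ?_
          rw [map_sub, ← hz, bd_sg1]
          abel
        refine ⟨a', ha', ?_⟩
        rw [← hz, hd0, add_zero]
      · intro a ha hb
        obtain ⟨c, hc, hcz⟩ := not_NA_hom hac n (tau_mem (hFn n) ha) hb
        obtain ⟨b, hb', hbe⟩ := ih1 c hc (by
          rw [bd_sg1, hcz]
          exact sg1_tau (hFn n) (hFr n) ha)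
        have hcb : c - bd b ∈ Finsupp.supported 𝕜 𝕜 (stn S (n + 1)) :=
          Submodule.sub_mem _ hc (bd_stn hb')
        obtain ⟨a', ha', d, hd, hcd⟩ := ker_sg1 (hFn (n + 1)) (hFr (n + 1)) _ (c - bd b) le_rfl hcb
          (by rw [map_sub, hbe, bd_sg1, sub_self])
        have hz : bd (tau F r a') + bd d = tau F r a := by
          rw [← map_add, ← hcd, map_sub, bd_bd, sub_zero, hcz]
        have hd0 : bd d = 0 := by
          refine fix_tau (hFn n) (hFr n) hchar (a := a - bd a')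
            (Submodule.sub_mem _ ha (bd_stn ha')) (hfixbd n d hd) ?_
          rw [map_sub, ← hz, bd_tau]
          abel
        refine ⟨a', ha', ?_⟩
        rw [← hz, hd0, add_zero]
  refine not_NA_of_hom fun n z hz hb => ?_
  have hzS : z ∈ Finsupp.supported 𝕜 𝕜 (stn S n) :=
    Sp_mono (fun l (hl : l ∈ stn {x | x ∈ S ∧ f x = x} n) =>
      (⟨hl.1, hl.2.1, fun a ha => (hl.2.2 a ha).1⟩ : l ∈ stn S n)) hz
  have hzfix : z ∈ Finsupp.supported 𝕜 𝕜 {l | l ∈ stn S n ∧ F l = l} := by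
    refine Sp_mono (fun l (hl : l ∈ stn {x | x ∈ S ∧ f x = x} n) =>
      (⟨⟨hl.1, hl.2.1, fun a ha => (hl.2.2 a ha).1⟩, ?_⟩ : l ∈ stn S n ∧ F l = l)) hz
    rw [hFdef]
    conv_rhs => rw [← List.map_id l]
    exact List.map_congr_left fun a ha => (hl.2.2 a ha).2
  obtain ⟨c, hc, hcz⟩ := not_NA_hom hac n hzS hb
  have hsz : sg1 F z = 0 := by
    have := eq_of_Sp (F := sg1 F) (G := 0) (P := fun l => l ∈ stn S n ∧ F l = l)
      (fun l hl => by
        rw [sg1, LinearMap.sub_apply, LinearMap.id_apply, TT_single, hl.2, sub_self]; rfl) hzfix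
    simpa using this
  obtain ⟨b, hb', hbe⟩ := (key (hS.toFinset.card + 1) (n + 1) (by omega)).1 c hc (by
    rw [bd_sg1, hcz, hsz])
  have hcb : c - bd b ∈ Finsupp.supported 𝕜 𝕜 (stn S (n + 1)) :=
    Submodule.sub_mem _ hc (bd_stn hb')
  obtain ⟨a', ha', d, hd, hcd⟩ := ker_sg1 (hFn (n + 1)) (hFr (n + 1)) _ (c - bd b) le_rfl hcb
    (by rw [map_sub, hbe, bd_sg1, sub_self])
  have hz' : bd (tau F r a') + bd d = z := by
    rw [← map_add, ← hcd, map_sub, bd_bd, sub_zero, hcz]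
  have h0 : z - bd d = 0 := by
    refine fix_tau (hFn n) (hFr n) hchar (a := bd a') (bd_stn ha')
      (Submodule.sub_mem _ hzfix (hfixbd n d hd)) ?_
    rw [← bd_tau, ← hz']
    abel
  refine ⟨d, ?_, (sub_eq_zero.1 h0).symm⟩
  refine Sp_mono ?_ hd
  rintro l ⟨⟨_, hl1, hl2⟩, hl3⟩
  refine ⟨hl1, fun a ha => ⟨hl2 a ha, ?_⟩⟩
  exact List.map_eq_map_iff.1 ((hl3 : l.map f = l).trans (List.map_id l).symm) a ha

end Vale.Agent.P240.K
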