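import Vale.Agent.P240.K.Glue

namespace Vale.Agent.P240.K

open Finsupp Subgroup

variable {𝕜 : Type*} [Field 𝕜]

variable {G Q R : Type*} [Group G] [Group Q] [Group R] {p : ℕ}
variable {L N K N1 N2 : Subgroup G} {πK : N →* Q} {πL : N →* R}

lemma Bst_map {α β : Type*} [PartialOrder α] [PartialOrder β] {S : Set α} {T : Set β}
    {f : α → β} (hT : ∀ x ∈ S, f x ∈ T) (hlt : ∀ x ∈ S, ∀ y ∈ S, x < y → f x < f y) {z : Ch 𝕜 α}
    (hz : z ∈ Bst 𝕜 S) : mp f z ∈ Bst 𝕜 T := by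
  obtain ⟨c, hc, rfl⟩ := hz
  exact ⟨mp f c, mp_mem (st_map hT hlt) hc, bd_mp f c⟩

/-- non-homogeneous form of `hybrid` -/
lemma hybrid' [Fact p.Prime] [Finite G] (h : Ctx p L N K πK πL) (t : Two p L N K N1 N2)
    (hm : (∀ g : G, g ^ p = 1 → g ∈ N) ∨
      ∀ z ∈ Sp 𝕜 (fun l : List (Subgroup G) => l.length = 1 ∧ st (Ain p L) l), bd z = 0 →
        z ∈ Bst 𝕜 (Ain p L))
    {al : Ch 𝕜 (Subgroup G)} (hal : al ∈ Sp 𝕜 (st (Ain p L))) (hbal : bd al = 0)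
    (hane : mp (fq N πK) al ∉ Bst 𝕜 (Ain p (Gam N πK N1)))
    {be : Ch 𝕜 (Subgroup G)} (hbe : be ∈ Sp 𝕜 (st (Ain p K))) (hbbe : bd be = 0)
    (hben : mp (fq N πL) be ∉ Bst 𝕜 (SRof L N πL (Ain p N2))) : NA 𝕜 (ApS p G) := by
  have hK1 : K ≤ N1 := le_sup_right.trans t.LK1
  have hL1 : L ≤ N1 := le_sup_left.trans t.LK1
  have hLQ : ∀ E ∈ Ain p L, fq N πK E ∈ Ain p (Gam N πK N1) := by
    intro E hE
    refine ⟨fq_mem_ApS h.hπK hE.1 (hE.2.trans h.LN) fun hh =>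
      hE.1.1 (le_bot_iff.1 (h.LK ▸ le_inf hE.2 hh)), ?_⟩
    intro q hq
    obtain ⟨m, hm', rfl⟩ := mem_fq.1 hq
    exact (mem_Gam h hK1).2 (hL1 (hE.2 hm'))
  have hLst : ∀ B ∈ Ain p L, ∀ B' ∈ Ain p L, B < B' → fq N πK B < fq N πK B' := by
    intro B hB B' hB' hh
    refine lt_of_le_of_ne (fq_mono hh.le) fun he => hh.ne ?_
    rw [← pb_fq h.hπK h.LN h.LK hB.2, ← pb_fq h.hπK h.LN h.LK hB'.2, he]
  obtain ⟨n, hn⟩ : ∃ n, mp (fq N πK) (len n al) ∉ Bst 𝕜 (Ain p (Gam N πK N1)) := by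
    by_contra hcon
    push Not at hcon
    obtain ⟨M, hM⟩ := exists_len_bound al
    apply hane
    rw [← sum_len M hM, map_sum]
    exact Submodule.sum_mem _ fun n _ => hcon n
  have h5 := len_mem (n := n) hal
  have hbn : bd (len n al) = 0 := by
    rcases n with _ | n
    · exact bd_len_zero _
    · rw [bd_len, hbal, map_zero]
  refine hybrid h t (n := n) ?_ (Sp_mono (fun l hl => hl.2) h5) (Sp_mono (fun l hl => hl.1) h5)
    hbn hn hbe hbbe hben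
  refine hm.imp_right fun hm => ?_
  by_contra hlt
  apply hn
  refine Bst_map hLQ hLst ?_
  have h6 : n = 0 ∨ n = 1 := by omega
  rcases h6 with rfl | rfl
  · obtain ⟨F, hF, hFL⟩ := exists_ApS_le (G := G) h.comp.dvd
    refine map_mem (N := Bst 𝕜 (Ain p L)) LinearMap.id ?_ h5
    intro l hl
    have : l = [] := List.length_eq_zero_iff.1 hl.1
    rw [this, LinearMap.id_apply]
    refine ⟨single [F] (1 : 𝕜), single_mem_Sp ⟨by simp, by simpa using ⟨hF, hFL⟩⟩ _, ?_⟩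
    simp [bd_single_cons]
  · exact hm _ h5 hbn

/-- The elimination theorem with two types of outer subgroups of order `p`. -/
theorem two_core [Fact p.Prime] [Finite G] (h : Ctx p L N K πK πL) (t : Two p L N K N1 N2)
    (h1 : NA 𝕜 (Ain p L)) (h2 : NA 𝕜 (Ain p K)) (h3 : NA 𝕜 (ApS p Q))
    (h4 : NA 𝕜 (Ain p (Gam N πK N1))) (h5 : NA 𝕜 (Ain p (Gam N πK N2)))
    (hm : (∀ g : G, g ^ p = 1 → g ∈ N) ∨
      ∀ z ∈ Sp 𝕜 (fun l : List (Subgroup G) => l.length = 1 ∧ st (Ain p L) l), bd z = 0 →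
        z ∈ Bst 𝕜 (Ain p L)) : NA 𝕜 (ApS p G) := by
  classical
  by_contra hG
  have hK1 : K ≤ N1 := le_sup_right.trans t.LK1
  have hK2 : K ≤ N2 := le_sup_right.trans t.LK2
  obtain ⟨V, hV, hVz⟩ := h.exists_V (𝕜 := 𝕜)
  obtain ⟨be, hbe, hbbe, hben⟩ := h2
  have hbeV := hVz be hbe hbbe (by
    rintro ⟨c, hc, hcz⟩
    exact hben c hc hcz)
  -- a summand outside
  have hsel : ∀ (c : Ch 𝕜 (Subgroup G)) (s : Finset (Subgroup R)) (e : Subgroup R → Ch 𝕜 (Subgroup G)),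
      c ∈ Sp 𝕜 (wk (Ain p K)) → be = bd c + ∑ X ∈ s, e X →
      ∃ X ∈ s, pi (e X) ∉ Bst 𝕜 (Ain p K) ⊔ V := by
    intro c s e hc hb
    by_contra hcon
    push Not at hcon
    apply hbeV
    have h6 : be = bd (pi c) + ∑ X ∈ s, pi (e X) := by
      conv_lhs => rw [← pi_of_st hbe, hb]
      rw [map_add, map_sum, bd_pi hc]
    rw [h6]
    refine Submodule.add_mem _ (Submodule.mem_sup_left ⟨_, pi_mem hc, rfl⟩) ?_
    exact Submodule.sum_mem _ fun X hX => hcon X hX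
  -- type one or two for members of `N`
  have hSR1 : ∀ X ∈ SRof L N πL (Ain p N), kap N K πL X = ⊥ →
      (∀ E ∈ Ain p N, fq N πL E = X → E ≤ N1) ∨ (∀ E ∈ Ain p N, fq N πL E = X → E ≤ N2) := by
    rintro X ⟨E, hE, hEL, rfl⟩ hkX
    have haux : ∀ M : Subgroup G, L ≤ M → E ≤ M → ∀ E' ∈ Ain p N, fq N πL E' = fq N πL E →
        E' ≤ M := by
      intro M hLM hEM E' hE' he x hx
      have h6 : πL ⟨x, hE'.2 hx⟩ ∈ fq N πL E := by
        rw [← he]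
        exact mem_fq.2 ⟨⟨x, hE'.2 hx⟩, hx, rfl⟩
      obtain ⟨y, hy, hyx⟩ := mem_fq.1 h6
      have h7 : (((⟨x, hE'.2 hx⟩ : N) * y⁻¹ : N) : G) ∈ L := by
        rw [← h.hπL, map_mul, map_inv, hyx, mul_inv_cancel]
      have h8 : x = (((⟨x, hE'.2 hx⟩ : N) * y⁻¹ : N) : G) * y := by simp
      rw [h8]
      exact mul_mem (hLM h7) (hEM hy)
    rcases t.E_or hE with h6 | h6
    · exact Or.inl (haux N1 (le_sup_left.trans t.LK1) h6)
    · exact Or.inr (haux N2 (le_sup_left.trans t.LK2) h6)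
  have hsub1 : Ain p N1 ⊆ Ain p N := fun E hE => ⟨hE.1, hE.2.trans t.le1⟩
  have hsub2 : Ain p N2 ⊆ Ain p N := fun E hE => ⟨hE.1, hE.2.trans t.le2⟩
  have hty1 : ∀ X ∈ SRof L N πL (Ain p N1), ∀ E ∈ Ain p N, fq N πL E = X → E ≤ N1 := by
    rintro X ⟨E, hE, hEL, rfl⟩ E' hE' he x hx
    have h6 : πL ⟨x, hE'.2 hx⟩ ∈ fq N πL E := by
      rw [← he]
      exact mem_fq.2 ⟨⟨x, hE'.2 hx⟩, hx, rfl⟩
    obtain ⟨y, hy, hyx⟩ := mem_fq.1 h6
    have h7 : (((⟨x, hE'.2 hx⟩ : N) * y⁻¹ : N) : G) ∈ L := by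
      rw [← h.hπL, map_mul, map_inv, hyx, mul_inv_cancel]
    have h8 : x = (((⟨x, hE'.2 hx⟩ : N) * y⁻¹ : N) : G) * y := by simp
    rw [h8]
    exact mul_mem (t.LK1 (Subgroup.mem_sup_left h7)) (hE.2 hy)
  have hty2 : ∀ X ∈ SRof L N πL (Ain p N2), ∀ E ∈ Ain p N, fq N πL E = X → E ≤ N2 := by
    rintro X ⟨E, hE, hEL, rfl⟩ E' hE' he x hx
    have h6 : πL ⟨x, hE'.2 hx⟩ ∈ fq N πL E := by
      rw [← he]
      exact mem_fq.2 ⟨⟨x, hE'.2 hx⟩, hx, rfl⟩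
    obtain ⟨y, hy, hyx⟩ := mem_fq.1 h6
    have h7 : (((⟨x, hE'.2 hx⟩ : N) * y⁻¹ : N) : G) ∈ L := by
      rw [← h.hπL, map_mul, map_inv, hyx, mul_inv_cancel]
    have h8 : x = (((⟨x, hE'.2 hx⟩ : N) * y⁻¹ : N) : G) * y := by simp
    rw [h8]
    exact mul_mem (t.LK2 (Subgroup.mem_sup_left h7)) (hE.2 hy)
  have hSRsub : ∀ {F : Set (Subgroup G)}, F ⊆ Ain p N → SRof L N πL F ⊆
      SRof L N πL (Ain p N) := by
    rintro F hF X ⟨E, hE, hEL, rfl⟩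
    exact ⟨E, hF hE, hEL, rfl⟩
  -- the final detection in the simple cases
  have fin1 : (∀ al ∈ Sp 𝕜 (st (Ain p L)), bd al = 0 →
      mp (fq N πK) al ∈ Bst 𝕜 (Ain p (Gam N πK N1))) → ∀ X ∈ SRof L N πL (Ain p N),
      (∀ E ∈ Ain p N, fq N πL E = X → E ≤ N1) → kap N K πL X = ⊥ →
      ∀ e ∈ Sp 𝕜 (wk (Ain p (K ⊓ centralizer ((pb N πL X : Subgroup G) : Set G)))), bd e = 0 →
      pi e ∈ Bst 𝕜 (Ain p K) ⊔ V := by
    intro hZ X hX hX1 hkX e he hbe'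
    by_contra hen
    obtain ⟨om, hom, hbom, homn⟩ := om_exists h t hZ h4
    exact hG (d1 h t.LK1 t.cyc1 hV hom hbom homn hX hX1 hkX he hbe' hen)
  have fin2 : (∀ al ∈ Sp 𝕜 (st (Ain p L)), bd al = 0 →
      mp (fq N πK) al ∈ Bst 𝕜 (Ain p (Gam N πK N2))) → ∀ X ∈ SRof L N πL (Ain p N),
      (∀ E ∈ Ain p N, fq N πL E = X → E ≤ N2) → kap N K πL X = ⊥ →
      ∀ e ∈ Sp 𝕜 (wk (Ain p (K ⊓ centralizer ((pb N πL X : Subgroup G) : Set G)))), bd e = 0 →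
      pi e ∈ Bst 𝕜 (Ain p K) ⊔ V := by
    intro hZ X hX hX1 hkX e he hbe'
    by_contra hen
    obtain ⟨om, hom, hbom, homn⟩ := om_exists h t.symm hZ h5
    exact hG (d1 h t.LK2 t.cyc2 hV hom hbom homn hX hX1 hkX he hbe' hen)
  by_cases hZ1 : ∀ al ∈ Sp 𝕜 (st (Ain p L)), bd al = 0 →
      mp (fq N πK) al ∈ Bst 𝕜 (Ain p (Gam N πK N1))
  · by_cases hZ2 : ∀ al ∈ Sp 𝕜 (st (Ain p L)), bd al = 0 →
        mp (fq N πK) al ∈ Bst 𝕜 (Ain p (Gam N πK N2))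
    · -- case alpha
      have hb : mp (fq N πL) be ∈ Bst 𝕜 (SRof L N πL (Ain p N)) := by
        by_contra hcon
        exact hG (h.case_a h1 hbe hbbe hcon)
      obtain ⟨c, hc, s, e, hs, he, hbs⟩ := h.split t.hR1 (F := Ain p N) le_rfl
        (fun E hE => ⟨hE.1, hE.2.trans h.KN⟩) hbe hb
      obtain ⟨X, hX, hXV⟩ := hsel c s e hc hbs
      rcases hSR1 X (hs X hX).1 (hs X hX).2 with h6 | h6
      · exact hXV (fin1 hZ1 X (hs X hX).1 h6 (hs X hX).2 _ (he X hX).1 (he X hX).2)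
      · exact hXV (fin2 hZ2 X (hs X hX).1 h6 (hs X hX).2 _ (he X hX).1 (he X hX).2)
    · push Not at hZ2
      obtain ⟨al, hal, hbal, hane⟩ := hZ2
      -- case gamma
      have hY1 : mp (fq N πL) be ∈ Bst 𝕜 (SRof L N πL (Ain p N1)) := by
        by_contra hcon
        exact hG (hybrid' h t.symm hm hal hbal hane hbe hbbe hcon)
      obtain ⟨c, hc, s, e, hs, he, hbs⟩ := h.split t.hR1 (F := Ain p N1) hsub1
        (fun E hE => ⟨hE.1, hE.2.trans hK1⟩) hbe hY1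
      obtain ⟨X, hX, hXV⟩ := hsel c s e hc hbs
      exact hXV (fin1 hZ1 X (hSRsub hsub1 (hs X hX).1) (hty1 X (hs X hX).1) (hs X hX).2 _
        (he X hX).1 (he X hX).2)
  · push Not at hZ1
    obtain ⟨al, hal, hbal, hane⟩ := hZ1
    have hY2 : mp (fq N πL) be ∈ Bst 𝕜 (SRof L N πL (Ain p N2)) := by
      by_contra hcon
      exact hG (hybrid' h t hm hal hbal hane hbe hbbe hcon)
    by_cases hZ2 : ∀ al ∈ Sp 𝕜 (st (Ain p L)), bd al = 0 →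
        mp (fq N πK) al ∈ Bst 𝕜 (Ain p (Gam N πK N2))
    · obtain ⟨c, hc, s, e, hs, he, hbs⟩ := h.split t.hR1 (F := Ain p N2) hsub2
        (fun E hE => ⟨hE.1, hE.2.trans hK2⟩) hbe hY2
      obtain ⟨X, hX, hXV⟩ := hsel c s e hc hbs
      exact hXV (fin2 hZ2 X (hSRsub hsub2 (hs X hX).1) (hty2 X (hs X hX).1) (hs X hX).2 _
        (he X hX).1 (he X hX).2)
    · push Not at hZ2
      obtain ⟨al2, hal2, hbal2, hane2⟩ := hZ2
      have hY1 : mp (fq N πL) be ∈ Bst 𝕜 (SRof L N πL (Ain p N1)) := by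
        by_contra hcon
        exact hG (hybrid' h t.symm hm hal2 hbal2 hane2 hbe hbbe hcon)
      exact hG (glue h t hV hbe hbeV hY1 hY2 h3)

end Vale.Agent.P240.K
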