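import Vale.Agent.P240.K.WMain

namespace Vale.Agent.P240.K

open Finsupp Subgroup

variable {𝕜 : Type*} [Field 𝕜]

universe u

section
variable {G : Type u} [Group G] {p : ℕ} {F D T : Set (Subgroup G)} {φ : G → ℂ} {z : G}

/-- members with free `r`-subgroups do not matter modulo `r` -/
lemma mod_r [Fact p.Prime] [Finite G] (hF : Family p F) {S : Set (Subgroup G)} (hSF : S ⊆ F)
    (hSD : ∀ L ∈ S, L ∉ D) (hz : z ∈ Rest F D) {r : ℕ} (hrp : r ≠ p)
    (hT : ∀ L ∈ F, L ∉ S → L ∉ D → r.Prime ∧ FreeSub p r L) :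
    (r : ℤ) ∣ eu (Ain p (Cen S ⊓ centralizer {z})) - eu (Ain p (Rest F D ⊓ centralizer {z})) := by
  have hRC : Rest F D ≤ Cen S := by
    intro x hx
    rw [mem_Cen]
    exact fun L hL => mem_Rest.1 hx L (hSF hL) (hSD L hL)
  by_cases hr : r.Prime
  swap
  · have h1 : Rest F D = Cen S := by
      refine le_antisymm hRC ?_
      intro x hx
      refine mem_Rest.2 fun L hL hLD => ?_
      by_cases hLS : L ∈ S
      · exact mem_Cen.1 hx L hLS
      · exact absurd (hT L hL hLS hLD).1 hr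
    rw [h1, sub_self]
    exact dvd_zero _
  have : Fact r.Prime := ⟨hr⟩
  have hT' : ∀ L ∈ F, L ∉ S → L ∉ D → FreeSub p r L := fun L h1 h2 h3 => (hT L h1 h2 h3).2
  choose! U hUL hU hfree using hT'
  -- the product of the `U L`
  have hgrp : ∀ B : Set (Subgroup G), B.Finite → B ⊆ {L | L ∈ F ∧ L ∉ S ∧ L ∉ D} →
      IsPGroup r (⨆ L ∈ B, U L : Subgroup G) := by
    intro B hfin
    induction B, hfin using Set.Finite.induction_on with
    | empty =>
      intro _
      have hb : (⨆ L ∈ (∅ : Set (Subgroup G)), U L : Subgroup G) = ⊥ := by simp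
      rw [hb]
      exact IsPGroup.of_bot
    | @insert L B hLB _ ih =>
      intro hsub
      rw [iSup_insert]
      have hL := hsub (Set.mem_insert _ _)
      refine IsPGroup.to_sup_of_normal_left' (hU L hL.1 hL.2.1 hL.2.2)
        (ih fun M hM => hsub (Set.mem_insert_of_mem _ hM)) ?_
      refine iSup₂_le fun M hM => ?_
      have hM' := hsub (Set.mem_insert_of_mem _ hM)
      intro y hy
      have hne : L ≠ M := by
        rintro rfl
        exact hLB hM
      refine mem_of_comm fun x hx => ?_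
      exact (hF.comm L hL.1 M hM'.1 hne x (hUL L hL.1 hL.2.1 hL.2.2 hx) y
        (hUL M hM'.1 hM'.2.1 hM'.2.2 hy)).symm
  set W : Subgroup G := ⨆ L ∈ {L | L ∈ F ∧ L ∉ S ∧ L ∉ D}, U L with hW
  have hWp : IsPGroup r W := hgrp _ (Set.toFinite _) (Set.Subset.refl _)
  have hWC : W ≤ Cen S := by
    refine iSup₂_le fun M hM => ?_
    exact (hUL M hM.1 hM.2.1 hM.2.2).trans (hF.le_Cen hSF hM.1 hM.2.1)
  have hWR : ∀ u ∈ W, ∀ x ∈ Rest F D, u * x = x * u := by
    have h1 : W ≤ centralizer ((Rest F D : Subgroup G) : Set G) := by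
      refine iSup₂_le fun M hM => ?_
      intro u hu
      rw [mem_centralizer_iff]
      intro x hx
      exact ((mem_centralizer_iff.1 (mem_Rest.1 hx M hM.1 hM.2.2)) u
        (hUL M hM.1 hM.2.1 hM.2.2 hu)).symm
    intro u hu x hx
    exact ((mem_centralizer_iff.1 (h1 hu)) x hx).symm
  have hWz : W ≤ centralizer ({z} : Set G) := by
    intro u hu
    rw [mem_centralizer_iff]
    intro y hy
    rw [Set.mem_singleton_iff.1 hy]
    exact (hWR u hu z hz).symm
  have hmod := eu_mod (r := r) (S := Ain p (Cen S ⊓ centralizer {z})) W hWp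
    fun u hu E hE => cj_mem_Ain (Subgroup.mem_inf.2 ⟨hWC hu, hWz hu⟩) hE
  have h1 : {E | E ∈ Ain p (Cen S ⊓ centralizer {z}) ∧ W ≤ normalizer (E : Set G)} =
      Ain p (Rest F D ⊓ centralizer {z}) := by
    ext E
    constructor
    · rintro ⟨⟨h1, h2⟩, h3⟩
      refine ⟨h1, le_inf (le_Rest fun L hL hLD => ?_) (h2.trans inf_le_right)⟩
      by_cases hLS : L ∈ S
      · exact fun x hx => mem_Cen.1 (Subgroup.mem_inf.1 (h2 hx)).1 L hLS
      · have hle : U L ≤ W :=
          le_iSup₂_of_le (f := fun L (_ : L ∈ {L | L ∈ F ∧ L ∉ S ∧ L ∉ D}) => U L) L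
            ⟨hL, hLS, hLD⟩ le_rfl
        exact free_spec hrp (hF.compLike hL) (hUL L hL hLS hLD) (hU L hL hLS hLD)
          (hfree L hL hLS hLD) E h1 (hle.trans h3)
    · rintro ⟨h1, h2⟩
      refine ⟨⟨h1, le_inf ((h2.trans inf_le_left).trans hRC) (h2.trans inf_le_right)⟩, ?_⟩
      intro u hu
      exact mem_of_comm fun y hy => hWR u hu y (Subgroup.mem_inf.1 (h2 hy)).1
  rwa [h1] at hmod

open Classical in
/-- **Weighted sums of Lefschetz numbers.** -/
theorem weight_main [hp : Fact p.Prime] [Finite G] (hF : Family p F) (hz : GoodElement p F D z)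
    (hw : FreeWeight p (F \ D) T φ) {r : ℕ} (hrp : r ≠ p)
    (hno : ¬ (r : ℤ) ∣ eu (ApS p (Rest F D ⊓ centralizer {z} : Subgroup G)))
    (hrem : ∀ L ∈ F, L ∈ D ∨ L ∈ T ∨ Removable 𝕜 p L ∨ (r.Prime ∧ FreeSub p r L)) :
    HQ 𝕜 p G := by
  have : Fintype G := Fintype.ofFinite G
  have : Fintype T := Fintype.ofFinite T
  have hTF : T ⊆ F := fun L hL => (hw.sub hL).1
  have hTD : ∀ L ∈ T, L ∉ D := fun L hL => (hw.sub hL).2
  have hconj : ∀ L ∈ T, ∀ g : G, cj g L ∈ T := hw.conj
  set S : Set (Subgroup G) := {L | L ∈ F ∧ L ∉ D ∧ L ∉ T ∧ Removable 𝕜 p L} with hS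
  set H : Subgroup G := Cen S with hH
  rw [HQ_iff]
  refine remove hF (T := S) (fun L hL => hL.1) (fun L hL => hL.2.2.2)
    (NA_of_rat (Set.toFinite _) ?_)
  by_contra hac
  apply hno
  rw [← eu_sub]
  -- `z` and the members of `T` lie in `H`
  have hzH : z ∈ H := mem_Cen.2 fun M hM => mem_Rest.1 hz.rest M hM.1 hM.2.1
  have hTH : sSup T ≤ H := sSup_le fun L hL =>
    hF.le_Cen (fun M hM => hM.1) (hTF hL) fun h => h.2.2.1 hL
  have hzT : ∀ L ∈ T, z ∈ centralizer (L : Set G) := fun L hL =>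
    mem_Rest.1 hz.rest L (hTF hL) (hTD L hL)
  -- the members of `𝒜ₚ(C_H(z)) ∪ {1}`
  set A : Finset (Subgroup G) :=
    (Set.toFinite {X | X ∈ ApB p G ∧ X ≤ H ⊓ centralizer {z}}).toFinset with hA
  have hAm : ∀ X, X ∈ A ↔ X ∈ ApB p G ∧ X ≤ H ⊓ centralizer {z} := fun X => by
    rw [hA, Set.Finite.mem_toFinset]; rfl
  -- the identity for one choice
  have hone : ∀ c : T → G, (∀ L : T, c L ∈ L.1) → (∀ L : T, φ (c L) ≠ 0) →
      ∑ X ∈ A, (if InvC hconj X c then (mb p X : ℤ) else 0) = 0 := by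
    intro c hc hφ
    set c' : Subgroup G → G := fun L => if h : L ∈ T then c ⟨L, h⟩ else 1 with hc'
    have hcc : ∀ L : T, c' L.1 = c L := fun L => by
      rw [hc']
      exact dif_pos L.2
    have hc1 : ∀ L ∈ T, c' L ∈ L := fun L hL => by
      rw [hcc ⟨L, hL⟩]
      exact hc ⟨L, hL⟩
    have hφ1 : ∀ L ∈ T, φ (c' L) ≠ 0 := fun L hL => by
      rw [hcc ⟨L, hL⟩]
      exact hφ ⟨L, hL⟩
    obtain ⟨d, hd, hdc⟩ := exists_prod hF hTF c' hc1
    have hdH : d ∈ H := hTH hd
    have h1 := eu_fixed_zero hac (H.mul_mem hzH hdH)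
    have h2 : eu {E | E ∈ Ain p H ∧ z * d ∈ normalizer (E : Set G)} =
        eu (Ain p (H ⊓ centralizer {z * d})) := by
      refine eu_coreflect (fun E => E ⊓ centralizer {z * d}) _ _ _ (Set.toFinite _) rfl ?_ ?_ ?_ ?_
      · rintro E ⟨hE1, hE2⟩
        refine ⟨⟨hE1, hE2.trans inf_le_left⟩, mem_of_comm fun y hy => ?_⟩
        exact (mem_centralizer_iff.1 (Subgroup.mem_inf.1 (hE2 hy)).2) _ rfl
      · rintro E ⟨hE, hE3⟩
        exact ⟨fixed_prod hF hz hw hc1 hφ1 hd hdc hE.1 hE3, le_inf (inf_le_left.trans hE.2)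
          inf_le_right⟩
      · intro E _
        exact inf_le_left
      · rintro E _ Y ⟨hY1, hY2⟩ hYE
        exact le_inf hYE (hY2.trans inf_le_right)
    rw [h2, eu_Ain] at h1
    rw [← Finset.sum_filter, ← h1]
    refine Finset.sum_congr ?_ fun _ _ => rfl
    ext X
    rw [Finset.mem_filter, hAm, Set.Finite.mem_toFinset]
    have hone1 : ∀ x ∈ H, (x ∈ centralizer ({z * d} : Set G) ↔
        x ∈ centralizer ({z} : Set G) ∧ x * d * x⁻¹ = d) := by
      intro x hx
      have hs : ∀ w : G, x ∈ centralizer ({w} : Set G) ↔ x * w * x⁻¹ = w := by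
        intro w
        rw [mem_centralizer_iff]
        constructor
        · intro h
          rw [← h w rfl, mul_inv_cancel_right]
        · intro h y hy
          rw [Set.mem_singleton_iff.1 hy]
          exact (mul_inv_eq_iff_eq_mul.1 h).symm
      rw [hs, hs]
      constructor
      · intro h
        have h3 : (x * z * x⁻¹) * (x * d * x⁻¹) = z * d := by rw [← h]; group
        have h4 : z⁻¹ * (x * z * x⁻¹) = d * (x * d * x⁻¹)⁻¹ := by
          calc z⁻¹ * (x * z * x⁻¹) = z⁻¹ * ((x * z * x⁻¹) * (x * d * x⁻¹)) * (x * d * x⁻¹)⁻¹ := by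
                group
            _ = z⁻¹ * (z * d) * (x * d * x⁻¹)⁻¹ := by rw [h3]
            _ = d * (x * d * x⁻¹)⁻¹ := by group
        have h5 : d * (x * d * x⁻¹)⁻¹ = 1 := by
          refine hF.center_trivial hTF (mul_mem hd (inv_mem (sSup_conj hconj x hd))) ?_
          intro L hL
          rw [← h4]
          have h6 : x * z * x⁻¹ ∈ centralizer (L : Set G) := by
            have h7 := cj_centralizer (e := x) (hzT _ (hconj L hL x⁻¹))
            have h8 : cj x (cj x⁻¹ L) = L := by rw [← cj_mul, mul_inv_cancel, cj_one]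
            rwa [h8] at h7
          exact (centralizer (L : Set G)).mul_mem
            ((centralizer (L : Set G)).inv_mem (hzT L hL)) h6
        have h6 : x * d * x⁻¹ = d := (mul_inv_eq_one.1 h5).symm
        refine ⟨?_, h6⟩
        rw [h6] at h3
        exact mul_right_cancel h3
      · rintro ⟨h3, h4⟩
        calc x * (z * d) * x⁻¹ = (x * z * x⁻¹) * (x * d * x⁻¹) := by group
          _ = z * d := by rw [h3, h4]
    have hone2 : ∀ x : G, x * d * x⁻¹ = d ↔ ∀ L : T, x * c L * x⁻¹ = c (mv hconj x L) := by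
      intro x
      rw [comm_iff_choice hF hTF hconj hc1 hd hdc]
      constructor
      · intro h L
        have h3 := h L.1 L.2
        rw [hcc L] at h3
        rw [h3]
        exact hcc (mv hconj x L)
      · intro h L hL
        rw [hcc ⟨L, hL⟩, h ⟨L, hL⟩]
        exact (hcc (mv hconj x ⟨L, hL⟩)).symm
    constructor
    · rintro ⟨⟨h3, h4⟩, h5⟩
      refine ⟨h3, fun x hx => ?_⟩
      have h6 := Subgroup.mem_inf.1 (h4 hx)
      exact Subgroup.mem_inf.2 ⟨h6.1, (hone1 x h6.1).2 ⟨h6.2, (hone2 x).2 (h5.1 x hx)⟩⟩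
    · rintro ⟨h3, h4⟩
      refine ⟨⟨h3, fun x hx => ?_⟩, fun x hx => ?_, hc⟩
      · have h6 := Subgroup.mem_inf.1 (h4 hx)
        exact Subgroup.mem_inf.2 ⟨h6.1, ((hone1 x h6.1).1 h6.2).1⟩
      · have h6 := Subgroup.mem_inf.1 (h4 hx)
        exact (hone2 x).1 ((hone1 x h6.1).1 h6.2).2
  -- the sum over all choices
  have hsum : ∀ L : T, ∑ a ∈ Finset.univ.filter (fun a : G => a ∈ L.1), φ a ≠ 0 := by
    intro L h
    apply hw.sum L.1 L.2
    rw [finsum_eq_sum_of_fintype, ← h]
    exact (Finset.sum_subtype _ (fun x => by simp) φ).symm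
  have hpow : ∀ L : T, ∀ i, ∑ a ∈ Finset.univ.filter (fun a : G => a ∈ L.1),
      φ a ^ p ^ (i + 1) = 0 := by
    intro L i
    rw [← hw.pow L.1 L.2 i, finsum_eq_sum_of_fintype]
    exact Finset.sum_subtype _ (fun x => by simp) fun a => φ a ^ p ^ (i + 1)
  have hSX : ∀ X ∈ A, ∑ c : T → G, (if InvC hconj X c then ∏ L, φ (c L) else 0) =
      if (∀ L ∈ T, X ≤ centralizer (L : Set G)) then
        ∏ L : T, ∑ a ∈ Finset.univ.filter (fun a : G => a ∈ L.1), φ a else 0 := by
    intro X hX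
    have hX' := (hAm X).1 hX
    split_ifs with h
    · rw [Finset.prod_univ_sum, ← Finset.sum_filter]
      refine Finset.sum_congr ?_ fun _ _ => rfl
      ext c
      rw [Finset.mem_filter, Fintype.mem_piFinset]
      constructor
      · intro h1 L
        rw [Finset.mem_filter]
        exact ⟨Finset.mem_univ _, h1.2.2 L⟩
      · intro h1
        have h2 : ∀ L : T, c L ∈ L.1 := fun L => (Finset.mem_filter.1 (h1 L)).2
        refine ⟨Finset.mem_univ _, fun x hx L => ?_, h2⟩
        have h3 := mem_centralizer_iff.1 (h L.1 L.2 hx)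
        have h4 : mv hconj x L = L :=
          Subtype.ext (cj_eq_iff.2 (mem_of_comm fun y hy => (h3 y hy).symm))
        rw [h4, ← h3 _ (h2 L), mul_inv_cancel_right]
    · push Not at h
      obtain ⟨L, hL, hXL⟩ := h
      have hXp : ∀ x ∈ X, x ^ p = 1 := by
        rcases hX'.1 with h1 | h1
        · intro x hx
          rw [h1, mem_bot] at hx
          rw [hx, one_pow]
        · exact h1.2.2
      refine sum_inv_zero hconj hX'.1 φ (fun x hx a => hw.inv x a (hXp x hx)) ⟨L, hL⟩ hXL ?_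
        (hpow ⟨L, hL⟩)
      intro a ha hφ E hE hEX hEN hcomm
      refine hw.free L hL a ha hφ E hEN hE fun e he => ?_
      rw [hcomm e he, mul_inv_cancel_right]
      exact mem_sup_left he
  -- conclusion
  have htot : (∏ L : T, ∑ a ∈ Finset.univ.filter (fun a : G => a ∈ L.1), φ a) *
      ((eu (Ain p (Cen (S ∪ T) ⊓ centralizer {z})) : ℤ) : ℂ) = 0 := by
    have h1 : eu (Ain p (Cen (S ∪ T) ⊓ centralizer {z})) =
        ∑ X ∈ A, if (∀ L ∈ T, X ≤ centralizer (L : Set G)) then mb p X else 0 := by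
      rw [eu_Ain, ← Finset.sum_filter]
      refine Finset.sum_congr ?_ fun _ _ => rfl
      ext X
      rw [Finset.mem_filter, hAm, Set.Finite.mem_toFinset]
      constructor
      · rintro ⟨h1, h2⟩
        refine ⟨⟨h1, fun x hx => ?_⟩, fun L hL x hx => ?_⟩
        · have h3 := Subgroup.mem_inf.1 (h2 hx)
          exact Subgroup.mem_inf.2 ⟨mem_Cen.2 fun M hM => mem_Cen.1 h3.1 M (Or.inl hM), h3.2⟩
        · exact mem_Cen.1 (Subgroup.mem_inf.1 (h2 hx)).1 L (Or.inr hL)
      · rintro ⟨⟨h1, h2⟩, h3⟩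
        refine ⟨h1, fun x hx => ?_⟩
        have h4 := Subgroup.mem_inf.1 (h2 hx)
        refine Subgroup.mem_inf.2 ⟨mem_Cen.2 fun M hM => ?_, h4.2⟩
        rcases hM with hM | hM
        · exact mem_Cen.1 h4.1 M hM
        · exact h3 M hM hx
    rw [h1, Int.cast_sum, Finset.mul_sum]
    have h2 : ∀ X ∈ A, (∏ L : T, ∑ a ∈ Finset.univ.filter (fun a : G => a ∈ L.1), φ a) *
        (((if (∀ L ∈ T, X ≤ centralizer (L : Set G)) then mb p X else 0 : ℤ)) : ℂ) =
        ∑ c : T → G, (∏ L, φ (c L)) * (if InvC hconj X c then (mb p X : ℂ) else 0) := by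
      intro X hX
      have h3 : ∀ c : T → G, (∏ L, φ (c L)) * (if InvC hconj X c then (mb p X : ℂ) else 0) =
          (if InvC hconj X c then ∏ L, φ (c L) else 0) * (mb p X : ℂ) := by
        intro c
        split_ifs <;> ring
      rw [Finset.sum_congr rfl fun c _ => h3 c, ← Finset.sum_mul, hSX X hX]
      split_ifs <;> simp
    rw [Finset.sum_congr rfl h2, Finset.sum_comm]
    refine Finset.sum_eq_zero fun c _ => ?_
    rw [← Finset.mul_sum]
    by_cases hc : ∀ L : T, c L ∈ L.1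
    swap
    · rw [Finset.sum_eq_zero, mul_zero]
      intro X _
      rw [if_neg fun h => hc h.2]
    by_cases hφ : ∀ L : T, φ (c L) ≠ 0
    · have h3 := hone c hc hφ
      have h4 : ∑ X ∈ A, (if InvC hconj X c then (mb p X : ℂ) else 0) =
          ((∑ X ∈ A, (if InvC hconj X c then (mb p X : ℤ) else 0) : ℤ) : ℂ) := by
        rw [Int.cast_sum]
        refine Finset.sum_congr rfl fun X _ => ?_
        split_ifs <;> simp
      rw [h4, h3, Int.cast_zero, mul_zero]
    · push Not at hφ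
      obtain ⟨L, hL⟩ := hφ
      rw [Finset.prod_eq_zero (Finset.mem_univ L) hL, zero_mul]
  have hzero : eu (Ain p (Cen (S ∪ T) ⊓ centralizer {z})) = 0 := by
    rcases mul_eq_zero.1 htot with h | h
    · rw [Finset.prod_eq_zero_iff] at h
      obtain ⟨L, _, hL⟩ := h
      exact absurd hL (hsum L)
    · exact_mod_cast h
  have hmod := mod_r (z := z) (r := r) (D := D) hF (S := S ∪ T)
    (fun L hL => hL.elim (fun h => h.1) fun h => hTF h)
    (fun L hL => hL.elim (fun h => h.2.1) fun h => hTD L h) hz.rest hrp ?_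
  · rw [hzero, zero_sub, dvd_neg] at hmod
    exact hmod
  · intro L hL hLS hLD
    rcases hrem L hL with h | h | h | h
    · exact absurd h hLD
    · exact absurd (Or.inr h) hLS
    · by_cases hLT : L ∈ T
      · exact absurd (Or.inr hLT) hLS
      · exact absurd (Or.inl ⟨hL, hLD, hLT, h⟩) hLS
    · exact h

end

end Vale.Agent.P240.K
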