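import Vale.Agent.P240.K.WSum

namespace Vale.Agent.P240.K

open Finsupp Subgroup

variable {𝕜 : Type*} [Field 𝕜]

universe u

section
variable {G : Type u} [Group G] {p : ℕ}

/-- Lefschetz numbers of an acyclic `𝒜ₚ` -/
lemma eu_fixed_zero [Finite G] {H : Subgroup G} (hac : ¬ NA ℚ (Ain p H)) {w : G} (hw : w ∈ H) :
    eu {E | E ∈ Ain p H ∧ w ∈ normalizer (E : Set G)} = 0 := by
  have hS : (Ain p H).Finite := Set.toFinite _
  have hlef := lefschetz (σ := cj w) (S := Ain p H) (fun E hE => cj_mem_Ain hw hE)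
    (fun x _ y _ h => cj_lt.2 h) hS hac (Nat.lt_succ_self _)
  have hfixfin : {E | E ∈ Ain p H ∧ cj w E = E}.Finite := Set.toFinite _
  rw [K.eu_eq hfixfin] at hlef
  swap
  · rw [← Nat.card_eq_card_finite_toFinset hS]
    exact (Nat.card_mono hS fun E hE => hE.1).trans (Nat.le_succ _)
  have h1 : {E | E ∈ Ain p H ∧ w ∈ normalizer (E : Set G)} =
      {E | E ∈ Ain p H ∧ cj w E = E} := by
    ext E
    exact ⟨fun h => ⟨h.1, cj_eq_iff.2 h.2⟩, fun h => ⟨h.1, cj_eq_iff.1 h.2⟩⟩
  rw [h1, hlef]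

/-- A member of `𝒜ₚ` normalized by `w` contains elements commuting with `w`, if this is true for
the part normalizing all members of the family. -/
lemma fixed_of_norm [Finite G] {F : Set (Subgroup G)} (hF : Family p F)
    {w : G} (hw : ∀ L ∈ F, w ∈ normalizer (L : Set G)) {E : Subgroup G} (hE1 : E ∈ ApS p G)
    (hwE : w ∈ normalizer (E : Set G))
    (hfix : ∀ E₀ ∈ ApS p G, E₀ ≤ E → (∀ L ∈ F, E₀ ≤ normalizer (L : Set G)) →
      (∀ e ∈ E₀, w * e * w⁻¹ ∈ E₀) → (∀ e ∈ E₀, w * e = e * w → e = 1) → False) :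
    E ⊓ centralizer {w} ∈ ApS p G := by
  have hwE' : ∀ e ∈ E, w * e * w⁻¹ ∈ E := fun e he => (mem_normalizer_iff.1 hwE e).1 he
  refine mem_ApS_of_le hE1 inf_le_left ?_
  intro hbot
  have hfix1 : ∀ x ∈ E, w * x = x * w → x = 1 := by
    intro x hx hxd
    have h1 : x ∈ E ⊓ centralizer ({w} : Set G) := by
      refine Subgroup.mem_inf.2 ⟨hx, ?_⟩
      rw [mem_centralizer_iff]
      intro y hy
      rw [Set.mem_singleton_iff.1 hy]
      exact hxd
    rw [hbot, mem_bot] at h1
    exact h1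
  set E0 : Subgroup G := E ⊓ ⨅ L ∈ F, normalizer (L : Set G) with hE0
  have hE0E : E0 ≤ E := inf_le_left
  have hE0N : ∀ L ∈ F, E0 ≤ normalizer (L : Set G) := fun L hL =>
    inf_le_right.trans (iInf₂_le L hL)
  have hE0bot : E0 = ⊥ := by
    by_contra hE0ne
    refine hfix E0 (mem_ApS_of_le hE1 hE0E hE0ne) hE0E hE0N ?_ fun e he => hfix1 e (hE0E he)
    intro e he
    refine Subgroup.mem_inf.2 ⟨hwE' e (hE0E he), ?_⟩
    rw [mem_iInf]
    intro L
    rw [mem_iInf]
    intro hL
    exact mul_mem (mul_mem (hw L hL) (hE0N L hL he)) (inv_mem (hw L hL))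
  apply hE1.1
  rw [eq_bot_iff]
  intro e he
  rw [mem_bot]
  refine hfix1 e he ?_
  have hf1 : w * e * w⁻¹ * e⁻¹ ∈ E0 := by
    refine Subgroup.mem_inf.2 ⟨mul_mem (hwE' e he) (inv_mem he), ?_⟩
    rw [mem_iInf]
    intro L
    rw [mem_iInf]
    intro hL
    have h1 : w ∈ normalizer ((cj e⁻¹ L : Subgroup G) : Set G) := hw _ (hF.conj L hL e⁻¹)
    rw [normalizer_cj, inv_inv] at h1
    have h2 : w * e * w⁻¹ * e⁻¹ = w * (e * w * e⁻¹)⁻¹ := by group
    rw [h2]
    exact mul_mem (hw L hL) (inv_mem h1)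
  rw [hE0bot, mem_bot] at hf1
  exact mul_inv_eq_iff_eq_mul.1 (mul_inv_eq_one.1 hf1)

variable {F D T : Set (Subgroup G)} {φ : G → ℂ} {z : G}

lemma FreeWeight.not_dvd [hp : Fact p.Prime] [Finite G] (hF : Family p F)
    (hw : FreeWeight p (F \ D) T φ) {L : Subgroup G} (hL : L ∈ T) {a : G} (ha : a ∈ L)
    (hφ : φ a ≠ 0) : ¬ p ∣ orderOf a := by
  intro hdvd
  obtain ⟨k, hk⟩ := hdvd
  have hk0 : k ≠ 0 := by
    rintro rfl
    rw [mul_zero] at hk
    exact (orderOf_pos a).ne' hk
  have hbp : (a ^ k) ^ p = 1 := by rw [← pow_mul, mul_comm, ← hk, pow_orderOf_eq_one]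
  have hb1 : a ^ k ≠ 1 := by
    intro h
    have h1 := orderOf_dvd_of_pow_eq_one h
    have h2 := Nat.le_of_dvd (Nat.pos_of_ne_zero hk0) h1
    rw [hk] at h2
    have h3 := hp.out.two_le
    nlinarith [Nat.pos_of_ne_zero hk0]
  have hbL : a ^ k ∈ L := pow_mem ha k
  have hLF := (hw.sub hL).1
  have h1 : zpowers (a ^ k) ≤ centralizer (L : Set G) := by
    refine hw.free L hL a ha hφ _ ?_ (zpowers_mem_ApS hbp hb1) ?_
    · rw [zpowers_le]
      exact Subgroup.le_normalizer hbL
    · rintro _ ⟨i, rfl⟩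
      refine mem_sup_left ?_
      have : a * (a ^ k) ^ i * a⁻¹ = (a ^ k) ^ i := by
        have h2 : Commute a ((a ^ k) ^ i) := ((Commute.refl a).pow_right k).zpow_right i
        rw [h2.eq, mul_inv_cancel_right]
      change a * (a ^ k) ^ i * a⁻¹ ∈ zpowers (a ^ k)
      rw [this]
      exact ⟨i, rfl⟩
  have h2 : a ^ k ∈ L ⊓ centralizer (L : Set G) := ⟨hbL, h1 (mem_zpowers _)⟩
  rw [hF.centre L hLF, mem_bot] at h2
  exact hb1 h2

/-- the fixed points of the product of a good element and a free choice -/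
lemma fixed_prod [hp : Fact p.Prime] [Finite G] (hF : Family p F) (hz : GoodElement p F D z)
    (hw : FreeWeight p (F \ D) T φ) {c : Subgroup G → G} (hc : ∀ L ∈ T, c L ∈ L)
    (hφ : ∀ L ∈ T, φ (c L) ≠ 0) {d : G} (hd : d ∈ sSup T)
    (hdc : ∀ L ∈ T, ∃ c' ∈ centralizer (L : Set G), d = c L * c')
    {E : Subgroup G} (hE : E ∈ ApS p G)
    (hwE : z * d ∈ normalizer (E : Set G)) : E ⊓ centralizer {z * d} ∈ ApS p G := by
  have hTF : T ⊆ F := fun L hL => (hw.sub hL).1
  have hTD : ∀ L ∈ T, L ∉ D := fun L hL => (hw.sub hL).2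
  have hzT : ∀ L ∈ T, z ∈ centralizer (L : Set G) := fun L hL =>
    mem_Rest.1 hz.rest L (hTF hL) (hTD L hL)
  have hzsup : ∀ x ∈ sSup T, z * x = x * z := by
    have h1 : sSup T ≤ centralizer ({z} : Set G) := by
      refine sSup_le fun L hL => ?_
      intro x hx
      rw [mem_centralizer_iff]
      intro y hy
      rw [Set.mem_singleton_iff.1 hy]
      exact ((mem_centralizer_iff.1 (hzT L hL)) x hx).symm
    exact fun x hx => (mem_centralizer_iff.1 (h1 hx)) z rfl
  have hdN : ∀ L ∈ F, d ∈ normalizer (L : Set G) := fun L hL => sSup_le_norm hF hTF hL hd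
  have hdC : ∀ L ∈ F, L ∉ T → d ∈ centralizer (L : Set G) := by
    intro L hL hLT
    have : sSup T ≤ centralizer (L : Set G) := by
      refine sSup_le fun M hM => ?_
      intro x hx
      rw [mem_centralizer_iff]
      intro y hy
      refine hF.comm L hL M (hTF hM) ?_ y hy x hx
      rintro rfl
      exact hLT hM
    exact this hd
  have hzN : ∀ L ∈ F, z ∈ normalizer (L : Set G) := by
    intro L hL
    by_cases hLD : L ∈ D
    · exact hz.norm L hLD
    · exact mem_of_comm fun y hy =>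
        ((mem_centralizer_iff.1 (mem_Rest.1 hz.rest L hL hLD)) y hy).symm
  have hwN : ∀ L ∈ F, z * d ∈ normalizer (L : Set G) := fun L hL => mul_mem (hzN L hL) (hdN L hL)
  -- the order is prime to `p`
  have hord : Nat.Coprime (orderOf (z * d)) p := by
    have hd1 : ∃ m, ¬ p ∣ m ∧ d ^ m = 1 := by
      classical
      refine ⟨∏ L ∈ (Set.toFinite T).toFinset, orderOf (c L), ?_, ?_⟩
      · intro h
        obtain ⟨L, hL, h1⟩ := (hp.out.prime.dvd_finsetProd_iff _).1 h
        rw [Set.Finite.mem_toFinset] at hL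
        exact hw.not_dvd hF hL (hc L hL) (hφ L hL) h1
      · refine hF.center_trivial hTF (pow_mem hd _) fun L hL => ?_
        obtain ⟨c', hc', hdc'⟩ := hdc L hL
        have h1 : Commute (c L) c' := (mem_centralizer_iff.1 hc') _ (hc L hL)
        rw [hdc', h1.mul_pow]
        have h2 : (c L) ^ (∏ M ∈ (Set.toFinite T).toFinset, orderOf (c M)) = 1 := by
          rw [← orderOf_dvd_iff_pow_eq_one]
          exact Finset.dvd_prod_of_mem (fun M => orderOf (c M))
            ((Set.Finite.mem_toFinset _).2 hL)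
        rw [h2, one_mul]
        exact pow_mem hc' _
    obtain ⟨m, hm1, hm2⟩ := hd1
    have hcomm : Commute z d := hzsup d hd
    have h1 : (z * d) ^ (orderOf z * m) = 1 := by
      rw [hcomm.mul_pow, pow_mul, pow_orderOf_eq_one, one_pow, mul_comm (orderOf z) m, pow_mul,
        hm2, one_pow, one_mul]
    have h2 := orderOf_dvd_of_pow_eq_one h1
    have h3 : ¬ p ∣ orderOf z * m := fun h => (hp.out.dvd_mul.1 h).elim hz.order hm1
    exact ((Nat.Prime.coprime_iff_not_dvd hp.out).2 fun h => h3 (h.trans h2)).symm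
  refine fixed_of_norm hF hwN hE hwE ?_
  intro E0 hE0A hE0E hE0N hwE0 hfix
  -- members outside `D ∪ T`
  have hR1 : E0 ≤ Rest F (D ∪ T) := by
    refine le_Rest fun L hL hLDT => ?_
    have hwC : z * d ∈ centralizer (L : Set G) :=
      (centralizer (L : Set G)).mul_mem (mem_Rest.1 hz.rest L hL fun h => hLDT (Or.inl h))
        (hdC L hL fun h => hLDT (Or.inr h))
    intro e he
    refine fixed_mod (p := p) (E := E0) (A := centralizer (L : Set G)) (d := z * d) hE0A.2.1
      hE0A.2.2 hwE0 (fun y hy => conj_centralizer (hwN L hL) (Subgroup.mem_inf.1 hy).2)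
      hord hfix he ?_
    have h1 : z * d * e * (z * d)⁻¹ * e⁻¹ = z * d * (e * (z * d)⁻¹ * e⁻¹) := by group
    rw [h1]
    exact (centralizer (L : Set G)).mul_mem hwC
      (conj_centralizer (hE0N L hL he) ((centralizer (L : Set G)).inv_mem hwC))
  -- members of `T`
  have hT : ∀ L ∈ T, E0 ≤ centralizer (L : Set G) := by
    intro L hL
    have hLF := hTF hL
    refine hw.free L hL _ (hc L hL) (hφ L hL) E0 (hE0N L hLF) hE0A ?_
    intro e he
    obtain ⟨c', hc', hdc'⟩ := hdc L hL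
    -- `c L = (z d) * k` with `k` centralizing `L`
    have hcomm : Commute (c L) c' := (mem_centralizer_iff.1 hc') _ (hc L hL)
    have hk : z⁻¹ * c'⁻¹ ∈ centralizer (L : Set G) :=
      (centralizer (L : Set G)).mul_mem ((centralizer (L : Set G)).inv_mem (hzT L hL))
        ((centralizer (L : Set G)).inv_mem hc')
    have hzc : z * c L = c L * z := ((mem_centralizer_iff.1 (hzT L hL)) _ (hc L hL)).symm
    have hzc' : z * c' = c' * z := by
      have h1 : z * (c L * c') = (c L * c') * z := by rw [← hdc']; exact hzsup d hd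
      have h2 : c L * (z * c') = c L * (c' * z) := by
        rw [← mul_assoc, ← hzc, mul_assoc, h1, mul_assoc]
      exact mul_left_cancel h2
    have h1 : c L = z * d * (z⁻¹ * c'⁻¹) := by
      rw [hdc']
      calc c L = c L * (z * z⁻¹) * (c' * c'⁻¹) := by group
        _ = (c L * z) * (z⁻¹ * c') * c'⁻¹ := by group
        _ = (z * c L) * (c' * z⁻¹) * c'⁻¹ := by
          have h2 : z⁻¹ * c' = c' * z⁻¹ := by
            have : z⁻¹ * (z * c') * z⁻¹ = z⁻¹ * (c' * z) * z⁻¹ := by rw [hzc']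
            calc z⁻¹ * c' = z⁻¹ * (c' * z) * z⁻¹ := by group
              _ = z⁻¹ * (z * c') * z⁻¹ := this.symm
              _ = c' * z⁻¹ := by group
          rw [hzc, h2]
        _ = z * (c L * c') * (z⁻¹ * c'⁻¹) := by group
    set k := z⁻¹ * c'⁻¹ with hkdef
    have hwe := hwE0 e he
    have h2 : c L * e * (c L)⁻¹ = (z * d * e * (z * d)⁻¹) *
        ((z * d * e * (z * d)⁻¹)⁻¹ * (z * d * (k * (e * k⁻¹ * e⁻¹)) * (z * d)⁻¹) *
          (z * d * e * (z * d)⁻¹)) := by
      conv_lhs => rw [h1]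
      group
    rw [h2]
    refine mul_mem (mem_sup_left hwe) (mem_sup_right ?_)
    have h5 : k * (e * k⁻¹ * e⁻¹) ∈ centralizer (L : Set G) :=
      (centralizer (L : Set G)).mul_mem hk
        (conj_centralizer (hE0N L hLF he) ((centralizer (L : Set G)).inv_mem hk))
    have h6 := conj_centralizer (hwN L hLF) h5
    have h7 := conj_centralizer (inv_mem (hE0N L hLF hwe)) h6
    simpa using h7
  have hRD : E0 ≤ Rest F D := by
    refine le_Rest fun M hM hMD => ?_
    by_cases hMT : M ∈ T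
    · exact hT M hMT
    · exact fun x hx => mem_Rest.1 (hR1 hx) M hM fun h => h.elim hMD hMT
  -- `d` centralizes `E0`
  have hdE0 : ∀ e ∈ E0, d * e = e * d := by
    intro e he
    have h1 : sSup T ≤ centralizer ({e} : Set G) := by
      refine sSup_le fun L hL => ?_
      intro x hx
      rw [mem_centralizer_iff]
      intro y hy
      rw [Set.mem_singleton_iff.1 hy]
      exact ((mem_centralizer_iff.1 (hT L hL he)) x hx).symm
    exact ((mem_centralizer_iff.1 (h1 hd)) e rfl).symm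
  have hzw : ∀ e ∈ E0, z * e * z⁻¹ = z * d * e * (z * d)⁻¹ := by
    intro e he
    calc z * e * z⁻¹ = z * (e * d) * d⁻¹ * z⁻¹ := by group
      _ = z * (d * e) * d⁻¹ * z⁻¹ := by rw [hdE0 e he]
      _ = z * d * e * (z * d)⁻¹ := by group
  have hzE0 : ∀ e ∈ E0, z * e * z⁻¹ ∈ E0 := fun e he => by
    rw [hzw e he]
    exact hwE0 e he
  have hzord : Nat.Coprime (orderOf z) p :=
    ((Nat.Prime.coprime_iff_not_dvd hp.out).2 hz.order).symm
  -- members of `D`
  have hD : ∀ L ∈ D, E0 ≤ centralizer (L : Set G) := by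
    intro L hL
    refine hz.fix L hL E0 (le_inf hRD (hE0N L (hz.sub hL))) hE0A
      (fun e he => mem_sup_left (hzE0 e he)) ?_
    intro e he hcomm'
    refine fixed_mod (p := p) (E := E0) (A := centralizer (L : Set G)) (d := z) hE0A.2.1
      hE0A.2.2 hzE0 (fun y hy => conj_centralizer (hz.norm L hL) (Subgroup.mem_inf.1 hy).2)
      hzord (fun y hy h => hfix y hy ?_) he hcomm'
    rw [mul_assoc, hdE0 y hy, ← mul_assoc, h, mul_assoc]
  apply hE0A.1
  rw [eq_bot_iff]
  intro x hx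
  rw [mem_bot]
  have hxL : ∀ L ∈ F, x ∈ centralizer (L : Set G) := by
    intro L hL
    by_cases hLD : L ∈ D
    · exact hD L hLD hx
    · exact mem_Rest.1 (hRD hx) L hL hLD
  have hzx : z * x = x * z := hz.comm x (mem_Rest.2 fun L hL _ => hxL L hL) (hE0A.2.2 x hx)
  refine hfix x hx ?_
  rw [mul_assoc, hdE0 x hx, ← mul_assoc, hzx, mul_assoc]

end

end Vale.Agent.P240.K
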