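import Vale.Agent.P240.K.FreeEl

namespace Vale.Agent.P240.K

open Finsupp Subgroup

section
variable {G : Type*} [Group G] {p : ℕ} {D : Set (Subgroup G)}

/-- the action on the members of `D` -/
def mv (hconj : ∀ L ∈ D, ∀ g : G, cj g L ∈ D) (x : G) (L : D) : D := ⟨cj x L.1, hconj L.1 L.2 x⟩

/-- choices of elements of the members of `D` compatible with conjugation by `X` -/
def InvC (hconj : ∀ L ∈ D, ∀ g : G, cj g L ∈ D) (X : Subgroup G) (c : D → G) : Prop :=
  (∀ x ∈ X, ∀ L : D, x * c L * x⁻¹ = c (mv hconj x L)) ∧ ∀ L : D, c L ∈ L.1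

open Classical in
/-- the sum over one orbit -/
lemma orbit_sum [Fintype G] [Fintype D] (hconj : ∀ L ∈ D, ∀ g : G, cj g L ∈ D)
    {X : Subgroup G} (φ : G → ℂ) (hinv : ∀ x ∈ X, ∀ a, φ (x * a * x⁻¹) = φ a) (L₀ : D)
    (hN : X ⊓ normalizer (L₀.1 : Set G) ≤ centralizer (L₀.1 : Set G)) {m : ℕ}
    (hm : Fintype.card {L : D // ∃ x ∈ X, mv hconj x L₀ = L} = m) :
    ∑ u : {L : D // ∃ x ∈ X, mv hconj x L₀ = L} → G,
      (if (∀ x ∈ X, ∀ L M : {L : D // ∃ x ∈ X, mv hconj x L₀ = L}, mv hconj x L.1 = M.1 →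
        x * u L * x⁻¹ = u M) ∧ ∀ L, u L ∈ L.1.1 then ∏ L, φ (u L) else 0) =
      ∑ a ∈ Finset.univ.filter (fun a : G => a ∈ L₀.1), φ a ^ m := by
  rw [← Finset.sum_filter]
  have h1 : ∃ x ∈ X, mv hconj x L₀ = L₀ := ⟨1, X.one_mem, Subtype.ext (cj_one L₀.1)⟩
  choose t ht htL using fun L : {L : D // ∃ x ∈ X, mv hconj x L₀ = L} => L.2
  -- elements of `X` fixing `L₀`
  have hfix : ∀ y ∈ X, mv hconj y L₀ = L₀ → ∀ a ∈ L₀.1, y * a * y⁻¹ = a := by
    intro y hy hyL a ha
    have h2 : y ∈ normalizer (L₀.1 : Set G) := cj_eq_iff.1 (congrArg Subtype.val hyL)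
    have h3 := hN (Subgroup.mem_inf.2 ⟨hy, h2⟩)
    rw [mem_centralizer_iff] at h3
    rw [← h3 a ha, mul_inv_cancel_right]
  have hmv : ∀ x y : G, ∀ L : D, mv hconj (x * y) L = mv hconj x (mv hconj y L) :=
    fun x y L => Subtype.ext (cj_mul x y L.1)
  have hmv1 : ∀ x : G, ∀ L : D, mv hconj x⁻¹ (mv hconj x L) = L := fun x L => by
    rw [← hmv, inv_mul_cancel]
    exact Subtype.ext (cj_one L.1)
  refine Finset.sum_bij' (fun u _ => u ⟨L₀, h1⟩) (fun a _ L => t L * a * (t L)⁻¹) ?_ ?_ ?_ ?_ ?_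
  · intro u hu
    rw [Finset.mem_filter] at hu ⊢
    exact ⟨Finset.mem_univ _, hu.2.2 ⟨L₀, h1⟩⟩
  · intro a ha
    rw [Finset.mem_filter] at ha ⊢
    refine ⟨Finset.mem_univ _, ?_, ?_⟩
    · intro x hx L M hLM
      have h2 : (t M)⁻¹ * (x * t L) ∈ X := X.mul_mem (X.inv_mem (ht M)) (X.mul_mem hx (ht L))
      have h3 : mv hconj ((t M)⁻¹ * (x * t L)) L₀ = L₀ := by
        rw [hmv, hmv, htL, hLM, ← htL M, hmv1]
      have h4 := hfix _ h2 h3 a ha.2
      calc x * (t L * a * (t L)⁻¹) * x⁻¹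
          = t M * (((t M)⁻¹ * (x * t L)) * a * ((t M)⁻¹ * (x * t L))⁻¹) * (t M)⁻¹ := by group
        _ = t M * a * (t M)⁻¹ := by rw [h4]
    · intro L
      have h2 : cj (t L) L₀.1 = L.1.1 := congrArg Subtype.val (htL L)
      have h3 := cj_mul_mem (g := t L) ha.2
      rwa [h2] at h3
  · intro u hu
    rw [Finset.mem_filter] at hu
    funext L
    exact hu.2.1 (t L) (ht L) ⟨L₀, h1⟩ L (htL L)
  · intro a ha
    rw [Finset.mem_filter] at ha
    exact hfix _ (ht ⟨L₀, h1⟩) (htL ⟨L₀, h1⟩) a ha.2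
  · intro u hu
    rw [Finset.mem_filter] at hu
    have h2 : ∀ L, φ (u L) = φ (u ⟨L₀, h1⟩) := by
      intro L
      rw [← hu.2.1 (t L) (ht L) ⟨L₀, h1⟩ L (htL L), hinv _ (ht L)]
    rw [Finset.prod_congr rfl fun L _ => h2 L, Finset.prod_const, Finset.card_univ, hm]

open Classical in
/-- the sum over all invariant choices vanishes -/
theorem sum_inv_zero [hp : Fact p.Prime] [Fintype G] [Fintype D]
    (hconj : ∀ L ∈ D, ∀ g : G, cj g L ∈ D)
    {X : Subgroup G} (hX : X ∈ ApB p G) (φ : G → ℂ) (hinv : ∀ x ∈ X, ∀ a, φ (x * a * x⁻¹) = φ a)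
    (L₀ : D) (hXL : ¬ X ≤ centralizer (L₀.1 : Set G))
    (hfree : ∀ a ∈ L₀.1, φ a ≠ 0 → ∀ E ∈ ApS p G, E ≤ X → E ≤ normalizer (L₀.1 : Set G) →
      (∀ e ∈ E, a * e = e * a) → E ≤ centralizer (L₀.1 : Set G))
    (hpow : ∀ i, ∑ a ∈ Finset.univ.filter (fun a : G => a ∈ L₀.1), φ a ^ p ^ (i + 1) = 0) :
    ∑ c : D → G, (if InvC hconj X c then ∏ L, φ (c L) else 0) = 0 := by
  by_cases hN : X ⊓ normalizer (L₀.1 : Set G) ≤ centralizer (L₀.1 : Set G)
  swap
  · refine Finset.sum_eq_zero fun c _ => ?_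
    split_ifs with hc
    swap
    · rfl
    by_contra hne
    apply hN
    have h1 : φ (c L₀) ≠ 0 := fun h => hne (Finset.prod_eq_zero (Finset.mem_univ L₀) h)
    by_cases hbot : X ⊓ normalizer (L₀.1 : Set G) = ⊥
    · rw [hbot]; exact bot_le
    have hXA : X ∈ ApS p G := by
      rcases hX with h | h
      · rw [h] at hbot
        exact absurd (bot_inf_eq _) hbot
      · exact h
    refine hfree _ (hc.2 L₀) h1 _ (mem_ApS_of_le hXA inf_le_left hbot) inf_le_left inf_le_right ?_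
    intro e he
    have h2 := hc.1 e (Subgroup.mem_inf.1 he).1 L₀
    have h3 : mv hconj e L₀ = L₀ := Subtype.ext (cj_eq_iff.2 (Subgroup.mem_inf.1 he).2)
    rw [h3] at h2
    exact (mul_inv_eq_iff_eq_mul.1 h2).symm
  -- the orbit of `L₀`
  have hXA : X ∈ ApS p G := by
    rcases hX with h | h
    · exact absurd (h ▸ bot_le) hXL
    · exact h
  let q : D → Prop := fun L => ∃ x ∈ X, mv hconj x L₀ = L
  have hcard : ∃ i, Fintype.card {L : D // q L} = p ^ (i + 1) := by
    have hXp : IsPGroup p X := fun x => ⟨1, by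
      apply Subtype.ext
      rw [pow_one]
      push_cast
      exact hXA.2.2 x x.2⟩
    let act : MulAction X D :=
      { smul := fun x L => mv hconj x L
        one_smul := fun L => Subtype.ext (cj_one L.1)
        mul_smul := fun x y L => Subtype.ext (cj_mul (x : G) (y : G) L.1) }
    obtain ⟨n, hn⟩ := hXp.card_orbit L₀
    have h1 : Fintype.card {L : D // q L} = Nat.card (MulAction.orbit X L₀) := by
      rw [← Nat.card_eq_fintype_card]
      refine Nat.card_congr (Equiv.subtypeEquivRight fun L => ?_)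
      constructor
      · rintro ⟨x, hx, h⟩
        exact ⟨⟨x, hx⟩, h⟩
      · rintro ⟨⟨x, hx⟩, h⟩
        exact ⟨x, hx, h⟩
    rw [h1, hn]
    cases n with
    | zero =>
      exfalso
      apply hXL
      intro x hx
      refine hN (Subgroup.mem_inf.2 ⟨hx, cj_eq_iff.1 ?_⟩)
      rw [pow_zero, Nat.card_eq_one_iff_unique] at hn
      obtain ⟨hn1, _⟩ := hn
      have h2 : (⟨(⟨x, hx⟩ : X) • L₀, MulAction.mem_orbit _ _⟩ : MulAction.orbit X L₀) =
          ⟨L₀, MulAction.mem_orbit_self _⟩ := Subsingleton.elim _ _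
      have h3 := congrArg Subtype.val h2
      exact congrArg Subtype.val h3
    | succ n => exact ⟨n, rfl⟩
  obtain ⟨i, hi⟩ := hcard
  -- splitting the sum
  let e := Equiv.piEquivPiSubtypeProd q (fun _ : D => G)
  rw [← Equiv.sum_comp e.symm, Fintype.sum_prod_type_right]
  refine Finset.sum_eq_zero fun v _ => ?_
  have hq : ∀ x ∈ X, ∀ L, q L ↔ q (mv hconj x L) := by
    intro x hx L
    constructor
    · rintro ⟨y, hy, rfl⟩
      exact ⟨x * y, X.mul_mem hx hy, Subtype.ext (cj_mul x y L₀.1)⟩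
    · rintro ⟨y, hy, h⟩
      refine ⟨x⁻¹ * y, X.mul_mem (X.inv_mem hx) hy, ?_⟩
      have h1 : mv hconj (x⁻¹ * y) L₀ = mv hconj x⁻¹ (mv hconj y L₀) :=
        Subtype.ext (cj_mul _ _ _)
      have h2 : mv hconj x⁻¹ (mv hconj x L) = mv hconj (x⁻¹ * x) L :=
        (Subtype.ext (cj_mul _ _ _)).symm
      rw [h1, h, h2, inv_mul_cancel]
      exact Subtype.ext (cj_one _)
  have heq : ∀ u : {L : D // q L} → G, ∀ L : {L : D // q L}, e.symm (u, v) L.1 = u L := by
    intro u L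
    change (if h : q L.1 then u ⟨L.1, h⟩ else v ⟨L.1, h⟩) = u L
    rw [dif_pos L.2]
  have heq' : ∀ u : {L : D // q L} → G, ∀ L : {L : D // ¬ q L}, e.symm (u, v) L.1 = v L := by
    intro u L
    change (if h : q L.1 then u ⟨L.1, h⟩ else v ⟨L.1, h⟩) = v L
    rw [dif_neg L.2]
  by_cases hv : (∀ x ∈ X, ∀ L M : {L : D // ¬ q L}, mv hconj x L.1 = M.1 →
        x * v L * x⁻¹ = v M) ∧ ∀ L, v L ∈ L.1.1
  · have key : ∀ u : {L : D // q L} → G,
        (if InvC hconj X (e.symm (u, v)) then ∏ L, φ (e.symm (u, v) L) else 0) =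
        (if (∀ x ∈ X, ∀ L M : {L : D // q L}, mv hconj x L.1 = M.1 →
          x * u L * x⁻¹ = u M) ∧ ∀ L, u L ∈ L.1.1 then ∏ L, φ (u L) else 0) *
          ∏ L, φ (v L) := by
      intro u
      have h1 : InvC hconj X (e.symm (u, v)) ↔
          (∀ x ∈ X, ∀ L M : {L : D // q L}, mv hconj x L.1 = M.1 →
          x * u L * x⁻¹ = u M) ∧ ∀ L, u L ∈ L.1.1 := by
        constructor
        · rintro ⟨h1, h2⟩
          refine ⟨fun x hx L M hLM => ?_, fun L => ?_⟩
          · have := h1 x hx L.1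
            rwa [hLM, heq, heq] at this
          · have := h2 L.1
            rwa [heq] at this
        · rintro ⟨h1, h2⟩
          refine ⟨fun x hx L => ?_, fun L => ?_⟩
          · by_cases hL : q L
            · have h3 := heq u ⟨L, hL⟩
              have h4 := heq u ⟨_, (hq x hx L).1 hL⟩
              rw [h3, h4]
              exact h1 x hx ⟨L, hL⟩ ⟨_, (hq x hx L).1 hL⟩ rfl
            · have hL' : ¬ q (mv hconj x L) := fun h => hL ((hq x hx L).2 h)
              have h3 := heq' u ⟨L, hL⟩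
              have h4 := heq' u ⟨_, hL'⟩
              rw [h3, h4]
              exact hv.1 x hx ⟨L, hL⟩ ⟨_, hL'⟩ rfl
          · by_cases hL : q L
            · have h3 := heq u ⟨L, hL⟩
              rw [h3]
              exact h2 ⟨L, hL⟩
            · have h3 := heq' u ⟨L, hL⟩
              rw [h3]
              exact hv.2 ⟨L, hL⟩
      have h2 : ∏ L, φ (e.symm (u, v) L) = (∏ L, φ (u L)) * ∏ L, φ (v L) := by
        rw [← Fintype.prod_subtype_mul_prod_subtype q]
        congr 1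
        · exact Finset.prod_congr rfl fun L _ => by rw [heq u L]
        · exact Finset.prod_congr rfl fun L _ => by rw [heq' u L]
      by_cases hc : InvC hconj X (e.symm (u, v))
      · rw [if_pos hc, if_pos (h1.1 hc), h2]
      · rw [if_neg hc, if_neg fun h => hc (h1.2 h), zero_mul]
    rw [Finset.sum_congr rfl fun u _ => key u, ← Finset.sum_mul,
      orbit_sum hconj φ hinv L₀ hN hi, hpow i, zero_mul]
  · refine Finset.sum_eq_zero fun u _ => ?_
    rw [if_neg]
    rintro ⟨h1, h2⟩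
    apply hv
    refine ⟨fun x hx L M hLM => ?_, fun L => ?_⟩
    · have := h1 x hx L.1
      rwa [hLM, heq', heq'] at this
    · have := h2 L.1
      rwa [heq'] at this

end

end Vale.Agent.P240.K
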