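import Vale.Agent.P240.K.Moebius

namespace Vale.Agent.P240.K

open Subgroup

section
variable {G : Type*} [Group G]

open Classical in
/-- product of the weights of the listed subgroups not containing `F` -/
noncomputable def wt (Λ : List (Subgroup G × ℕ)) (F : Subgroup G) : ℤ :=
  (Λ.map fun a => if F ≤ a.1 then (1 : ℤ) else (a.2 : ℤ)).prod

/-- the subgroups of `E` -/
noncomputable def subs [Finite G] (E : Subgroup G) : Finset (Subgroup G) :=
  (Set.toFinite {F : Subgroup G | F ≤ E}).toFinset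

lemma mem_subs [Finite G] {E F : Subgroup G} : F ∈ subs E ↔ F ≤ E := by
  rw [subs, Set.Finite.mem_toFinset]; rfl

/-- weights at hyperplanes -/
def Hyp (p : ℕ) (P : Subgroup G) (a : Subgroup G × ℕ) : Prop :=
  2 ≤ a.2 ∧ ∀ E ≤ P, ¬ E ≤ a.1 → Nat.card (E ⊓ a.1 : Subgroup G) * p = Nat.card E

/-- **Positivity.** -/
theorem weights_pos [Finite G] {p : ℕ} [hp : Fact p.Prime] {P : Subgroup G} (μ : Subgroup G → ℤ)
    (h1 : μ ⊥ = 1) (h0 : ∀ E ≤ P, E ≠ ⊥ → ∑ F ∈ subs E, μ F = 0) (Λ : List (Subgroup G × ℕ))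
    (hΛ : ∀ a ∈ Λ, Hyp p P a) : ∀ E ≤ P, ∀ m, Nat.card E = p ^ m →
      0 ≤ (-1) ^ m * ∑ F ∈ subs E, μ F * wt Λ F ∧
      ((∀ x ∈ E, (∀ a ∈ Λ, x ∈ a.1) → x = 1) → 0 < (-1) ^ m * ∑ F ∈ subs E, μ F * wt Λ F) := by
  classical
  induction Λ with
  | nil =>
    intro E hE m hm
    have hw : ∑ F ∈ subs E, μ F * wt [] F = ∑ F ∈ subs E, μ F :=
      Finset.sum_congr rfl fun F _ => by simp [wt]
    rw [hw]
    by_cases hb : E = ⊥
    · subst hb
      have hm0 : m = 0 := by
        rw [Subgroup.card_bot] at hm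
        rcases Nat.eq_zero_or_pos m with h | h
        · exact h
        · exact absurd hm (Nat.one_lt_pow h.ne' hp.out.one_lt).ne
      have hs : subs (⊥ : Subgroup G) = {⊥} := by
        ext F
        rw [mem_subs, Finset.mem_singleton, le_bot_iff]
      rw [hs, Finset.sum_singleton, h1, hm0]
      simp
    · rw [h0 E hE hb, mul_zero]
      refine ⟨le_rfl, fun h => absurd ?_ hb⟩
      rw [eq_bot_iff]
      intro x hx
      exact h x hx (by simp)
  | cons a Λ ih =>
    obtain ⟨H, x⟩ := a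
    intro E hE m hm
    have ih' := ih fun b hb => hΛ b (List.mem_cons_of_mem _ hb)
    obtain ⟨hx2, hH⟩ := hΛ (H, x) (List.mem_cons_self)
    have hw : ∀ F, wt ((H, x) :: Λ) F = (if F ≤ H then (1 : ℤ) else (x : ℤ)) * wt Λ F := by
      intro F
      simp [wt]
    have key : ∑ F ∈ subs E, μ F * wt ((H, x) :: Λ) F =
        x * ∑ F ∈ subs E, μ F * wt Λ F - (x - 1) * ∑ F ∈ subs (E ⊓ H), μ F * wt Λ F := by
      have h2 : subs (E ⊓ H) = (subs E).filter fun F => F ≤ H := by
        ext F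
        rw [Finset.mem_filter, mem_subs, mem_subs, le_inf_iff]
      rw [h2, Finset.sum_filter, Finset.mul_sum, Finset.mul_sum, ← Finset.sum_sub_distrib]
      refine Finset.sum_congr rfl fun F _ => ?_
      rw [hw]
      split_ifs <;> ring
    have hx1 : (0 : ℤ) < (x : ℤ) - 1 := by
      have : (2 : ℤ) ≤ (x : ℤ) := by exact_mod_cast hx2
      linarith
    by_cases hEH : E ≤ H
    · have h3 : E ⊓ H = E := inf_eq_left.2 hEH
      have h4 : ∑ F ∈ subs E, μ F * wt ((H, x) :: Λ) F = ∑ F ∈ subs E, μ F * wt Λ F := by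
        rw [key, h3]; ring
      rw [h4]
      obtain ⟨h5, h6⟩ := ih' E hE m hm
      refine ⟨h5, fun h => h6 fun y hy hyΛ => h y hy ?_⟩
      intro b hb
      rcases List.mem_cons.1 hb with rfl | hb
      · exact hEH hy
      · exact hyΛ b hb
    · have hc := hH E hE hEH
      obtain ⟨m', rfl⟩ : ∃ m', m = m' + 1 := by
        rcases m with _ | m'
        · rw [pow_zero] at hm
          rw [hm] at hc
          exact absurd (Nat.eq_one_of_mul_eq_one_left hc) hp.out.one_lt.ne'
        · exact ⟨m', rfl⟩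
      have hm' : Nat.card (E ⊓ H : Subgroup G) = p ^ m' := by
        rw [hm, pow_succ] at hc
        exact Nat.eq_of_mul_eq_mul_right hp.out.pos hc
      obtain ⟨h5, _⟩ := ih' E hE (m' + 1) hm
      obtain ⟨h7, h8⟩ := ih' (E ⊓ H) (inf_le_left.trans hE) m' hm'
      have h9 : (-1 : ℤ) ^ (m' + 1) * ∑ F ∈ subs E, μ F * wt ((H, x) :: Λ) F =
          x * ((-1) ^ (m' + 1) * ∑ F ∈ subs E, μ F * wt Λ F) +
            (x - 1) * ((-1) ^ m' * ∑ F ∈ subs (E ⊓ H), μ F * wt Λ F) := by
        rw [key, pow_succ]; ring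
      rw [h9]
      have hx0 : (0 : ℤ) ≤ x := Int.natCast_nonneg x
      constructor
      · exact add_nonneg (mul_nonneg hx0 h5) (mul_nonneg hx1.le h7)
      · intro h
        refine add_pos_of_nonneg_of_pos (mul_nonneg hx0 h5) (mul_pos hx1 (h8 ?_))
        intro y hy hyΛ
        refine h y hy.1 ?_
        intro b hb
        rcases List.mem_cons.1 hb with rfl | hb
        · exact hy.2
        · exact hyΛ b hb

end

section
/-- norms of a fixed point free automorphism of order `p` -/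
lemma norm_one {V : Type*} [CommGroup V] {p : ℕ} (hp : 0 < p) (β : Monoid.End V) (hβ : β ^ p = 1)
    (hfix : ∀ v, β v = v → v = 1) (v : V) : ∏ i ∈ Finset.range p, (β ^ i) v = 1 := by
  apply hfix
  obtain ⟨k, rfl⟩ : ∃ k, p = k + 1 := ⟨p - 1, by omega⟩
  rw [map_prod]
  have h1 : ∀ i ∈ Finset.range (k + 1), β ((β ^ i) v) = (β ^ (i + 1)) v := by
    intro i _
    rw [pow_succ']
    rfl
  rw [Finset.prod_congr rfl h1, Finset.prod_range_succ, hβ, Finset.prod_range_succ']
  rfl

/-- two commuting automorphisms generating a noncyclic group acting freely -/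
lemma pow_one_of_free {V : Type*} [CommGroup V] {p : ℕ} (hp : 0 < p) (A B : Monoid.End V)
    (hAB : Commute A B) (hA : A ^ p = 1) (hB : B ^ p = 1)
    (h1 : ∀ j, j < p → ∀ v, (A * B ^ j) v = v → v = 1)
    (h2 : ∀ i, 0 < i → i < p → ∀ v, (B ^ i) v = v → v = 1) (v : V) : v ^ p = 1 := by
  have e1 : ∀ j ∈ Finset.range p, ∏ i ∈ Finset.range p, ((A * B ^ j) ^ i) v = 1 := by
    intro j hj
    refine norm_one hp _ ?_ (h1 j (Finset.mem_range.1 hj)) v
    rw [(hAB.pow_right j).mul_pow, hA, one_mul, ← pow_mul, mul_comm, pow_mul, hB, one_pow]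
  have e2 : ∏ i ∈ Finset.range p, ∏ j ∈ Finset.range p, ((A * B ^ j) ^ i) v = 1 := by
    rw [Finset.prod_comm]
    exact Finset.prod_eq_one e1
  have e3 : ∀ i ∈ Finset.range p, i ≠ 0 → ∏ j ∈ Finset.range p, ((A * B ^ j) ^ i) v = 1 := by
    intro i hi hi0
    have h3 : ∀ j ∈ Finset.range p, ((A * B ^ j) ^ i) v = (A ^ i) (((B ^ i) ^ j) v) := by
      intro j _
      rw [(hAB.pow_right j).mul_pow, ← pow_mul, mul_comm j i, pow_mul]
      rfl
    rw [Finset.prod_congr rfl h3, ← map_prod]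
    have h4 : ∏ j ∈ Finset.range p, ((B ^ i) ^ j) v = 1 := by
      refine norm_one hp _ ?_ (h2 i (Nat.pos_of_ne_zero hi0) (Finset.mem_range.1 hi)) v
      rw [← pow_mul, mul_comm, pow_mul, hB, one_pow]
    rw [h4, map_one]
  rw [Finset.prod_eq_single 0 e3 (fun h => absurd (Finset.mem_range.2 hp) h)] at e2
  have h5 : ∀ j ∈ Finset.range p, ((A * B ^ j) ^ 0) v = v := fun j _ => by
    rw [pow_zero]; rfl
  rw [Finset.prod_congr rfl h5, Finset.prod_const, Finset.card_range] at e2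
  exact e2

end

end Vale.Agent.P240.K
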