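import Vale.Agent.P240.K.Weights

namespace Vale.Agent.P240.K

open Subgroup

universe u

section
variable {G : Type u} [Group G]

/-- elements of `Q` fixed modulo `M` by the elements of `S` -/
def fixMod (Q M : Subgroup G) (S : Set G) (hM : ∀ x ∈ Q, ∀ m ∈ M, x * m * x⁻¹ ∈ M) :
    Subgroup G where
  carrier := {q | q ∈ Q ∧ ∀ f ∈ S, f * q * f⁻¹ * q⁻¹ ∈ M}
  one_mem' := ⟨one_mem _, fun f _ => by simp⟩
  mul_mem' := by
    rintro a b ⟨ha, ha'⟩ ⟨hb, hb'⟩
    refine ⟨mul_mem ha hb, fun f hf => ?_⟩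
    have : f * (a * b) * f⁻¹ * (a * b)⁻¹ =
        (f * a * f⁻¹ * a⁻¹) * (a * (f * b * f⁻¹ * b⁻¹) * a⁻¹) := by group
    rw [this]
    exact mul_mem (ha' f hf) (hM a ha _ (hb' f hf))
  inv_mem' := by
    rintro a ⟨ha, ha'⟩
    refine ⟨inv_mem ha, fun f hf => ?_⟩
    have : f * a⁻¹ * f⁻¹ * a⁻¹⁻¹ = (a⁻¹ * (f * a * f⁻¹ * a⁻¹) * a⁻¹⁻¹)⁻¹ := by group
    rw [this]
    exact inv_mem (hM _ (inv_mem ha) _ (ha' f hf))

lemma norm_of_conj [Finite G] {P K : Subgroup G} (h : ∀ x ∈ P, ∀ q ∈ K, x * q * x⁻¹ ∈ K) :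
    ∀ x ∈ P, x ∈ normalizer (K : Set G) := by
  intro x hx
  rw [mem_normalizer_iff]
  intro q
  refine ⟨h x hx q, fun hq => ?_⟩
  have h1 := h _ (inv_mem hx) _ hq
  have h2 : x⁻¹ * (x * q * x⁻¹) * x⁻¹⁻¹ = q := by group
  rwa [h2] at h1

/-- a top factor of `Q` that is irreducible under `P` -/
lemma exists_top_factor [Finite G] {P Q : Subgroup G} (hQ : Q ≠ ⊥) (hsol : Group.IsSolvable Q)
    (hPQ : ∀ x ∈ P, ∀ q ∈ Q, x * q * x⁻¹ ∈ Q) :
    ∃ M : Subgroup G, M < Q ∧ (∀ x ∈ P, ∀ m ∈ M, x * m * x⁻¹ ∈ M) ∧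
      (∀ x ∈ Q, ∀ y ∈ Q, x * y * x⁻¹ * y⁻¹ ∈ M) ∧
      ∀ K : Subgroup G, M ≤ K → K ≤ Q → (∀ x ∈ P, ∀ q ∈ K, x * q * x⁻¹ ∈ K) → K = M ∨ K = Q := by
  let T : Set (Subgroup G) := {M | M < Q ∧ (∀ x ∈ P, ∀ m ∈ M, x * m * x⁻¹ ∈ M) ∧
      ∀ x ∈ Q, ∀ y ∈ Q, x * y * x⁻¹ * y⁻¹ ∈ M}
  have hne : T.Nonempty := by
    refine ⟨⁅Q, Q⁆, ?_, ?_, ?_⟩
    · refine lt_of_le_of_ne ?_ ?_
      · rw [Subgroup.commutator_le]
        intro a ha b hb
        exact mul_mem (mul_mem (mul_mem ha hb) (inv_mem ha)) (inv_mem hb)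
      · intro h
        have : Nontrivial Q := (Subgroup.nontrivial_iff_ne_bot Q).2 hQ
        have h1 := Group.IsSolvable.commutator_lt_top_of_nontrivial Q
        apply h1.ne
        have h2 : (commutator Q).map Q.subtype = (⊤ : Subgroup Q).map Q.subtype := by
          rw [commutator_def, Subgroup.map_commutator, ← MonoidHom.range_eq_map,
            Subgroup.range_subtype, h]
        exact Subgroup.map_injective Q.subtype_injective h2
    · intro x hx m hm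
      have h1 : ⁅Q, Q⁆ ≤ (⁅Q, Q⁆ : Subgroup G).comap (MulAut.conj x).toMonoidHom := by
        rw [Subgroup.commutator_le]
        intro a ha b hb
        have h2 : x * (a * b * a⁻¹ * b⁻¹) * x⁻¹ = (x * a * x⁻¹) * (x * b * x⁻¹) *
            (x * a * x⁻¹)⁻¹ * (x * b * x⁻¹)⁻¹ := by group
        change x * (a * b * a⁻¹ * b⁻¹) * x⁻¹ ∈ ⁅Q, Q⁆
        rw [h2]
        exact Subgroup.commutator_mem_commutator (hPQ x hx a ha) (hPQ x hx b hb)
      exact h1 hm
    · intro x hx y hy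
      exact Subgroup.commutator_mem_commutator hx hy
  obtain ⟨M, ⟨h1, h2, h3⟩, hmax⟩ := (Set.toFinite T).exists_maximal hne
  refine ⟨M, h1, h2, h3, ?_⟩
  intro K hMK hKQ hK
  rcases hKQ.eq_or_lt with h | h
  · exact Or.inr h
  · refine Or.inl (le_antisymm (hmax ⟨h, hK, fun x hx y hy => hMK (h3 x hx y hy)⟩ hMK) hMK)

/-- the action on the top factor -/
lemma top_factor_action {P Q M : Subgroup G}
    (hPQ : ∀ x ∈ P, ∀ q ∈ Q, x * q * x⁻¹ ∈ Q) (hPM : ∀ x ∈ P, ∀ m ∈ M, x * m * x⁻¹ ∈ M)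
    (hcomm : ∀ x ∈ Q, ∀ y ∈ Q, x * y * x⁻¹ * y⁻¹ ∈ M) (hMQ : M ≤ Q) :
    ∃ (V : Type u) (_ : CommGroup V) (π : Q →* V) (β : P →* Monoid.End V),
      Function.Surjective π ∧ (∀ q : Q, π q = 1 ↔ (q : G) ∈ M) ∧
      (Nat.card V = M.relIndex Q) ∧
      (∀ (x : P) (q : Q) (h : (x : G) * q * (x : G)⁻¹ ∈ Q), β x (π q) = π ⟨_, h⟩) := by
  have hnorm : ∀ x ∈ Q, ∀ m ∈ M, x * m * x⁻¹ ∈ M := by
    intro x hx m hm
    have h1 := mul_mem (hcomm x hx m (hMQ hm)) hm
    rwa [inv_mul_cancel_right] at h1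
  have hN : (M.subgroupOf Q).Normal := by
    refine ⟨fun m hm x => ?_⟩
    rw [mem_subgroupOf] at hm ⊢
    exact hnorm x x.2 m hm
  let V := Q ⧸ M.subgroupOf Q
  let inst : CommGroup V :=
    { (inferInstance : Group V) with
      mul_comm := by
        intro a b
        obtain ⟨x, rfl⟩ := QuotientGroup.mk_surjective a
        obtain ⟨y, rfl⟩ := QuotientGroup.mk_surjective b
        change ((x * y : Q) : V) = ((y * x : Q) : V)
        rw [QuotientGroup.eq, mem_subgroupOf]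
        have h1 := hcomm (y : G)⁻¹ (inv_mem y.2) (x : G)⁻¹ (inv_mem x.2)
        have h2 : (((x * y)⁻¹ * (y * x) : Q) : G) =
            (y : G)⁻¹ * (x : G)⁻¹ * ((y : G)⁻¹)⁻¹ * ((x : G)⁻¹)⁻¹ := by
          push_cast
          group
        rw [h2]
        exact h1 }
  let κ : P → (Q →* Q) := fun x =>
    { toFun := fun q => ⟨x * q * (x : G)⁻¹, hPQ x x.2 q q.2⟩
      map_one' := by ext; simp
      map_mul' := fun a b => by
        ext
        push_cast
        group }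
  have hκ : ∀ x, M.subgroupOf Q ≤ (M.subgroupOf Q).comap (κ x) := by
    intro x m hm
    rw [mem_subgroupOf] at hm
    rw [mem_comap, mem_subgroupOf]
    exact hPM x x.2 m hm
  let β : P →* Monoid.End V :=
    { toFun := fun x => QuotientGroup.map (M.subgroupOf Q) (M.subgroupOf Q) (κ x) (hκ x)
      map_one' := by
        apply MonoidHom.ext
        intro v
        obtain ⟨q, rfl⟩ := QuotientGroup.mk_surjective v
        change ((κ 1 q : Q) : V) = (q : V)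
        congr 1
        apply Subtype.ext
        change ((1 : P) : G) * q * ((1 : P) : G)⁻¹ = q
        simp
      map_mul' := by
        intro x y
        apply MonoidHom.ext
        intro v
        obtain ⟨q, rfl⟩ := QuotientGroup.mk_surjective v
        change ((κ (x * y) q : Q) : V) = ((κ x (κ y q) : Q) : V)
        congr 1
        apply Subtype.ext
        change ((x * y : P) : G) * q * ((x * y : P) : G)⁻¹ = x * (y * q * (y : G)⁻¹) * (x : G)⁻¹
        push_cast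
        group }
  refine ⟨V, inst, QuotientGroup.mk' (M.subgroupOf Q), β, QuotientGroup.mk'_surjective _, ?_, ?_, ?_⟩
  · intro q
    change ((q : V) = 1) ↔ _
    rw [QuotientGroup.eq_one_iff, mem_subgroupOf]
  · rfl
  · intro x q h
    rfl

end

end Vale.Agent.P240.K
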