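import Vale.Agent.P240.K.Weights2

namespace Vale.Agent.P240.K

open Subgroup

universe u

section
variable {G : Type u} [Group G]

/-- the kernel of the action on the top factor -/
def topKer (P Q M : Subgroup G) (hPQ : ∀ x ∈ P, ∀ q ∈ Q, x * q * x⁻¹ ∈ Q) : Subgroup G where
  carrier := {x | x ∈ P ∧ ∀ q ∈ Q, x * q * x⁻¹ * q⁻¹ ∈ M}
  one_mem' := ⟨one_mem _, fun f _ => by simp⟩
  mul_mem' := by
    rintro a b ⟨ha, ha'⟩ ⟨hb, hb'⟩
    refine ⟨mul_mem ha hb, fun q hq => ?_⟩
    have : (a * b) * q * (a * b)⁻¹ * q⁻¹ =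
        (a * (b * q * b⁻¹) * a⁻¹ * (b * q * b⁻¹)⁻¹) * (b * q * b⁻¹ * q⁻¹) := by group
    rw [this]
    exact mul_mem (ha' _ (hPQ b hb q hq)) (hb' q hq)
  inv_mem' := by
    rintro a ⟨ha, ha'⟩
    refine ⟨inv_mem ha, fun q hq => ?_⟩
    have h1 := ha' _ (hPQ _ (inv_mem ha) q hq)
    have : a⁻¹ * q * a⁻¹⁻¹ * q⁻¹ =
        (a * (a⁻¹ * q * a⁻¹⁻¹) * a⁻¹ * (a⁻¹ * q * a⁻¹⁻¹)⁻¹)⁻¹ := by group
    rw [this]
    exact inv_mem h1

lemma card_of_cover [Finite G] {p : ℕ} {E H : Subgroup G} {b : G} (hb : b ∈ E) (hbH : b ∉ H)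
    (hp : p.Prime) (hbp : b ^ p = 1) (hcov : ∀ a ∈ E, ∃ j : ℕ, a * b ^ j ∈ H) :
    Nat.card (E ⊓ H : Subgroup G) * p = Nat.card E := by
  have : Fact p.Prime := ⟨hp⟩
  have hb1 : b ≠ 1 := fun h => hbH (h ▸ one_mem _)
  have hord : orderOf b = p := orderOf_eq_prime hbp hb1
  have hc : Nat.card (zpowers b) = p := by rw [Nat.card_zpowers, hord]
  rw [← hc, ← Nat.card_prod]
  refine Nat.card_congr (Equiv.ofBijective
    (fun x : (E ⊓ H : Subgroup G) × zpowers b => (⟨x.1 * x.2, mul_mem x.1.2.1
      ((zpowers_le.2 hb) x.2.2)⟩ : E)) ⟨?_, ?_⟩)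
  · rintro ⟨⟨x, hx⟩, ⟨y, hy⟩⟩ ⟨⟨x', hx'⟩, ⟨y', hy'⟩⟩ h
    have h1 : x * y = x' * y' := congrArg Subtype.val h
    have h2 : x'⁻¹ * x = y' * y⁻¹ := by
      calc x'⁻¹ * x = x'⁻¹ * (x * y) * y⁻¹ := by group
        _ = x'⁻¹ * (x' * y') * y⁻¹ := by rw [h1]
        _ = y' * y⁻¹ := by group
    have h3 : y' * y⁻¹ ∈ H := h2 ▸ mul_mem (inv_mem hx'.2) hx.2
    have h4 : y' * y⁻¹ ∈ zpowers b := mul_mem hy' (inv_mem hy)
    have h5 : y' * y⁻¹ = 1 := by
      by_contra hne
      obtain ⟨k, hk⟩ := mem_zpowers_iff.1 h4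
      -- the subgroup generated is everything
      have h6 : zpowers (⟨y' * y⁻¹, h4⟩ : zpowers b) = ⊤ := by
        have : Fact (Nat.card (zpowers b)).Prime := ⟨by rw [hc]; exact hp⟩
        exact (zpowers_eq_top_of_prime_card (p := p) hc (fun h => hne (congrArg Subtype.val h)))
      have h7 : (⟨b, mem_zpowers b⟩ : zpowers b) ∈ zpowers (⟨y' * y⁻¹, h4⟩ : zpowers b) := by
        rw [h6]; trivial
      obtain ⟨l, hl⟩ := mem_zpowers_iff.1 h7
      apply hbH
      have h8 : (y' * y⁻¹) ^ l = b := congrArg Subtype.val hl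
      rw [← h8]
      exact zpow_mem h3 l
    have h6 : y' = y := mul_inv_eq_one.1 h5
    subst h6
    have h7 : x = x' := mul_right_cancel h1
    subst h7
    rfl
  · rintro ⟨a, ha⟩
    obtain ⟨j, hj⟩ := hcov a ha
    refine ⟨⟨⟨a * b ^ j, mul_mem ha (pow_mem hb j), hj⟩, ⟨(b ^ j)⁻¹,
      inv_mem (pow_mem (mem_zpowers b) j)⟩⟩, ?_⟩
    apply Subtype.ext
    change a * b ^ j * (b ^ j)⁻¹ = a
    group

lemma card_relIndex [Finite G] {M Q : Subgroup G} (h : M ≤ Q) :
    Nat.card M * M.relIndex Q = Nat.card Q := by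
  have := relIndex_mul_relIndex ⊥ M Q bot_le h
  rwa [relIndex_bot_left, relIndex_bot_left] at this

/-- **Coprime action**: weights. -/
theorem exists_weights [Finite G] {p : ℕ} [hp : Fact p.Prime] {P : Subgroup G}
    (hPc : ∀ x ∈ P, ∀ y ∈ P, x * y = y * x) (hPp : ∀ x ∈ P, x ^ p = 1) :
    ∀ n, ∀ Q : Subgroup G, Nat.card Q = n → Group.IsSolvable Q → ¬ p ∣ Nat.card Q →
      (∀ x ∈ P, ∀ q ∈ Q, x * q * x⁻¹ ∈ Q) →
      ∃ Λ : List (Subgroup G × ℕ), (∀ a ∈ Λ, Hyp p P a) ∧ ∀ F ≤ P,
        (Nat.card Q : ℤ) = Nat.card (Q ⊓ centralizer (F : Set G) : Subgroup G) * wt Λ F := by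
  classical
  intro n
  induction n using Nat.strong_induction_on with
  | _ n ih =>
    intro Q hn hsol hpQ hPQ
    by_cases hQ : Q = ⊥
    · subst hQ
      refine ⟨[], by simp, fun F _ => ?_⟩
      simp [wt]
    obtain ⟨M, hMQ, hPM, hcomm, hirr⟩ := exists_top_factor hQ hsol hPQ
    have hnorm : ∀ x ∈ Q, ∀ m ∈ M, x * m * x⁻¹ ∈ M := by
      intro x hx m hm
      have h1 := mul_mem (hcomm x hx m (hMQ.le hm)) hm
      rwa [inv_mul_cancel_right] at h1
    have hcard := card_relIndex hMQ.le
    have hpM : ¬ p ∣ Nat.card M := fun h => hpQ (hcard ▸ Dvd.dvd.mul_right h _)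
    have hpI : ¬ p ∣ M.relIndex Q := fun h => hpQ (hcard ▸ Dvd.dvd.mul_left h _)
    have hsolM : Group.IsSolvable M := by
      have := hsol
      exact Group.isSolvable_of_isSolvable_injective (inclusion_injective hMQ.le)
    have hlt : Nat.card M < n := by
      rw [← hn]
      exact Set.Finite.card_lt_card (Set.toFinite _) hMQ
    obtain ⟨Λ, hΛ, hw⟩ := ih _ hlt M rfl hsolM hpM hPM
    set H := topKer P Q M hPQ with hH
    -- fixed points modulo `M`
    have hfm : ∀ S : Set G, S ⊆ P → (∀ f ∈ S, f ∈ H) ∨ fixMod Q M S hnorm = M := by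
      intro S hS
      have k1 : M ≤ fixMod Q M S hnorm := by
        intro m hm
        exact ⟨hMQ.le hm, fun f hf => mul_mem (hPM f (hS hf) m hm) (inv_mem hm)⟩
      have k2 : fixMod Q M S hnorm ≤ Q := fun q hq => hq.1
      have k3 : ∀ x ∈ P, ∀ q ∈ fixMod Q M S hnorm, x * q * x⁻¹ ∈ fixMod Q M S hnorm := by
        rintro x hx q ⟨hq1, hq2⟩
        refine ⟨hPQ x hx q hq1, fun f hf => ?_⟩
        have h1 := hPM x hx _ (hq2 f hf)
        have h2 : f * x = x * f := hPc f (hS hf) x hx
        have h3 : x⁻¹ * f⁻¹ = f⁻¹ * x⁻¹ := by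
          rw [← mul_inv_rev, ← mul_inv_rev, h2]
        have h4 : f * (x * q * x⁻¹) * f⁻¹ * (x * q * x⁻¹)⁻¹ = x * (f * q * f⁻¹ * q⁻¹) * x⁻¹ := by
          calc f * (x * q * x⁻¹) * f⁻¹ * (x * q * x⁻¹)⁻¹
              = (f * x) * q * (x⁻¹ * f⁻¹) * (x * q * x⁻¹)⁻¹ := by group
            _ = (x * f) * q * (f⁻¹ * x⁻¹) * (x * q * x⁻¹)⁻¹ := by rw [h2, h3]
            _ = x * (f * q * f⁻¹ * q⁻¹) * x⁻¹ := by group
        rw [h4]
        exact h1
      rcases hirr (fixMod Q M S hnorm) k1 k2 k3 with h | h
      · exact Or.inr h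
      · left
        intro f hf
        refine ⟨hS hf, fun q hq => ?_⟩
        have h1 : q ∈ fixMod Q M S hnorm := by rw [h]; exact hq
        exact h1.2 f hf
    have hhyp : Hyp p P (H, M.relIndex Q) := by
      constructor
      · have h1 : M.relIndex Q ≠ 0 := by
          intro h
          rw [h, mul_zero] at hcard
          exact Nat.card_pos.ne hcard
        have h2 : M.relIndex Q ≠ 1 := by
          intro h
          rw [relIndex_eq_one] at h
          exact hMQ.not_ge h
        change 2 ≤ M.relIndex Q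
        omega
      · intro E hE hEH
        change ¬ E ≤ H at hEH
        obtain ⟨b, hbE, hbH⟩ := SetLike.not_le_iff_exists.1 hEH
        refine card_of_cover hbE hbH hp.out (hPp b (hE hbE)) ?_
        intro a ha
        by_contra hno
        push Not at hno
        obtain ⟨V, _, π, β, hπ, hker, hV, hβ⟩ := top_factor_action hPQ hPM hcomm hMQ.le
        have hfix : ∀ g : P, (g : G) ∉ H → ∀ v, β g v = v → v = 1 := by
          intro g hg v hv
          obtain ⟨q, rfl⟩ := hπ v
          rw [hβ g q (hPQ g g.2 q q.2)] at hv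
          have h1 : π (⟨_, hPQ g g.2 q q.2⟩ * q⁻¹) = 1 := by
            rw [map_mul, hv, ← map_mul, mul_inv_cancel, map_one]
          rw [hker] at h1
          rw [hker]
          rcases hfm {(g : G)} (by simp) with h | h
          · exact absurd (h g rfl) hg
          · have h2 : (q : G) ∈ fixMod Q M {(g : G)} hnorm := by
              refine ⟨q.2, fun f hf => ?_⟩
              rw [Set.mem_singleton_iff.1 hf]
              exact h1
            rwa [h] at h2
        have hpow : ∀ v : V, v ^ p = 1 := by
          have hbi : ∀ i, 0 < i → i < p → b ^ i ∉ H := by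
            intro i hi0 hip hmem
            have hcop : Nat.Coprime i p :=
              (Nat.coprime_of_lt_prime hi0.ne' hip hp.out).symm
            apply hbH
            have hb1 : b ≠ 1 := fun h => hbH (h ▸ one_mem _)
            have hord : orderOf b = p := orderOf_eq_prime (hPp b (hE hbE)) hb1
            have h1 : zpowers (b ^ i) = zpowers b := by
              rw [← Nat.card_zpowers] at hord
              refine le_antisymm (zpowers_le.2 (pow_mem (mem_zpowers b) i)) ?_
              rw [zpowers_le]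
              obtain ⟨m, hm⟩ := exists_pow_eq_self_of_coprime
                (x := b) (n := i) (by rw [orderOf_eq_prime (hPp b (hE hbE)) hb1]; exact hcop)
              have h3 := pow_mem (mem_zpowers (b ^ i)) m
              rwa [hm] at h3
            have h2 : b ∈ zpowers (b ^ i) := by rw [h1]; exact mem_zpowers b
            exact (zpowers_le.2 hmem) h2
          intro v
          have hc : Commute (β ⟨a, hE ha⟩) (β ⟨b, hE hbE⟩) := by
            change β _ * β _ = β _ * β _
            rw [← map_mul, ← map_mul]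
            congr 1
            exact Subtype.ext (hPc a (hE ha) b (hE hbE))
          refine pow_one_of_free hp.out.pos (β ⟨a, hE ha⟩) (β ⟨b, hE hbE⟩) hc ?_ ?_ ?_ ?_ v
          · rw [← map_pow]
            have : (⟨a, hE ha⟩ : P) ^ p = 1 := Subtype.ext (hPp a (hE ha))
            rw [this, map_one]
          · rw [← map_pow]
            have : (⟨b, hE hbE⟩ : P) ^ p = 1 := Subtype.ext (hPp b (hE hbE))
            rw [this, map_one]
          · intro j _ w hw'
            rw [← map_pow, ← map_mul] at hw'
            exact hfix _ (hno j) w hw'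
          · intro i hi0 hip w hw'
            rw [← map_pow] at hw'
            exact hfix _ (hbi i hi0 hip) w hw'
        have hVfin : Finite V := Finite.of_surjective π hπ
        have htriv : ∀ v : V, v = 1 := by
          intro v
          rw [← orderOf_eq_one_iff]
          have h1 : orderOf v ∣ p := orderOf_dvd_of_pow_eq_one (hpow v)
          have h2 : orderOf v ∣ Nat.card V := orderOf_dvd_natCard v
          rcases (Nat.dvd_prime hp.out).1 h1 with h | h
          · exact h
          · rw [h, hV] at h2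
            exact absurd h2 hpI
        apply hMQ.not_ge
        intro q hq
        exact (hker ⟨q, hq⟩).1 (htriv _)
    refine ⟨(H, M.relIndex Q) :: Λ, ?_, ?_⟩
    · intro a ha
      rcases List.mem_cons.1 ha with rfl | ha
      · exact hhyp
      · exact hΛ a ha
    · intro F hF
      have hwt : wt ((H, M.relIndex Q) :: Λ) F =
          (if F ≤ H then (1 : ℤ) else ((M.relIndex Q : ℕ) : ℤ)) * wt Λ F := by simp [wt]
      have hcZ : (Nat.card Q : ℤ) = Nat.card M * (M.relIndex Q : ℕ) := by
        rw [← hcard]; push_cast; ring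
      have hwF := hw F hF
      rw [hwt]
      split_ifs with hFH
      · -- trivial action on the top factor
        have hMA : M ⊓ (Q ⊓ centralizer (F : Set G)) = M ⊓ centralizer (F : Set G) := by
          rw [← inf_assoc, inf_eq_left.2 hMQ.le]
        have h1 := card_relIndex (M := M ⊓ (Q ⊓ centralizer (F : Set G)))
          (Q := Q ⊓ centralizer (F : Set G)) inf_le_right
        rw [inf_relIndex_right, hMA] at h1
        have h2 : M.relIndex (Q ⊓ centralizer (F : Set G)) = M.relIndex Q := by
          refine Nat.card_congr (Equiv.ofBijective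
            (quotientSubgroupOfEmbeddingOfLE M
              (inf_le_left : Q ⊓ centralizer (F : Set G) ≤ Q))
            ⟨(quotientSubgroupOfEmbeddingOfLE M _).injective, ?_⟩)
          intro y
          obtain ⟨⟨q, hq⟩, rfl⟩ := QuotientGroup.mk_surjective y
          -- a fixed point in the coset
          let X := {y : G // q⁻¹ * y ∈ M}
          have hst : ∀ f : F, ∀ y : G, q⁻¹ * y ∈ M → q⁻¹ * ((f : G) * y * (f : G)⁻¹) ∈ M := by
            intro f y hy
            have e1 : q⁻¹ * ((f : G) * y * (f : G)⁻¹) =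
                (q⁻¹ * ((f : G) * q * (f : G)⁻¹ * q⁻¹) * q⁻¹⁻¹) *
                  ((f : G) * (q⁻¹ * y) * (f : G)⁻¹) := by group
            rw [e1]
            exact mul_mem (hnorm _ (inv_mem hq) _ ((hFH f.2).2 q hq))
              (hPM f (hF f.2) _ hy)
          let act : MulAction F X :=
            { smul := fun f y => ⟨(f : G) * y.1 * (f : G)⁻¹, hst f y.1 y.2⟩
              one_smul := fun y => by
                apply Subtype.ext
                change ((1 : F) : G) * y.1 * ((1 : F) : G)⁻¹ = y.1
                simp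
              mul_smul := fun f g y => by
                apply Subtype.ext
                change ((f * g : F) : G) * y.1 * ((f * g : F) : G)⁻¹ =
                  (f : G) * ((g : G) * y.1 * (g : G)⁻¹) * (f : G)⁻¹
                push_cast
                group }
          have hXc : Nat.card X = Nat.card M := Nat.card_congr
            { toFun := fun y => ⟨q⁻¹ * y.1, y.2⟩
              invFun := fun m => ⟨q * m.1, by simp⟩
              left_inv := fun y => by simp
              right_inv := fun m => by simp }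
          have hFp : IsPGroup p F := fun f => ⟨1, by
            rw [pow_one]
            exact Subtype.ext (hPp f (hF f.2))⟩
          obtain ⟨⟨y, hy⟩, hfix⟩ :=
            hFp.nonempty_fixed_point_of_prime_not_dvd_card X (by rw [hXc]; exact hpM)
          have hyQ : y ∈ Q := by
            have := mul_mem hq (hMQ.le hy)
            rwa [mul_inv_cancel_left] at this
          have hyC : y ∈ centralizer (F : Set G) := by
            rw [mem_centralizer_iff]
            intro f hf
            have h3 : f * y * f⁻¹ = y := congrArg Subtype.val (hfix ⟨f, hf⟩)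
            exact mul_inv_eq_iff_eq_mul.1 h3
          refine ⟨QuotientGroup.mk ⟨y, hyQ, hyC⟩, ?_⟩
          change (QuotientGroup.mk (⟨y, hyQ⟩ : Q) : Q ⧸ M.subgroupOf Q) = _
          rw [QuotientGroup.eq, mem_subgroupOf]
          have h4 : (((⟨y, hyQ⟩ : Q)⁻¹ * ⟨q, hq⟩ : Q) : G) = (q⁻¹ * y)⁻¹ := by
            push_cast
            group
          rw [h4]
          exact inv_mem hy
        rw [h2] at h1
        rw [hcZ, hwF, ← h1]
        push_cast
        ring
      · -- no fixed points on the top factor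
        have hQM : Q ⊓ centralizer (F : Set G) ≤ M := by
          rcases hfm (F : Set G) hF with h | h
          · exact absurd (fun f hf => h f hf) hFH
          · intro q hq
            have h2 : q ∈ fixMod Q M (F : Set G) hnorm := by
              refine ⟨hq.1, fun f hf => ?_⟩
              rw [mem_centralizer_iff.1 hq.2 f hf, mul_inv_cancel_right, mul_inv_cancel]
              exact one_mem _
            rwa [h] at h2
        have hMA : Q ⊓ centralizer (F : Set G) = M ⊓ centralizer (F : Set G) :=
          le_antisymm (le_inf hQM inf_le_right) (inf_le_inf_right _ hMQ.le)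
        rw [hMA, hcZ, hwF]
        ring

end

end Vale.Agent.P240.K
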